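import Mathlib.Algebra.BigOperators.Fin
import Mathlib.Algebra.BigOperators.Ring.Finset
import Mathlib.Algebra.Group.Commute.Hom
import Mathlib.Algebra.Group.Commute.Units
import Mathlib.Algebra.Order.Star.Basic
import Mathlib.Algebra.Star.Module
import Mathlib.Algebra.Star.Unitary
import Mathlib.Analysis.CStarAlgebra.CStarMatrix
import Mathlib.Analysis.CStarAlgebra.Classes
import Mathlib.Analysis.CStarAlgebra.ContinuousFunctionalCalculus.Basic
import Mathlib.Analysis.CStarAlgebra.ContinuousFunctionalCalculus.Order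
import Mathlib.Analysis.CStarAlgebra.ContinuousLinearMap
import Mathlib.Analysis.CStarAlgebra.Exponential
import Mathlib.Analysis.CStarAlgebra.GelfandDuality
import Mathlib.Analysis.CStarAlgebra.GelfandNaimarkSegal
import Mathlib.Analysis.CStarAlgebra.Hom
import Mathlib.Analysis.CStarAlgebra.lpSpace
import Mathlib.Analysis.InnerProductSpace.Adjoint
import Mathlib.Analysis.InnerProductSpace.PiL2
import Mathlib.Analysis.InnerProductSpace.Positive
import Mathlib.Analysis.InnerProductSpace.Projection.Minimal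
import Mathlib.Analysis.InnerProductSpace.Spectrum
import Mathlib.Analysis.InnerProductSpace.l2Space
import Mathlib.Analysis.Matrix.PosDef
import Mathlib.Analysis.Matrix.Spectrum
import Mathlib.Analysis.Normed.Group.Quotient
import Mathlib.Analysis.Normed.Lp.lpHolder
import Mathlib.Analysis.Normed.Module.HahnBanach
import Mathlib.Analysis.Real.Sqrt
import Mathlib.Analysis.SpecialFunctions.Complex.CircleAddChar
import Mathlib.Analysis.SpecialFunctions.ContinuousFunctionalCalculus.Rpow.Basic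
import Mathlib.Analysis.SpecialFunctions.Pow.Asymptotics
import Mathlib.Data.Countable.Basic
import Mathlib.Data.Fin.Tuple.Basic
import Mathlib.Data.Nat.ModEq
import Mathlib.Data.Nat.Prime.Basic
import Mathlib.Data.Nat.Prime.Defs
import Mathlib.Data.ZMod.Basic
import Mathlib.Order.Filter.Ultrafilter.Defs
import Mathlib.RingTheory.Ideal.Quotient.Operations
import Mathlib.Tactic
import Mathlib.Tactic.NoncommRing
import Mathlib.Topology.Algebra.Module.Basic
import Mathlib.Topology.Algebra.Order.LiminfLimsup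
import Mathlib.Topology.Algebra.StarSubalgebra
import Mathlib.Topology.ContinuousMap.Bounded.Normed
import Mathlib.Topology.ContinuousMap.Bounded.Star
import Mathlib.GroupTheory.NoncommCoprod
import Mathlib.Tactic.NormNum.Prime
import Vale.Agent.P083.EmbedDef
import Vale.Agent.P083.CuntzDef
import Vale.Agent.P083N.UltraDef

set_option linter.all false

section

section

/-! Monomial data: an injective self-map of an index set together with phase exponents. -/

namespace Vale.Agent.P083N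

universe u v

/-- Monomial data on `J`: `δ_j ↦ χ(ph j) δ_{map j}`. -/
@[ext]
structure Mon (J : Type u) (p : ℕ) where
  map : J → J
  inj : Function.Injective map
  ph : J → ZMod p

namespace Mon

variable {J : Type u} {J' : Type v} {p : ℕ}

instance : Monoid (Mon J p) where
  mul a b := ⟨fun j => a.map (b.map j), fun _ _ h => b.inj (a.inj h),
    fun j => b.ph j + a.ph (b.map j)⟩
  one := ⟨fun j => j, fun _ _ h => h, fun _ => 0⟩
  mul_assoc a b c := by
    refine Mon.ext rfl (funext fun j => ?_)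
    show c.ph j + (b.ph (c.map j) + a.ph (b.map (c.map j)))
      = (c.ph j + b.ph (c.map j)) + a.ph (b.map (c.map j))
    rw [add_assoc]
  one_mul a := by
    refine Mon.ext rfl (funext fun j => ?_)
    show a.ph j + 0 = a.ph j
    rw [add_zero]
  mul_one a := by
    refine Mon.ext rfl (funext fun j => ?_)
    show 0 + a.ph j = a.ph j
    rw [zero_add]

@[simp] theorem mul_map (a b : Mon J p) (j : J) : (a * b).map j = a.map (b.map j) := rfl
@[simp] theorem mul_ph (a b : Mon J p) (j : J) : (a * b).ph j = b.ph j + a.ph (b.map j) := rfl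
@[simp] theorem one_map (j : J) : (1 : Mon J p).map j = j := rfl
@[simp] theorem one_ph (j : J) : (1 : Mon J p).ph j = 0 := rfl

theorem ext' {a b : Mon J p} (h1 : ∀ j, a.map j = b.map j) (h2 : ∀ j, a.ph j = b.ph j) : a = b :=
  Mon.ext (funext h1) (funext h2)

/-- The scalar `χ(k)`. -/
def scal (k : ZMod p) : Mon J p := ⟨fun j => j, fun _ _ h => h, fun _ => k⟩

@[simp] theorem scal_map (k : ZMod p) (j : J) : (scal k : Mon J p).map j = j := rfl
@[simp] theorem scal_ph (k : ZMod p) (j : J) : (scal k : Mon J p).ph j = k := rfl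

/-- Amplification `a ↦ a × id` on `J × J'`. -/
def amp (J' : Type v) : Mon J p →* Mon (J × J') p where
  toFun a := ⟨fun j => (a.map j.1, j.2), fun x y h => by
    have h1 := congrArg Prod.fst h
    have h2 := congrArg Prod.snd h
    exact Prod.ext (a.inj h1) h2, fun j => a.ph j.1⟩
  map_one' := rfl
  map_mul' _ _ := rfl

@[simp] theorem amp_map (a : Mon J p) (j : J × J') : (amp J' a).map j = (a.map j.1, j.2) := rfl
@[simp] theorem amp_ph (a : Mon J p) (j : J × J') : (amp J' a).ph j = a.ph j.1 := rfl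

/-- The action by conjugation on matrices: `a ↦ a ⊗ conj a` on `J × J`. -/
def sq : Mon J p →* Mon (J × J) p where
  toFun a := ⟨fun j => (a.map j.1, a.map j.2), fun x y h => by
    have h1 := congrArg Prod.fst h
    have h2 := congrArg Prod.snd h
    exact Prod.ext (a.inj h1) (a.inj h2), fun j => a.ph j.1 - a.ph j.2⟩
  map_one' := by
    refine Mon.ext rfl (funext fun j => ?_)
    show (0 : ZMod p) - 0 = 0
    rw [sub_zero]
  map_mul' a b := by
    refine Mon.ext rfl (funext fun j => ?_)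
    show (b.ph j.1 + a.ph (b.map j.1)) - (b.ph j.2 + a.ph (b.map j.2))
      = (b.ph j.1 - b.ph j.2) + (a.ph (b.map j.1) - a.ph (b.map j.2))
    ring

/-- Assemble level-preserving data. -/
def sig (W : ℕ → Type v) : (∀ j, Mon (W j) p) →* Mon (Σ j, W j) p where
  toFun a := ⟨fun x => ⟨x.1, (a x.1).map x.2⟩, fun x y h => by
    obtain ⟨j, x⟩ := x
    obtain ⟨k, y⟩ := y
    simp only [Sigma.mk.injEq] at h
    obtain ⟨rfl, h⟩ := h
    rw [heq_eq_eq] at h
    rw [(a j).inj h], fun x => (a x.1).ph x.2⟩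
  map_one' := rfl
  map_mul' _ _ := rfl

end Mon

end Vale.Agent.P083N
end
end

section

section

namespace Vale.Agent.P083N

/-- A pair in a monoid which generates a Heisenberg (or abelian) group. -/
def HeisM {M : Type*} [Monoid M] (g h : M) : Prop :=
  ∃ z, g * h = z * (h * g) ∧ Commute z g ∧ Commute z h

theorem HeisM.map {M N F : Type*} [Monoid M] [Monoid N] [FunLike F M N] [MonoidHomClass F M N]
    (f : F) {g h : M} (H : HeisM g h) : HeisM (f g) (f h) := by
  obtain ⟨z, h1, h2, h3⟩ := H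
  exact ⟨f z, by rw [← map_mul, h1, map_mul, map_mul], h2.map f, h3.map f⟩

end Vale.Agent.P083N
end
end

section

section

/-! The six level-preserving generators on words and the creation maps. -/

namespace Vale.Agent.P083N

/-- Words of length `j` over `ZMod p`. -/
abbrev Wd (p j : ℕ) : Type := Fin j → ZMod p

/-- All finite words. -/
abbrev Ix (p : ℕ) : Type := Σ j, Wd p j

variable {p : ℕ}

/-- The `i`-th digit of a word, zero outside. -/
def dg {j : ℕ} (x : Wd p j) (i : ℕ) : ZMod p := if h : i < j then x ⟨i, h⟩ else 0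

/-- The additive map with value x_(i-1) at i if i >= 1 and i - 1 = r mod 3, else zero. -/
def NN (r : ℕ) {j : ℕ} (x : Wd p j) : Wd p j := fun i =>
  if 1 ≤ i.val ∧ (i.val - 1) % 3 = r then dg x (i.val - 1) else 0

/-- The unit vector in position `0`. -/
def e0 (p j : ℕ) : Wd p j := fun i => if i.val = 0 then 1 else 0

/-- The quadratic form `∑ x_i x_{i+1}`. -/
def QQ {j : ℕ} (x : Wd p j) : ZMod p := ∑ i ∈ Finset.range j, dg x i * dg x (i + 1)

/-- The six generators. -/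
inductive Gen : Type
  | X | Z | A0 | A1 | A2 | B
  deriving DecidableEq

instance : Fintype Gen where
  elems := {Gen.X, Gen.Z, Gen.A0, Gen.A1, Gen.A2, Gen.B}
  complete := by intro g; cases g <;> decide

theorem Gen.card : Fintype.card Gen = 6 := by decide

theorem dg_add {j : ℕ} (x y : Wd p j) (i : ℕ) : dg (x + y) i = dg x i + dg y i := by
  unfold dg
  split_ifs
  · rfl
  · rw [add_zero]

theorem dg_neg {j : ℕ} (x : Wd p j) (i : ℕ) : dg (-x) i = - dg x i := by
  unfold dg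
  split_ifs
  · rfl
  · rw [neg_zero]

theorem NN_add (r : ℕ) {j : ℕ} (x y : Wd p j) : NN r (x + y) = NN r x + NN r y := by
  funext i
  show (if 1 ≤ i.val ∧ (i.val - 1) % 3 = r then dg (x + y) (i.val - 1) else 0)
    = (if 1 ≤ i.val ∧ (i.val - 1) % 3 = r then dg x (i.val - 1) else 0)
      + (if 1 ≤ i.val ∧ (i.val - 1) % 3 = r then dg y (i.val - 1) else 0)
  rw [dg_add]
  split_ifs
  · rfl
  · rw [add_zero]

theorem NN_neg (r : ℕ) {j : ℕ} (x : Wd p j) : NN r (-x) = - NN r x := by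
  funext i
  show (if 1 ≤ i.val ∧ (i.val - 1) % 3 = r then dg (-x) (i.val - 1) else 0)
    = - (if 1 ≤ i.val ∧ (i.val - 1) % 3 = r then dg x (i.val - 1) else 0)
  rw [dg_neg]
  split_ifs
  · rfl
  · rw [neg_zero]

theorem NN_NN {r s : ℕ} (h : ¬ (s + 1) % 3 = r % 3) {j : ℕ} (x : Wd p j) :
    NN r (NN s x) = 0 := by
  funext i
  show (if 1 ≤ i.val ∧ (i.val - 1) % 3 = r then dg (NN s x) (i.val - 1) else 0) = 0
  by_cases h1 : 1 ≤ i.val ∧ (i.val - 1) % 3 = r
  · rw [if_pos h1]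
    have hlt : i.val - 1 < j := by omega
    unfold dg
    rw [dif_pos hlt]
    show (if 1 ≤ i.val - 1 ∧ (i.val - 1 - 1) % 3 = s then dg x (i.val - 1 - 1) else 0) = 0
    rw [if_neg]
    rintro ⟨h2, h3⟩
    apply h
    omega
  · rw [if_neg h1]

theorem addNN_injective (r : ℕ) (j : ℕ) :
    Function.Injective (fun x : Wd p j => x + NN r x) := by
  have key : ∀ x : Wd p j, (x + NN r x) + NN r (-(x + NN r x)) = x := by
    intro x
    rw [NN_neg, NN_add, NN_NN (by omega)]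
    abel
  intro x y h
  have h' : x + NN r x = y + NN r y := h
  rw [← key x, h', key y]

/-- The generators as monomial data on words of length `j`. -/
def gl (j : ℕ) : Gen → Mon (Wd p j) p
  | Gen.X => ⟨fun x => x + e0 p j, fun _ _ h => add_right_cancel h, fun _ => 0⟩
  | Gen.Z => ⟨fun x => x, fun _ _ h => h, fun x => dg x 0⟩
  | Gen.A0 => ⟨fun x => x + NN 0 x, addNN_injective 0 j, fun _ => 0⟩
  | Gen.A1 => ⟨fun x => x + NN 1 x, addNN_injective 1 j, fun _ => 0⟩
  | Gen.A2 => ⟨fun x => x + NN 2 x, addNN_injective 2 j, fun _ => 0⟩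
  | Gen.B => ⟨fun x => x, fun _ _ h => h, fun x => QQ x⟩

/-- The generators on all words. -/
def gen (g : Gen) : Mon (Ix p) p := Mon.sig (Wd p) (fun j => gl j g)

/-- The creation maps. -/
def cre (y : ZMod p) : Mon (Ix p) p where
  map x := ⟨x.1 + 1, (Fin.cons y x.2 : Wd p (x.1 + 1))⟩
  inj := by
    rintro ⟨j, x⟩ ⟨k, z⟩ h
    simp only [Sigma.mk.injEq] at h
    obtain ⟨h1, h2⟩ := h
    obtain rfl : j = k := by omega
    rw [heq_eq_eq] at h2
    rw [(Fin.cons_injective2 h2).2]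
  ph _ := 0

theorem gen_level (g : Gen) (x : Ix p) : ((gen g).map x).1 = x.1 := rfl

end Vale.Agent.P083N
end
end

section

section

/-! Operators on `ℓ²(J, K)` given by monomial data, and the diagonal action of `B(K)`. -/

open scoped ENNReal InnerProductSpace

set_option linter.unusedSectionVars false

namespace Vale.Agent.P083N

noncomputable section

universe u v

variable {J : Type u} {p : ℕ} {K : Type v} [NormedAddCommGroup K] [InnerProductSpace ℂ K]

/-- `ℓ²(J, K)`. -/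
abbrev L2 (J : Type u) (K : Type v) [NormedAddCommGroup K] : Type (max u v) :=
  lp (fun _ : J => K) 2

/-- elementary vectors -/
def opSg [DecidableEq J] (i : J) (ξ : K) : L2 J K := lp.single 2 i ξ

theorem opSg_self [DecidableEq J] (i : J) (ξ : K) : (opSg i ξ : L2 J K) i = ξ :=
  lp.single_apply_self (E := fun _ : J => K) 2 i ξ

theorem opSg_ne [DecidableEq J] {i j : J} (h : i ≠ j) (ξ : K) : (opSg i ξ : L2 J K) j = 0 :=
  lp.single_apply_ne (E := fun _ : J => K) 2 i ξ h.symm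

theorem opSg_add [DecidableEq J] (i : J) (ξ η : K) :
    (opSg i (ξ + η) : L2 J K) = opSg i ξ + opSg i η :=
  lp.single_add (E := fun _ : J => K) 2 i ξ η

theorem opSg_smul [DecidableEq J] (i : J) (c : ℂ) (ξ : K) :
    (opSg i (c • ξ) : L2 J K) = c • opSg i ξ :=
  lp.single_smul (E := fun _ : J => K) 2 i c ξ

theorem inner_opSg_left [DecidableEq J] (i : J) (ξ : K) (f : L2 J K) :
    ⟪(opSg i ξ : L2 J K), f⟫_ℂ = ⟪ξ, f i⟫_ℂ :=
  lp.inner_single_left (G := fun _ : J => K) i ξ f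

theorem inner_opSg [DecidableEq J] (i j : J) (ξ η : K) :
    ⟪(opSg i ξ : L2 J K), opSg j η⟫_ℂ = if i = j then ⟪ξ, η⟫_ℂ else 0 := by
  rw [inner_opSg_left]
  by_cases h : i = j
  · subst h
    rw [if_pos rfl, opSg_self]
  · rw [if_neg h, opSg_ne (Ne.symm h), inner_zero_right]

theorem norm_opSg [DecidableEq J] (i : J) (ξ : K) : ‖(opSg i ξ : L2 J K)‖ = ‖ξ‖ :=
  lp.norm_single (E := fun _ : J => K) (p := 2) two_pos i ξ

theorem ext_opSg [DecidableEq J] {E : Type*} [NormedAddCommGroup E] [NormedSpace ℂ E]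
    {T S : L2 J K →L[ℂ] E} (h : ∀ i ξ, T (opSg i ξ) = S (opSg i ξ)) : T = S := by
  ext f
  have h1 := lp.hasSum_single (E := fun _ : J => K) (p := 2) ENNReal.ofNat_ne_top f
  have h2 := h1.mapL T
  have h3 := h1.mapL S
  refine h2.unique ?_
  convert h3 using 2 with i
  exact (h i (f i))

/-- evaluation at an index -/
def opEval (i : J) : L2 J K →L[ℂ] K :=
  LinearMap.mkContinuous
    { toFun := fun f => f i
      map_add' := fun _ _ => rfl
      map_smul' := fun _ _ => rfl } 1 fun f => by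
    rw [one_mul]
    exact lp.norm_apply_le_norm (by simp) f i

theorem norm_circle_smul (z : Circle) (ξ : K) : ‖((z : Circle) : ℂ) • ξ‖ = ‖ξ‖ := by
  rw [norm_smul, Circle.norm_coe, one_mul]

variable [CompleteSpace K]

open Classical in
variable (K) in
/-- The monomial isometry as a linear isometry. -/
def opIso (χ : AddChar (ZMod p) Circle) (a : Mon J p) : L2 J K →ₗᵢ[ℂ] L2 J K :=
  OrthogonalFamily.linearIsometry (G := fun _ : J => K)
    (V := fun i =>
      { toFun := fun ξ => opSg (a.map i) (((χ (a.ph i) : Circle) : ℂ) • ξ)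
        map_add' := fun ξ η => by rw [smul_add, opSg_add]
        map_smul' := fun c ξ => by
          rw [smul_comm, opSg_smul]; rfl
        norm_map' := fun ξ => by
          show ‖(opSg (a.map i) (((χ (a.ph i) : Circle) : ℂ) • ξ) : L2 J K)‖ = ‖ξ‖
          rw [norm_opSg, norm_circle_smul] })
    (by
      intro i j hij ξ η
      show ⟪(opSg (a.map i) (((χ (a.ph i) : Circle) : ℂ) • ξ) : L2 J K),
        opSg (a.map j) (((χ (a.ph j) : Circle) : ℂ) • η)⟫_ℂ = 0
      rw [inner_opSg, if_neg (a.inj.ne hij)])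

theorem opSg_decEq (d1 d2 : DecidableEq J) (i : J) (ξ : K) :
    (@opSg J K _ d1 i ξ : L2 J K) = @opSg J K _ d2 i ξ := by
  have : d1 = d2 := Subsingleton.elim _ _
  rw [this]

theorem opIso_single [DecidableEq J] (χ : AddChar (ZMod p) Circle) (a : Mon J p) (i : J) (ξ : K) :
    opIso K χ a (opSg i ξ) = opSg (a.map i) (((χ (a.ph i) : Circle) : ℂ) • ξ) := by
  rw [opIso]
  refine (OrthogonalFamily.linearIsometry_apply_single (G := fun _ : J => K) _ ξ).trans ?_
  exact opSg_decEq _ _ _ _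

variable (K) in
/-- The monomial isometry `δ_j ⊗ k ↦ χ(ph j) δ_{map j} ⊗ k`. -/
def op (χ : AddChar (ZMod p) Circle) : Mon J p →* (L2 J K →L[ℂ] L2 J K) where
  toFun a := (opIso K χ a).toContinuousLinearMap
  map_one' := by
    classical
    refine ext_opSg fun i ξ => ?_
    show opIso K χ 1 (opSg i ξ) = opSg i ξ
    rw [opIso_single, Mon.one_map, Mon.one_ph, AddChar.map_zero_eq_one, Circle.coe_one, one_smul]
  map_mul' a b := by
    classical
    refine ext_opSg fun i ξ => ?_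
    show opIso K χ (a * b) (opSg i ξ) = opIso K χ a (opIso K χ b (opSg i ξ))
    rw [opIso_single, opIso_single, opIso_single, Mon.mul_map, Mon.mul_ph, AddChar.map_add_eq_mul,
      Circle.coe_mul, smul_smul, mul_comm]

theorem op_opSg [DecidableEq J] (χ : AddChar (ZMod p) Circle) (a : Mon J p) (j : J) (k : K) :
    op K χ a (opSg j k) = opSg (a.map j) (((χ (a.ph j) : Circle) : ℂ) • k) :=
  opIso_single χ a j k

theorem op_apply_map (χ : AddChar (ZMod p) Circle) (a : Mon J p) (f : L2 J K) (j : J) :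
    op K χ a f (a.map j) = ((χ (a.ph j) : Circle) : ℂ) • f j := by
  classical
  have : (opEval (a.map j)).comp (op K χ a)
      = ((χ (a.ph j) : Circle) : ℂ) • (opEval j : L2 J K →L[ℂ] K) := by
    refine ext_opSg fun i ξ => ?_
    show op K χ a (opSg i ξ) (a.map j) = ((χ (a.ph j) : Circle) : ℂ) • (opSg i ξ : L2 J K) j
    rw [op_opSg]
    by_cases h : i = j
    · subst h
      rw [opSg_self, opSg_self]
    · rw [opSg_ne h, opSg_ne (a.inj.ne h), smul_zero]
  exact DFunLike.congr_fun this f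

theorem op_apply_of_notMem (χ : AddChar (ZMod p) Circle) (a : Mon J p) (f : L2 J K) (j : J)
    (hj : j ∉ Set.range a.map) : op K χ a f j = 0 := by
  classical
  have : (opEval j).comp (op K χ a) = (0 : L2 J K →L[ℂ] K) := by
    refine ext_opSg fun i ξ => ?_
    show op K χ a (opSg i ξ) j = 0
    rw [op_opSg, opSg_ne]
    rintro rfl
    exact hj ⟨i, rfl⟩
  exact DFunLike.congr_fun this f

theorem star_op_apply (χ : AddChar (ZMod p) Circle) (a : Mon J p) (f : L2 J K) (j : J) :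
    star (op K χ a) f j = ((χ (- a.ph j) : Circle) : ℂ) • f (a.map j) := by
  classical
  refine ext_inner_left ℂ fun ξ => ?_
  rw [← inner_opSg_left, ContinuousLinearMap.star_eq_adjoint,
    ContinuousLinearMap.adjoint_inner_right, op_opSg, inner_opSg_left, inner_smul_left,
    inner_smul_right, AddChar.map_neg_eq_inv, Circle.coe_inv_eq_conj]

theorem op_scal (χ : AddChar (ZMod p) Circle) (k : ZMod p) :
    op K χ (Mon.scal k : Mon J p) = ((χ k : Circle) : ℂ) • (1 : L2 J K →L[ℂ] L2 J K) := by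
  classical
  refine ext_opSg fun i ξ => ?_
  show op K χ (Mon.scal k : Mon J p) (opSg i ξ) = ((χ k : Circle) : ℂ) • opSg i ξ
  rw [op_opSg, opSg_smul, Mon.scal_map, Mon.scal_ph]

theorem circle_neg_smul (χ : AddChar (ZMod p) Circle) (k : ZMod p) (ξ : K) :
    ((χ (-k) : Circle) : ℂ) • ((χ k : Circle) : ℂ) • ξ = ξ := by
  rw [smul_smul, ← Circle.coe_mul, ← AddChar.map_add_eq_mul, neg_add_cancel,
    AddChar.map_zero_eq_one, Circle.coe_one, one_smul]

theorem circle_smul_neg (χ : AddChar (ZMod p) Circle) (k : ZMod p) (ξ : K) :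
    ((χ k : Circle) : ℂ) • ((χ (-k) : Circle) : ℂ) • ξ = ξ := by
  rw [smul_smul, ← Circle.coe_mul, ← AddChar.map_add_eq_mul, add_neg_cancel,
    AddChar.map_zero_eq_one, Circle.coe_one, one_smul]

theorem star_op_mul_op (χ : AddChar (ZMod p) Circle) (a : Mon J p) :
    star (op K χ a) * op K χ a = 1 := by
  ext f j
  show star (op K χ a) (op K χ a f) j = f j
  rw [star_op_apply, op_apply_map, circle_neg_smul]

theorem star_op_mul_op_of_disjoint (χ : AddChar (ZMod p) Circle) (a b : Mon J p)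
    (h : ∀ i j, a.map i ≠ b.map j) : star (op K χ a) * op K χ b = 0 := by
  ext f j
  show star (op K χ a) (op K χ b f) j = (0 : K)
  rw [star_op_apply, op_apply_of_notMem, smul_zero]
  rintro ⟨i, hi⟩
  exact h j i hi.symm

theorem op_mul_star_op (χ : AddChar (ZMod p) Circle) (a : Mon J p)
    (h : Function.Surjective a.map) : op K χ a * star (op K χ a) = 1 := by
  ext f i
  obtain ⟨j, rfl⟩ := h i
  show op K χ a (star (op K χ a) f) (a.map j) = f (a.map j)
  rw [op_apply_map, star_op_apply, circle_smul_neg]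

theorem op_single [DecidableEq J] (χ : AddChar (ZMod p) Circle) (a : Mon J p) (j : J) (k : K) :
    op K χ a (lp.single 2 j k) = lp.single 2 (a.map j) (((χ (a.ph j) : Circle) : ℂ) • k) :=
  op_opSg χ a j k

/-- the ampliation of an operator -/
def diagAmp (b : K →L[ℂ] K) : L2 J K →L[ℂ] L2 J K :=
  lp.mapCLM 2 (fun _ : J => b) (norm_nonneg b) fun _ => le_rfl

theorem diagAmp_apply (b : K →L[ℂ] K) (f : L2 J K) (i : J) : diagAmp b f i = b (f i) := rfl

variable (J K) in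
/-- The diagonal action `x ↦ x ⊗ 1`. -/
def diag : (K →L[ℂ] K) →⋆ₐ[ℂ] (L2 J K →L[ℂ] L2 J K) where
  toFun := diagAmp
  map_one' := by
    ext f i
    rfl
  map_mul' a b := by
    ext f i
    rfl
  map_zero' := by
    ext f i
    rfl
  map_add' a b := by
    ext f i
    rfl
  commutes' c := by
    ext f i
    rfl
  map_star' b := by
    rw [ContinuousLinearMap.star_eq_adjoint, ContinuousLinearMap.star_eq_adjoint]
    refine (ContinuousLinearMap.eq_adjoint_iff _ _).2 fun f g => ?_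
    rw [lp.inner_eq_tsum, lp.inner_eq_tsum]
    refine tsum_congr fun i => ?_
    rw [diagAmp_apply, diagAmp_apply, ContinuousLinearMap.adjoint_inner_left]

theorem diag_apply (x : K →L[ℂ] K) (f : L2 J K) (j : J) : diag J K x f j = x (f j) := rfl

theorem diag_opSg [DecidableEq J] (x : K →L[ℂ] K) (j : J) (k : K) :
    diag J K x (opSg j k) = opSg j (x k) := by
  ext i
  rw [diag_apply]
  by_cases h : j = i
  · subst h
    rw [opSg_self, opSg_self]
  · rw [opSg_ne h, opSg_ne h, map_zero]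

theorem diag_comm_op (χ : AddChar (ZMod p) Circle) (a : Mon J p) (x : K →L[ℂ] K) :
    Commute (diag J K x) (op K χ a) := by
  classical
  refine ext_opSg fun i ξ => ?_
  show diag J K x (op K χ a (opSg i ξ)) = op K χ a (diag J K x (opSg i ξ))
  rw [op_opSg, diag_opSg, diag_opSg, op_opSg, map_smul]

end

end Vale.Agent.P083N
end
end

section

section

/-! STEP 3: the operators at a fixed stage of the ultrapower. -/

open Filter Topology
open scoped ENNReal InnerProductSpace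

namespace Vale.Agent.P083N

noncomputable section

variable {p : ℕ} {K : Type} [NormedAddCommGroup K] [InnerProductSpace ℂ K] [CompleteSpace K]

/-- `u_g ⊗ ĝ`. -/
def UU (χ : AddChar (ZMod p) Circle) (u : Gen → (K →L[ℂ] K)) (g : Gen) :
    L2 (Ix p) K →L[ℂ] L2 (Ix p) K :=
  diag (Ix p) K (u g) * op K χ⁻¹ (gen g)

/-- `v_y ⊗ t̂_y`. -/
def WW (χ : AddChar (ZMod p) Circle) (v : ZMod p → (K →L[ℂ] K)) (y : ZMod p) :
    L2 (Ix p) K →L[ℂ] L2 (Ix p) K :=
  diag (Ix p) K (v y) * op K χ⁻¹ (cre y)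

/-- `1 - (1/p) ∑ U^k`. -/
def QQ' (χ : AddChar (ZMod p) Circle) (u : Gen → (K →L[ℂ] K)) (g : Gen) :
    L2 (Ix p) K →L[ℂ] L2 (Ix p) K :=
  1 - ((p : ℂ)⁻¹) • ∑ k ∈ Finset.range p, (UU χ u g) ^ k

/-- The positive operator `∑ Q* Q`. -/
def DD (χ : AddChar (ZMod p) Circle) (u : Gen → (K →L[ℂ] K)) :
    L2 (Ix p) K →L[ℂ] L2 (Ix p) K :=
  ∑ g, star (QQ' χ u g) * QQ' χ u g

/-- The lifting operator. -/
def LL [NeZero p] (χ : AddChar (ZMod p) Circle) (v : ZMod p → (K →L[ℂ] K)) :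
    L2 (Ix p) K →L[ℂ] L2 (Ix p) K :=
  (((1 / Real.sqrt p : ℝ)) : ℂ) • ∑ y, WW χ v y

/-- What holds at a stage of the ultrapower. -/
structure Good [NeZero p] (χ : AddChar (ZMod p) Circle) (δ : ℝ) (u : Gen → (K →L[ℂ] K))
    (v : ZMod p → (K →L[ℂ] K)) (s : K →L[ℂ] K) : Prop where
  gap : ∀ x, (1 / 2) * (⟪x, DD χ u x⟫_ℂ).re - δ * ‖x‖ ^ 2 ≤ ‖DD χ u x‖ ^ 2
  lift : ∀ x, (⟪LL χ v x, DD χ u (LL χ v x)⟫_ℂ).re ≤ (⟪x, DD χ u x⟫_ℂ).re + δ * ‖x‖ ^ 2
  iso : ∀ x, (1 - δ) * ‖x‖ ^ 2 ≤ ‖LL χ v x‖ ^ 2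
  inv : ∀ g x, ‖UU χ u g x - x‖ ≤ 3 * ‖QQ' χ u g x‖ + δ * ‖x‖
  uni : ∀ g, ‖star (u g) * u g - 1‖ ≤ δ
  norm_le : ∀ g, ‖QQ' χ u g‖ ≤ 2
  base : ∀ g (k : K), ‖QQ' χ u g (lp.single 2 ⟨0, 0⟩ (s k))‖ ≤ δ * ‖k‖
  s_iso : ∀ k, (1 - δ) * ‖k‖ ^ 2 ≤ ‖s k‖ ^ 2

end

end Vale.Agent.P083N
end
end

section

section

open Filter Topology
open scoped ENNReal

namespace Vale.Agent.P083

noncomputable section

universe u v

/-- The C*-algebra of norm-bounded sequences in `B` with the supremum norm. -/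
abbrev Bdd (B : Type u) [CStarAlgebra B] [Nontrivial B] : Type u := lp (fun _ : ℕ => B) ∞

variable (ω : Ultrafilter ℕ) (B : Type u) [CStarAlgebra B] [Nontrivial B]

variable {B} in
theorem Bdd.norm_apply_le (x : Bdd B) (n : ℕ) : ‖x n‖ ≤ ‖x‖ := lp.norm_apply_le_norm (by simp) x n

variable {B} in
/-- The sequence `x` is null along `ω`. -/
def IsNull (x : Bdd B) : Prop := Tendsto (fun n => ‖x n‖) ω (𝓝 0)

variable {ω B}

theorem IsNull.add {x y : Bdd B} (hx : IsNull ω x) (hy : IsNull ω y) : IsNull ω (x + y) := by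
  have h : Tendsto (fun n => ‖x n‖ + ‖y n‖) ω (𝓝 0) := by simpa only [add_zero] using Tendsto.add hx hy
  exact squeeze_zero (fun n => norm_nonneg _) (fun n => norm_add_le (x n) (y n)) h

theorem IsNull.zero : IsNull ω (0 : Bdd B) := by
  show Tendsto (fun n => ‖((0 : Bdd B) : ℕ → B) n‖) ω (𝓝 0)
  simp only [ZeroMemClass.coe_zero, PreLp.zero_apply, norm_zero, tendsto_const_nhds_iff]

theorem IsNull.mul_left (c : Bdd B) {x : Bdd B} (hx : IsNull ω x) : IsNull ω (c * x) := by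
  have h : Tendsto (fun n => ‖c‖ * ‖x n‖) ω (𝓝 0) := by
    simpa only [mul_zero] using Tendsto.const_mul ‖c‖ hx
  refine squeeze_zero (fun n => norm_nonneg _) (fun n => ?_) h
  calc ‖((c * x : Bdd B) : ℕ → B) n‖ = ‖c n * x n‖ := by simp only [lp.infty_coeFn_mul, Pi.mul_apply]
    _ ≤ ‖c n‖ * ‖x n‖ := norm_mul_le _ _
    _ ≤ ‖c‖ * ‖x n‖ := by gcongr; exact Bdd.norm_apply_le c n

theorem IsNull.mul_right {x : Bdd B} (c : Bdd B) (hx : IsNull ω x) : IsNull ω (x * c) := by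
  have h : Tendsto (fun n => ‖x n‖ * ‖c‖) ω (𝓝 0) := by
    simpa only [zero_mul] using Tendsto.mul_const ‖c‖ hx
  refine squeeze_zero (fun n => norm_nonneg _) (fun n => ?_) h
  calc ‖((x * c : Bdd B) : ℕ → B) n‖ = ‖x n * c n‖ := by simp only [lp.infty_coeFn_mul, Pi.mul_apply]
    _ ≤ ‖x n‖ * ‖c n‖ := norm_mul_le _ _
    _ ≤ ‖x n‖ * ‖c‖ := by gcongr; exact Bdd.norm_apply_le c n

variable (ω B)

/-- The ideal of bounded sequences whose norms tend to zero along `ω`. -/
def nullIdeal : Ideal (Bdd B) where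
  carrier := {x | IsNull ω x}
  add_mem' := IsNull.add
  zero_mem' := IsNull.zero
  smul_mem' := IsNull.mul_left

instance : (nullIdeal ω B).IsTwoSided := ⟨IsNull.mul_right⟩

/-- The norm ultrapower `B^ω = ℓ^∞(ℕ, B) / I_ω(B)`. -/
def Ultrapower : Type u := Bdd B ⧸ nullIdeal ω B

namespace Ultrapower

instance : Ring (Ultrapower ω B) := inferInstanceAs (Ring (Bdd B ⧸ nullIdeal ω B))

instance : Algebra ℂ (Ultrapower ω B) := inferInstanceAs (Algebra ℂ (Bdd B ⧸ nullIdeal ω B))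

theorem star_rel (x y : Bdd B) (hxy : (nullIdeal ω B).quotientRel x y) :
    (nullIdeal ω B).quotientRel (star x) (star y) := by
  rw [Submodule.quotientRel_def] at hxy ⊢
  have h : Tendsto (fun n => ‖x n - y n‖) ω (𝓝 0) := hxy
  show Tendsto (fun n => ‖star (x n) - star (y n)‖) ω (𝓝 0)
  simpa only [← star_sub, norm_star] using h

instance instStar : Star (Ultrapower ω B) := ⟨Quotient.map' star (star_rel ω B)⟩

end Ultrapower

end

end Vale.Agent.P083
end
end

section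

section

open Filter Topology
open scoped ENNReal

namespace Vale.Agent.P083

noncomputable section

universe u

variable (ω : Ultrafilter ℕ) (B : Type u) [CStarAlgebra B] [Nontrivial B]

instance isClosed_nullIdeal : IsClosed ((nullIdeal ω B : Ideal (Bdd B)) : Set (Bdd B)) := by
  refine isClosed_of_closure_subset fun x hx => ?_
  show Tendsto (fun n => ‖x n‖) ω (𝓝 0)
  rw [Metric.tendsto_nhds]
  intro ε hε
  obtain ⟨y, hy, hxy⟩ := Metric.mem_closure_iff.1 hx (ε / 2) (by positivity)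
  have hy' : Tendsto (fun n => ‖y n‖) ω (𝓝 0) := hy
  filter_upwards [(Metric.tendsto_nhds.1 hy') (ε / 2) (by positivity)] with n hn
  simp only [dist_zero_right, norm_norm] at hn ⊢
  have h1 : ‖x n - y n‖ ≤ ‖x - y‖ := Bdd.norm_apply_le (x - y) n
  have h2 : ‖x n‖ ≤ ‖x n - y n‖ + ‖y n‖ := by
    simpa using norm_add_le (x n - y n) (y n)
  rw [dist_eq_norm] at hxy
  linarith

namespace Ultrapower

instance instNACG : NormedAddCommGroup (Ultrapower ω B) :=
  Submodule.Quotient.normedAddCommGroup (nullIdeal ω B)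

instance : CompleteSpace (Ultrapower ω B) :=
  Submodule.Quotient.completeSpace (nullIdeal ω B)

variable {B} in
/-- The quotient map. -/
def mk (x : Bdd B) : Ultrapower ω B := Ideal.Quotient.mk (nullIdeal ω B) x

variable {B} in
theorem mk_surjective : Function.Surjective (mk ω : Bdd B → Ultrapower ω B) :=
  Ideal.Quotient.mk_surjective

variable {ω B} in
theorem mk_eq_mk {x y : Bdd B} :
    mk ω x = mk ω y ↔ Tendsto (fun n => ‖x n - y n‖) ω (𝓝 0) := by
  show Ideal.Quotient.mk (nullIdeal ω B) x = Ideal.Quotient.mk (nullIdeal ω B) y ↔ _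
  rw [Ideal.Quotient.mk_eq_mk_iff_sub_mem]
  rfl

@[simp] theorem mk_add (x y : Bdd B) : mk ω (x + y) = mk ω x + mk ω y :=
  map_add (Ideal.Quotient.mk (nullIdeal ω B)) x y

@[simp] theorem mk_mul (x y : Bdd B) : mk ω (x * y) = mk ω x * mk ω y :=
  map_mul (Ideal.Quotient.mk (nullIdeal ω B)) x y

@[simp] theorem mk_one : mk ω (1 : Bdd B) = 1 :=
  map_one (Ideal.Quotient.mk (nullIdeal ω B))

@[simp] theorem mk_zero : mk ω (0 : Bdd B) = 0 :=
  map_zero (Ideal.Quotient.mk (nullIdeal ω B))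

@[simp] theorem mk_smul (c : ℂ) (x : Bdd B) : mk ω (c • x) = c • mk ω x := rfl

variable {B} in
/-- For a bounded sequence, the norms converge along the ultrafilter. -/
theorem exists_lim (x : Bdd B) : ∃ L : ℝ, 0 ≤ L ∧ Tendsto (fun n => ‖x n‖) ω (𝓝 L) := by
  have hcpt : IsCompact (Set.Icc (0 : ℝ) ‖x‖) := isCompact_Icc
  have hle : ((ω.map (fun n => ‖x n‖) : Ultrafilter ℝ) : Filter ℝ) ≤ 𝓟 (Set.Icc (0 : ℝ) ‖x‖) := by
    rw [le_principal_iff, Ultrafilter.coe_map, mem_map]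
    exact Filter.Eventually.of_forall fun n => ⟨norm_nonneg _, Bdd.norm_apply_le x n⟩
  obtain ⟨L, hL, h⟩ := hcpt.ultrafilter_le_nhds (ω.map (fun n => ‖x n‖)) hle
  exact ⟨L, hL.1, h⟩

variable {ω B} in
/-- The norm of the ultrapower is the limit of the norms. -/
theorem norm_mk_eq {x : Bdd B} {L : ℝ} (hL : Tendsto (fun n => ‖x n‖) ω (𝓝 L)) :
    ‖mk ω x‖ = L := by
  have hL0 : 0 ≤ L := ge_of_tendsto' hL (fun n => norm_nonneg _)
  have key : ∀ y : Bdd B, mk ω y = mk ω x → L ≤ ‖y‖ := by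
    intro y hy
    have h1 := mk_eq_mk.1 hy.symm
    have h2 : Tendsto (fun n => ‖x n‖ - ‖x n - y n‖) ω (𝓝 (L - 0)) := hL.sub h1
    rw [sub_zero] at h2
    refine le_of_tendsto' h2 fun n => ?_
    have h3 : ‖x n‖ ≤ ‖x n - y n‖ + ‖y n‖ := by simpa only [sub_add_cancel] using norm_add_le (x n - y n) (y n)
    have := Bdd.norm_apply_le y n
    linarith
  apply le_antisymm
  · refine le_of_forall_pos_le_add fun ε hε => ?_
    -- truncate
    have hmem : Memℓp (fun n => if ‖x n‖ < L + ε then x n else (0 : B)) ∞ := by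
      refine memℓp_infty ⟨L + ε, ?_⟩
      rintro _ ⟨n, rfl⟩
      dsimp only
      split_ifs with h
      · exact h.le
      · simpa only [norm_zero] using by positivity
    let y : Bdd B := ⟨_, hmem⟩
    have hy : ∀ n, y n = if ‖x n‖ < L + ε then x n else (0 : B) := fun n => rfl
    have hxy : mk ω y = mk ω x := by
      rw [mk_eq_mk]
      refine Tendsto.congr' ?_ tendsto_const_nhds
      filter_upwards [hL.eventually_lt_const (by linarith : L < L + ε)] with n hn
      rw [hy n, if_pos hn]; simp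
    rw [← hxy]
    calc ‖mk ω y‖ ≤ ‖y‖ := Submodule.Quotient.norm_mk_le (nullIdeal ω B) y
      _ ≤ L + ε := by
        refine lp.norm_le_of_forall_le (by positivity) fun n => ?_
        rw [hy n]
        split_ifs with h
        · exact h.le
        · simpa only [norm_zero] using by positivity
  · refine le_of_forall_pos_le_add fun ε hε => ?_
    obtain ⟨y, hy, hy2⟩ := Submodule.Quotient.norm_mk_lt (S := nullIdeal ω B) (mk ω x) hε
    exact (key y hy).trans hy2.le

variable {ω B} in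
theorem tendsto_norm (x : Bdd B) : Tendsto (fun n => ‖x n‖) ω (𝓝 ‖mk ω x‖) := by
  obtain ⟨L, -, hL⟩ := exists_lim ω x
  rwa [norm_mk_eq hL]

@[simp] theorem mk_star (x : Bdd B) : mk ω (star x) = star (mk ω x) := rfl

instance : StarRing (Ultrapower ω B) where
  star_involutive := by
    intro x
    obtain ⟨x, rfl⟩ := mk_surjective ω x
    rw [← mk_star, ← mk_star, star_star]
  star_mul := by
    intro x y
    obtain ⟨x, rfl⟩ := mk_surjective ω x
    obtain ⟨y, rfl⟩ := mk_surjective ω y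
    rw [← mk_star, ← mk_star, ← mk_mul, ← mk_mul, ← mk_star, star_mul]
  star_add := by
    intro x y
    obtain ⟨x, rfl⟩ := mk_surjective ω x
    obtain ⟨y, rfl⟩ := mk_surjective ω y
    rw [← mk_star, ← mk_star, ← mk_add, ← mk_add, ← mk_star, star_add]

instance : StarModule ℂ (Ultrapower ω B) where
  star_smul := by
    intro c x
    obtain ⟨x, rfl⟩ := mk_surjective ω x
    rw [← mk_smul, ← mk_star, ← mk_star, star_smul, mk_smul]

instance instNormedRing : NormedRing (Ultrapower ω B) where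
  __ := (inferInstance : Ring (Ultrapower ω B))
  __ := instNACG ω B
  norm_mul_le := by
    intro x y
    obtain ⟨x, rfl⟩ := mk_surjective ω x
    obtain ⟨y, rfl⟩ := mk_surjective ω y
    rw [← mk_mul]
    have h1 := tendsto_norm (ω := ω) x
    have h2 := tendsto_norm (ω := ω) y
    have h3 := tendsto_norm (ω := ω) (x * y)
    refine le_of_tendsto_of_tendsto' h3 (h1.mul h2) fun n => ?_
    simpa using norm_mul_le (x n) (y n)

instance : NormedAlgebra ℂ (Ultrapower ω B) where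
  __ := (inferInstance : Algebra ℂ (Ultrapower ω B))
  norm_smul_le := by
    intro c x
    obtain ⟨x, rfl⟩ := mk_surjective ω x
    rw [← mk_smul]
    have h1 := (tendsto_norm (ω := ω) x).const_mul ‖c‖
    have h3 := tendsto_norm (ω := ω) (c • x)
    refine le_of_tendsto_of_tendsto' h3 h1 fun n => ?_
    simp [norm_smul]

instance : CStarRing (Ultrapower ω B) where
  norm_mul_self_le := by
    intro x
    obtain ⟨x, rfl⟩ := mk_surjective ω x
    rw [← mk_star, ← mk_mul]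
    have h1 := tendsto_norm (ω := ω) x
    have h3 := tendsto_norm (ω := ω) (star x * x)
    refine le_of_tendsto_of_tendsto' (h1.mul h1) h3 fun n => ?_
    simp [CStarRing.norm_star_mul_self]

instance : CStarAlgebra (Ultrapower ω B) where

end Ultrapower

end

end Vale.Agent.P083
end
end

section

section

open Filter Topology
open scoped ENNReal

namespace Vale.Agent.P083

noncomputable section

universe u v

end

end Vale.Agent.P083
end
end

section

section

open Filter Topology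
open scoped ENNReal InnerProductSpace

namespace Vale.Agent.P083

noncomputable section

universe u v w

/-- The maps `φ n : A → B` form a lift of a unital *-homomorphism from `A` into the norm
ultrapower of `B`. -/
structure LiftsHom (A : Type u) [CStarAlgebra A] (B : Type v) [CStarAlgebra B]
    (ω : Ultrafilter ℕ) (φ : ℕ → A → B) : Prop where
  bdd : ∀ a, ∃ C : ℝ, ∀ n, ‖φ n a‖ ≤ C
  one : Tendsto (fun n => ‖φ n 1 - 1‖) ω (𝓝 0)
  add : ∀ a b, Tendsto (fun n => ‖φ n (a + b) - (φ n a + φ n b)‖) ω (𝓝 0)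
  mul : ∀ a b, Tendsto (fun n => ‖φ n (a * b) - φ n a * φ n b‖) ω (𝓝 0)
  smul : ∀ (c : ℂ) (a : A), Tendsto (fun n => ‖φ n (c • a) - c • φ n a‖) ω (𝓝 0)
  star : ∀ a, Tendsto (fun n => ‖φ n (star a) - star (φ n a)‖) ω (𝓝 0)

theorem liftsHom_of_liftsEmbedding {A : Type u} [CStarAlgebra A] {B : Type v} [CStarAlgebra B]
    {ω : Ultrafilter ℕ} {φ : ℕ → A → B} (h : LiftsEmbedding A B ω φ) : LiftsHom A B ω φ :=
  ⟨h.bdd, h.one, h.add, h.mul, h.smul, h.star⟩

theorem liftsHom_comp {A : Type u} [CStarAlgebra A] {B : Type v} [CStarAlgebra B]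
    {C : Type w} [CStarAlgebra C] {ω : Ultrafilter ℕ} {φ : ℕ → A → B} (h : LiftsHom A B ω φ)
    (f : B →⋆ₐ[ℂ] C) : LiftsHom A C ω fun n a => f (φ n a) := by
  have hn : ∀ x, ‖f x‖ ≤ ‖x‖ := fun x => NonUnitalStarAlgHom.norm_apply_le f x
  refine ⟨?_, ?_, ?_, ?_, ?_, ?_⟩
  · intro a
    obtain ⟨c, hc⟩ := h.bdd a
    exact ⟨c, fun n => (hn _).trans (hc n)⟩
  · refine squeeze_zero (fun _ => norm_nonneg _) (fun n => ?_) h.one
    have := hn (φ n 1 - 1)
    rwa [map_sub, map_one] at this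
  · intro a b
    refine squeeze_zero (fun _ => norm_nonneg _) (fun n => ?_) (h.add a b)
    have := hn (φ n (a + b) - (φ n a + φ n b))
    rwa [map_sub, map_add] at this
  · intro a b
    refine squeeze_zero (fun _ => norm_nonneg _) (fun n => ?_) (h.mul a b)
    have := hn (φ n (a * b) - φ n a * φ n b)
    rwa [map_sub, map_mul] at this
  · intro c a
    refine squeeze_zero (fun _ => norm_nonneg _) (fun n => ?_) (h.smul c a)
    have := hn (φ n (c • a) - c • φ n a)
    rwa [map_sub, map_smul] at this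
  · intro a
    refine squeeze_zero (fun _ => norm_nonneg _) (fun n => ?_) (h.star a)
    have := hn (φ n (Star.star a) - Star.star (φ n a))
    rwa [map_sub, map_star] at this

/-- A lift of a unital *-homomorphism gives the homomorphism. -/
theorem exists_hom_of_liftsHom {A : Type u} [CStarAlgebra A] {B : Type v} [CStarAlgebra B]
    [Nontrivial B] {ω : Ultrafilter ℕ} {φ : ℕ → A → B} (hφ : LiftsHom A B ω φ) :
    ∃ (Φ : A →⋆ₐ[ℂ] Ultrapower ω B) (L : A → Bdd B), (∀ a n, L a n = φ n a) ∧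
      ∀ a, Φ a = Ultrapower.mk ω (L a) := by
  have hmem : ∀ a, Memℓp (fun n => φ n a) ∞ := by
    intro a
    obtain ⟨C, hC⟩ := hφ.bdd a
    refine memℓp_infty ⟨C, ?_⟩
    rintro _ ⟨n, rfl⟩
    exact hC n
  let L : A → Bdd B := fun a => ⟨fun n => φ n a, hmem a⟩
  have hL : ∀ a n, L a n = φ n a := fun a n => rfl
  have h1 : Ultrapower.mk ω (L 1) = 1 := by
    rw [← Ultrapower.mk_one, Ultrapower.mk_eq_mk]
    simpa only [hL, lp.infty_coeFn_one, Pi.one_apply] using hφ.one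
  have h2 : ∀ a b, Ultrapower.mk ω (L (a * b)) = Ultrapower.mk ω (L a) * Ultrapower.mk ω (L b) := by
    intro a b
    rw [← Ultrapower.mk_mul, Ultrapower.mk_eq_mk]
    simpa only [hL, lp.infty_coeFn_mul, Pi.mul_apply] using hφ.mul a b
  have h3 : ∀ a b, Ultrapower.mk ω (L (a + b)) = Ultrapower.mk ω (L a) + Ultrapower.mk ω (L b) := by
    intro a b
    rw [← Ultrapower.mk_add, Ultrapower.mk_eq_mk]
    simpa only [hL, AddSubgroup.coe_add, PreLp.add_apply] using hφ.add a b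
  have h4 : ∀ (c : ℂ) a, Ultrapower.mk ω (L (c • a)) = c • Ultrapower.mk ω (L a) := by
    intro c a
    rw [← Ultrapower.mk_smul, Ultrapower.mk_eq_mk]
    simpa only [hL, lp.coeFn_smul, Pi.smul_apply] using hφ.smul c a
  have h5 : ∀ a, Ultrapower.mk ω (L (star a)) = star (Ultrapower.mk ω (L a)) := by
    intro a
    rw [← Ultrapower.mk_star, Ultrapower.mk_eq_mk]
    simpa only [hL, lp.star_apply] using hφ.star a
  have h0 : Ultrapower.mk ω (L 0) = 0 := by
    have := h3 0 0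
    rw [add_zero] at this
    simpa using this
  let Φ : A →⋆ₐ[ℂ] Ultrapower ω B :=
    { toFun := fun a => Ultrapower.mk ω (L a)
      map_one' := h1
      map_mul' := h2
      map_zero' := h0
      map_add' := h3
      commutes' := by
        intro c
        rw [Algebra.algebraMap_eq_smul_one, h4, h1, Algebra.algebraMap_eq_smul_one]
      map_star' := h5 }
  exact ⟨Φ, L, hL, fun a => rfl⟩

/-- Positivity in an ultrapower of `B(H)` passes to the coordinates. -/
theorem eventually_nonneg {H : Type u} [NormedAddCommGroup H] [InnerProductSpace ℂ H]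
    [CompleteSpace H] [Nontrivial (H →L[ℂ] H)] {ω : Ultrafilter ℕ} (T : Bdd (H →L[ℂ] H))
    {y : Ultrapower ω (H →L[ℂ] H)} (hT : Ultrapower.mk ω T = star y * y) {δ : ℝ} (hδ : 0 < δ) :
    ∀ᶠ n in (ω : Filter ℕ), ∀ x : H, -(δ * ‖x‖ ^ 2) ≤ (⟪x, T n x⟫_ℂ).re := by
  obtain ⟨Y, rfl⟩ := Ultrapower.mk_surjective ω y
  rw [← Ultrapower.mk_star, ← Ultrapower.mk_mul, Ultrapower.mk_eq_mk] at hT
  filter_upwards [hT.eventually_lt_const hδ] with n hn x
  have h1 : ⟪x, T n x⟫_ℂ = ⟪x, (star (Y n) * Y n) x⟫_ℂ + ⟪x, (T n - star (Y n) * Y n) x⟫_ℂ := by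
    rw [← inner_add_right]
    congr 1
    show T n x = (star (Y n) * Y n) x + (T n x - (star (Y n) * Y n) x)
    abel
  have h2 : 0 ≤ (⟪x, (star (Y n) * Y n) x⟫_ℂ).re := by
    have : ⟪x, (star (Y n) * Y n) x⟫_ℂ = ⟪Y n x, Y n x⟫_ℂ := by
      rw [ContinuousLinearMap.star_eq_adjoint]
      show ⟪x, ContinuousLinearMap.adjoint (Y n) (Y n x)⟫_ℂ = _
      rw [ContinuousLinearMap.adjoint_inner_right]
    rw [this]
    exact inner_self_nonneg (𝕜 := ℂ)
  have h3 : |(⟪x, (T n - star (Y n) * Y n) x⟫_ℂ).re| ≤ δ * ‖x‖ ^ 2 := by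
    refine (Complex.abs_re_le_norm _).trans ((norm_inner_le_norm _ _).trans ?_)
    have h4 : ‖(T n - star (Y n) * Y n) x‖ ≤ δ * ‖x‖ :=
      (ContinuousLinearMap.le_opNorm _ _).trans (by gcongr; exact hn.le)
    calc ‖x‖ * ‖(T n - star (Y n) * Y n) x‖ ≤ ‖x‖ * (δ * ‖x‖) := by (clear ω hδ hT h1 h2; gcongr)
      _ = δ * ‖x‖ ^ 2 := by ring
  rw [h1, Complex.add_re]
  have := (abs_le.1 h3).1
  (clear ω hδ hT h1; linarith)

end

end Vale.Agent.P083
end
end

section

section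

namespace Vale.Agent.P083N.Core

open Finset

section Defs

variable {A : Type*} [Ring A] [Algebra ℝ A]

/-- the average of the powers of `g`; for a unitary of order `p` this is the projection onto
the fixed vectors -/
noncomputable def avg (p : ℕ) (g : A) : A := ((p : ℝ)⁻¹) • ∑ k ∈ range p, g ^ k

/-- the complementary projection -/
noncomputable def dft (p : ℕ) (g : A) : A := 1 - avg p g

end Defs

theorem mul_sum_pow {A : Type*} [Ring A] {p : ℕ} {g : A} (hg : g ^ p = 1) (m : ℕ) :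
    g ^ m * ∑ k ∈ range p, g ^ k = ∑ k ∈ range p, g ^ k := by
  induction m with
  | zero => simp
  | succ m ih =>
    rw [pow_succ, mul_assoc]
    have h : g * ∑ k ∈ range p, g ^ k = ∑ k ∈ range p, g ^ k := by
      rw [mul_sum]
      have h1 : ∑ k ∈ range p, g * g ^ k = ∑ k ∈ range p, g ^ (k + 1) := by
        refine sum_congr rfl fun k _ => ?_
        rw [pow_succ' g k]
      rw [h1]
      have h2 := sum_range_succ' (fun k => g ^ k) p
      have h3 := sum_range_succ (fun k => g ^ k) p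
      rw [h3, hg, pow_zero] at h2
      exact (add_right_cancel h2).symm
    rw [h, ih]

/-- powers with multiplied exponents run through the same values -/
theorem sum_pow_mul {A : Type*} [Ring A] {p : ℕ} (hp : p.Prime) {z : A} (hz : z ^ p = 1) {b : ℕ}
    (hb : ¬ p ∣ b) : ∑ a ∈ range p, z ^ (a * b) = ∑ a ∈ range p, z ^ a := by
  have hz' : ∀ m, z ^ m = z ^ (m % p) := fun m => by
    conv_lhs => rw [← Nat.div_add_mod m p, pow_add, pow_mul, hz, one_pow, one_mul]
  have h1 : ∑ a ∈ range p, z ^ (a * b) = ∑ a ∈ range p, z ^ (a * b % p) :=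
    sum_congr rfl fun a _ => hz' _
  rw [h1]
  have hpos := hp.pos
  refine sum_bij (fun a _ => a * b % p) ?_ ?_ ?_ ?_
  · intro a _
    exact mem_range.2 (Nat.mod_lt _ hpos)
  · intro a ha a' ha' h
    have h2 : a * b ≡ a' * b [MOD p] := h
    have h3 : a ≡ a' [MOD p] :=
      Nat.ModEq.cancel_right_of_coprime ((Nat.Prime.coprime_iff_not_dvd hp).2 hb) h2
    have h4 := Nat.ModEq.eq_of_lt_of_lt h3 (mem_range.1 ha) (mem_range.1 ha')
    exact h4
  · intro k hk
    have hinj : Function.Injective (fun a : Fin p => (⟨(a : ℕ) * b % p, Nat.mod_lt _ hpos⟩ : Fin p)) := by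
      intro a a' h
      have h2 : (a : ℕ) * b ≡ (a' : ℕ) * b [MOD p] := by
        exact congrArg Fin.val h
      have h3 : (a : ℕ) ≡ a' [MOD p] :=
        Nat.ModEq.cancel_right_of_coprime ((Nat.Prime.coprime_iff_not_dvd hp).2 hb) h2
      exact Fin.ext (Nat.ModEq.eq_of_lt_of_lt h3 a.2 a'.2)
    have hsurj := Finite.injective_iff_surjective.1 hinj
    obtain ⟨a, ha⟩ := hsurj ⟨k, mem_range.1 hk⟩
    exact ⟨a, mem_range.2 a.2, by simpa using congrArg Fin.val ha⟩
  · intro a _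
    rfl

section Algebra

variable {A : Type*} [Ring A] [Algebra ℝ A] {p : ℕ}

theorem commute_avg {g x : A} (h : Commute x g) : Commute x (avg p g) := by
  unfold avg
  refine Commute.smul_right ?_ _
  exact Commute.sum_right _ _ _ fun k _ => h.pow_right k

theorem pow_mul_avg {g : A} (hg : g ^ p = 1) (m : ℕ) : g ^ m * avg p g = avg p g := by
  unfold avg
  rw [mul_smul_comm, mul_sum_pow hg]

theorem mul_avg {g : A} (hg : g ^ p = 1) : g * avg p g = avg p g := by
  simpa only [pow_one] using pow_mul_avg hg 1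

theorem smul_card (hp : p ≠ 0) (x : A) : ((p : ℝ)⁻¹) • ∑ _k ∈ range p, x = x := by
  rw [sum_const, card_range, ← Nat.cast_smul_eq_nsmul ℝ, smul_smul,
    inv_mul_cancel₀ (by exact_mod_cast hp), one_smul]

theorem avg_mul_avg (hp : p ≠ 0) {g : A} (hg : g ^ p = 1) : avg p g * avg p g = avg p g := by
  have h : avg p g * avg p g = ((p : ℝ)⁻¹) • ∑ k ∈ range p, (g ^ k * avg p g) := by
    conv_lhs => rw [show avg p g * avg p g = (((p : ℝ)⁻¹) • ∑ k ∈ range p, g ^ k) * avg p g from rfl]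
    rw [smul_mul_assoc, sum_mul]
  rw [h]
  simp only [pow_mul_avg hg]
  exact smul_card hp _

theorem dft_mul_dft (hp : p ≠ 0) {g : A} (hg : g ^ p = 1) : dft p g * dft p g = dft p g := by
  unfold dft
  rw [sub_mul, one_mul, mul_sub, mul_one, avg_mul_avg hp hg, sub_self, sub_zero]

omit [Algebra ℝ A] in
/-- commutation with powers: `g^a h^b = z^(ab) h^b g^a` -/
theorem pow_mul_pow_comm {g h z : A} (hz : g * h = z * h * g) (hzg : Commute z g)
    (hzh : Commute z h) (a b : ℕ) : g ^ a * h ^ b = z ^ (a * b) * h ^ b * g ^ a := by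
  have h1 : ∀ b : ℕ, g * h ^ b = z ^ b * h ^ b * g := by
    intro b
    induction b with
    | zero => simp
    | succ b ih =>
      calc g * h ^ (b + 1) = (g * h ^ b) * h := by rw [pow_succ, mul_assoc]
        _ = z ^ b * h ^ b * (g * h) := by rw [ih]; simp only [mul_assoc]
        _ = z ^ b * (h ^ b * z) * h * g := by rw [hz]; simp only [mul_assoc]
        _ = z ^ b * (z * h ^ b) * h * g := by rw [(hzh.pow_right b).eq]
        _ = z ^ (b + 1) * h ^ (b + 1) * g := by rw [pow_succ z, pow_succ h]; simp only [mul_assoc]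
  induction a with
  | zero => simp
  | succ a ih =>
    calc g ^ (a + 1) * h ^ b = g ^ a * (g * h ^ b) := by rw [pow_succ, mul_assoc]
      _ = (g ^ a * z ^ b) * h ^ b * g := by rw [h1]; simp only [mul_assoc]
      _ = z ^ b * (g ^ a * h ^ b) * g := by
        rw [((hzg.pow_right a).pow_left b).eq.symm]; simp only [mul_assoc]
      _ = z ^ ((a + 1) * b) * h ^ b * g ^ (a + 1) := by
        rw [ih, add_mul, one_mul, add_comm (a * b) b, pow_add, pow_succ g a]
        simp only [mul_assoc]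

/-- `P h^b P = E h^b P` for `b` prime to `p` -/
theorem avg_pow_avg (hp : p.Prime) {g h z : A} (hg : g ^ p = 1) (hz : g * h = z * h * g)
    (hzg : Commute z g) (hzh : Commute z h) (hzp : z ^ p = 1) {b : ℕ} (hb : ¬ p ∣ b) :
    avg p g * h ^ b * avg p g = avg p z * h ^ b * avg p g := by
  have h1 : avg p g * h ^ b * avg p g
      = ((p : ℝ)⁻¹) • ∑ a ∈ range p, (g ^ a * h ^ b * avg p g) := by
    conv_lhs => rw [show avg p g * h ^ b * avg p g
      = (((p : ℝ)⁻¹) • ∑ k ∈ range p, g ^ k) * h ^ b * avg p g from rfl]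
    rw [smul_mul_assoc, smul_mul_assoc, sum_mul, sum_mul]
  have h2 : ∀ a ∈ range p, g ^ a * h ^ b * avg p g = z ^ (a * b) * (h ^ b * avg p g) := by
    intro a _
    rw [pow_mul_pow_comm hz hzg hzh, mul_assoc, pow_mul_avg hg, mul_assoc]
  rw [h1, sum_congr rfl h2, ← sum_mul, sum_pow_mul hp hzp hb, ← smul_mul_assoc, mul_assoc]
  rfl

omit [Algebra ℝ A] in
theorem pow_eq_one_of_comm {g h z : A} (hg : g ^ p = 1) (hz : g * h = z * h * g)
    (hzg : Commute z g) (hzh : Commute z h) {h' : A} (hh : h * h' = 1) : z ^ p = 1 := by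
  have h1 := pow_mul_pow_comm hz hzg hzh p 1
  rw [hg, pow_one, one_mul, mul_one, mul_one] at h1
  calc z ^ p = z ^ p * h * h' := by rw [mul_assoc, hh, mul_one]
    _ = h * h' := by rw [← h1]
    _ = 1 := hh

/-- `P R P = (1/p) (1 - E) P + E R P` -/
theorem avg_avg_avg (hp : p.Prime) {g h z : A} (hg : g ^ p = 1) (hz : g * h = z * h * g)
    (hzg : Commute z g) (hzh : Commute z h) (hzp : z ^ p = 1) :
    avg p g * avg p h * avg p g
      = ((p : ℝ)⁻¹) • ((1 - avg p z) * avg p g) + avg p z * avg p h * avg p g := by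
  have hp0 : p ≠ 0 := hp.ne_zero
  have h1 : avg p g * avg p h * avg p g
      = ((p : ℝ)⁻¹) • ∑ b ∈ range p, (avg p g * h ^ b * avg p g) := by
    conv_lhs => rw [show avg p g * avg p h * avg p g
      = avg p g * (((p : ℝ)⁻¹) • ∑ k ∈ range p, h ^ k) * avg p g from rfl]
    rw [mul_smul_comm, smul_mul_assoc, mul_sum, sum_mul]
  have h2 : avg p z * avg p h * avg p g
      = ((p : ℝ)⁻¹) • ∑ b ∈ range p, (avg p z * h ^ b * avg p g) := by
    conv_lhs => rw [show avg p z * avg p h * avg p g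
      = avg p z * (((p : ℝ)⁻¹) • ∑ k ∈ range p, h ^ k) * avg p g from rfl]
    rw [mul_smul_comm, smul_mul_assoc, mul_sum, sum_mul]
  rw [h1, h2, ← smul_add]
  congr 1
  obtain ⟨q, rfl⟩ : ∃ q, p = q + 1 := ⟨p - 1, by omega⟩
  rw [sum_range_succ', sum_range_succ' (fun b => avg (q + 1) z * h ^ b * avg (q + 1) g)]
  have h3 : ∀ b ∈ range q, avg (q + 1) g * h ^ (b + 1) * avg (q + 1) g
      = avg (q + 1) z * h ^ (b + 1) * avg (q + 1) g := by
    intro b hb
    refine avg_pow_avg hp hg hz hzg hzh hzp ?_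
    intro hd
    have := Nat.le_of_dvd (Nat.succ_pos b) hd
    have := mem_range.1 hb
    omega
  rw [sum_congr rfl h3, pow_zero, mul_one, mul_one, avg_mul_avg hp0 hg, sub_mul, one_mul]
  abel

end Algebra

section StarAlgebra

variable {A : Type*} [Ring A] [StarRing A] [Algebra ℝ A] [StarModule ℝ A] {p : ℕ}

omit [Algebra ℝ A] [StarModule ℝ A] in
theorem star_pow_eq {g : A} (hu : g ∈ unitary A) (hg : g ^ p = 1) {k : ℕ} (hk : k ≤ p) :
    star (g ^ k) = g ^ (p - k) := by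
  have h1 : star (g ^ k) * g ^ k = 1 := (Unitary.mem_iff.1 (pow_mem hu k)).1
  have h2 : g ^ k * g ^ (p - k) = 1 := by rw [← pow_add, Nat.add_sub_cancel' hk, hg]
  calc star (g ^ k) = star (g ^ k) * (g ^ k * g ^ (p - k)) := by rw [h2, mul_one]
    _ = g ^ (p - k) := by rw [← mul_assoc, h1, one_mul]

theorem star_avg {g : A} (hu : g ∈ unitary A) (hg : g ^ p = 1) : star (avg p g) = avg p g := by
  unfold avg
  rw [star_smul, star_sum]
  simp only [star_trivial]
  congr 1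
  rcases Nat.eq_zero_or_pos p with rfl | hpos
  · simp only [range_zero, star_pow, sum_empty]
  obtain ⟨q, rfl⟩ : ∃ q, p = q + 1 := ⟨p - 1, by omega⟩
  have h1 : ∀ k ∈ range (q + 1), star (g ^ k) = g ^ (q + 1 - k) := fun k hk =>
    star_pow_eq hu hg (mem_range.1 hk).le
  rw [sum_congr rfl h1, ← sum_range_reflect]
  have h2 : ∀ j ∈ range (q + 1), g ^ (q + 1 - (q + 1 - 1 - j)) = g ^ (j + 1) := by
    intro j hj
    have := mem_range.1 hj
    congr 1
    omega
  rw [sum_congr rfl h2]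
  have h3 := mul_sum_pow hg 1
  rw [pow_one, mul_sum] at h3
  rw [← h3]
  exact sum_congr rfl fun k _ => by rw [pow_succ']

theorem star_dft {g : A} (hu : g ∈ unitary A) (hg : g ^ p = 1) : star (dft p g) = dft p g := by
  unfold dft
  rw [star_sub, star_one, star_avg hu hg]

end StarAlgebra

section Order

variable {A : Type*} [Ring A] [StarRing A] [Algebra ℝ A] [StarModule ℝ A]
  [PartialOrder A] [StarOrderedRing A] {p : ℕ}

theorem rsmul_nonneg {r : ℝ} (hr : 0 ≤ r) {x : A} (hx : 0 ≤ x) : 0 ≤ r • x := by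
  rw [StarOrderedRing.nonneg_iff] at hx ⊢
  induction hx using AddSubmonoid.closure_induction with
  | mem x hx =>
    obtain ⟨y, rfl⟩ := hx
    refine AddSubmonoid.subset_closure ⟨Real.sqrt r • y, ?_⟩
    show star (Real.sqrt r • y) * (Real.sqrt r • y) = _
    rw [star_smul, star_trivial, smul_mul_smul_comm, Real.mul_self_sqrt hr]
  | zero =>
    rw [smul_zero]
    exact zero_mem _
  | add x y _ _ hx hy =>
    rw [smul_add]
    exact add_mem hx hy

theorem smul_proj_nonneg {c : ℝ} (hc : 0 ≤ c) {x : A} (hs : star x = x) {r : ℝ} (hr : 0 < r)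
    (hx : x * x = r • x) : 0 ≤ c • x := by
  have h : c • x = star (Real.sqrt (c / r) • x) * (Real.sqrt (c / r) • x) := by
    rw [star_smul, star_trivial, hs, smul_mul_smul_comm, hx, smul_smul,
      Real.mul_self_sqrt (div_nonneg hc hr.le), div_mul_cancel₀ c hr.ne']
  rw [h]
  exact star_mul_self_nonneg _

section Corner

variable {B : Type*} [Ring B] [Algebra ℝ B] {F a b d e : B} {k : ℝ}

/-- the corner computation, first element -/
theorem corner_zero (FF : F * F = F) (Fa : F * a = a) (aF : a * F = a) (Fb : F * b = b)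
    (bF : b * F = b) (aa : a * a = a) (bb : b * b = b) (ab : a * b = d) (ba : b * a = e)
    (Fd : F * d = d) (dF : d * F = d) (Fe : F * e = e) (eF : e * F = e)
    (ad : a * d = d) (ae : a * e = k • a) (bd : b * d = k • b) (be : b * e = e)
    (da : d * a = k • a) (db : d * b = d) (ea : e * a = e) (eb : e * b = k • b)
    (dd : d * d = k • d) (de : d * e = k • a) (ed : e * d = k • b) (ee : e * e = k • e) :
    (F - a - b + d + e - k • F) * (F - a - b + d + e - k • F)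
      = (1 - k) • (F - a - b + d + e - k • F) := by
  simp only [mul_add, add_mul, mul_sub, sub_mul, mul_smul_comm, smul_mul_assoc, FF, Fa, aF, Fb,
    bF, aa, bb, ab, ba, Fd, dF, Fe, eF, ad, ae, bd, be, da, db, ea, eb, dd, de, ed, ee]
  module

/-- the corner computation, second element -/
theorem corner_one {c : ℝ} (hk : k = c ^ 2) (aa : a * a = a) (bb : b * b = b) (ab : a * b = d)
    (ba : b * a = e)
    (ad : a * d = d) (ae : a * e = k • a) (bd : b * d = k • b) (be : b * e = e)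
    (da : d * a = k • a) (db : d * b = d) (ea : e * a = e) (eb : e * b = k • b)
    (dd : d * d = k • d) (de : d * e = k • a) (ed : e * d = k • b) (ee : e * e = k • e) :
    (c • (a + b) - (d + e)) * (c • (a + b) - (d + e))
      = (2 * c * (1 - c)) • (c • (a + b) - (d + e)) := by
  simp only [mul_add, add_mul, mul_sub, sub_mul, mul_smul_comm, smul_mul_assoc,
    aa, bb, ab, ba, ad, ae, bd, be, da, db, ea, eb, dd, de, ed, ee, smul_add, smul_sub, smul_smul]
  subst hk
  module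

/-- the commuting corner -/
theorem corner_comm {E u v w : B} (EE : E * E = E) (Eu : E * u = u) (uE : u * E = u)
    (Ev : E * v = v) (vE : v * E = v) (uu : u * u = u) (vv : v * v = v) (uv : u * v = w)
    (vu : v * u = w) (Ew : E * w = w) (wE : w * E = w) (uw : u * w = w) (wu : w * u = w)
    (vw : v * w = w) (wv : w * v = w) (ww : w * w = w) :
    (E - u - v + w) * (E - u - v + w) = (1 : ℝ) • (E - u - v + w) := by
  simp only [mul_add, add_mul, mul_sub, sub_mul, EE, Eu, uE, Ev, vE, uu, vv, uv, vu, Ew, wE, uw,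
    wu, vw, wv, ww]
  module

end Corner

/-- two projections `P`, `R` and a central projection `E` (relative to `P`, `R`) such that
`P R P = c² (1 - E) P + E R P` and `R P R = c² (1 - E) R + E P R` -/
theorem pair_nonneg {c : ℝ} (hc0 : 0 < c) (hc1 : c < 1) {P R E : A}
    (sP : star P = P) (sR : star R = R) (sE : star E = E)
    (PP : P * P = P) (RR : R * R = R) (EE : E * E = E) (EP : E * P = P * E) (ER : E * R = R * E)
    (hP : P * R * P = (c ^ 2) • ((1 - E) * P) + E * R * P)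
    (hR : R * P * R = (c ^ 2) • ((1 - E) * R) + E * P * R) :
    0 ≤ (1 - P) * (1 - R) + (1 - R) * (1 - P) + c • ((1 - P) + (1 - R)) := by
  -- on `E` the projections commute
  have hcomm : E * (P * R) = E * (R * P) := by
    have h1 : E * (P * R * P) = E * (R * P) := by
      rw [hP, mul_add, mul_smul_comm, ← mul_assoc E (1 - E) P, mul_sub, mul_one, EE, sub_self,
        zero_mul, smul_zero, zero_add, ← mul_assoc, ← mul_assoc, EE, mul_assoc]
    have h2 : E * (P * R * P) = E * (P * R) := by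
      have h3 := congrArg star h1
      simp only [star_mul, sP, sR, sE] at h3
      -- h3 : P * (R * P) * E = P * R * E
      have h4 : P * (R * P) * E = E * (P * R * P) := by
        rw [← mul_assoc P R P]
        calc P * R * P * E = P * R * (P * E) := by rw [mul_assoc]
          _ = P * (R * E) * P := by rw [← EP]; simp only [mul_assoc]
          _ = (P * E) * R * P := by rw [← ER]; simp only [mul_assoc]
          _ = E * (P * R * P) := by rw [← EP]; simp only [mul_assoc]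
      have h5 : P * R * E = E * (P * R) := by
        calc P * R * E = P * (R * E) := by rw [mul_assoc]
          _ = (P * E) * R := by rw [← ER]; simp only [mul_assoc]
          _ = E * (P * R) := by rw [← EP]; simp only [mul_assoc]
      rw [h4, h5] at h3
      exact h3
    rw [← h2, h1]
  have hk1 : (0 : ℝ) < 1 - c ^ 2 := by nlinarith only [hc1, hc0]
  have h1c : (0 : ℝ) < 1 - c := by linarith
  -- the complementary corner
  obtain ⟨F, hF⟩ : ∃ F : A, F = 1 - E := ⟨_, rfl⟩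
  have FF : F * F = F := by
    rw [hF, sub_mul, one_mul, mul_sub, mul_one, EE, sub_self, sub_zero]
  have FE : F * E = 0 := by rw [hF, sub_mul, one_mul, EE, sub_self]
  have FP : F * P = P * F := by rw [hF, sub_mul, mul_sub, one_mul, mul_one, EP]
  have FR : F * R = R * F := by rw [hF, sub_mul, mul_sub, one_mul, mul_one, ER]
  have sF : star F = F := by rw [hF, star_sub, star_one, sE]
  obtain ⟨a, ha⟩ : ∃ a : A, a = F * P := ⟨_, rfl⟩
  obtain ⟨b, hb⟩ : ∃ b : A, b = F * R := ⟨_, rfl⟩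
  obtain ⟨d, hd⟩ : ∃ d : A, d = a * b := ⟨_, rfl⟩
  obtain ⟨e, he⟩ : ∃ e : A, e = b * a := ⟨_, rfl⟩
  have sa : star a = a := by rw [ha, star_mul, sP, sF, FP]
  have sb : star b = b := by rw [hb, star_mul, sR, sF, FR]
  have sd : star d = e := by rw [hd, he, star_mul, sa, sb]
  have se : star e = d := by rw [hd, he, star_mul, sa, sb]
  have Fa : F * a = a := by rw [ha, ← mul_assoc, FF]
  have aF : a * F = a := by rw [ha, mul_assoc, ← FP, ← mul_assoc, FF]
  have Fb : F * b = b := by rw [hb, ← mul_assoc, FF]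
  have bF : b * F = b := by rw [hb, mul_assoc, ← FR, ← mul_assoc, FF]
  have aa : a * a = a := by
    calc a * a = a * F * P := by rw [mul_assoc, ← ha]
      _ = F * (P * P) := by rw [aF, ha, mul_assoc]
      _ = a := by rw [PP, ha]
  have bb : b * b = b := by
    calc b * b = b * F * R := by rw [mul_assoc, ← hb]
      _ = F * (R * R) := by rw [bF, hb, mul_assoc]
      _ = b := by rw [RR, hb]
  have hda : d = F * (P * R) := by
    calc d = a * F * R := by rw [hd, mul_assoc, ← hb]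
      _ = F * (P * R) := by rw [aF, ha, mul_assoc]
  have hea : e = F * (R * P) := by
    calc e = b * F * P := by rw [he, mul_assoc, ← ha]
      _ = F * (R * P) := by rw [bF, hb, mul_assoc]
  have aba : a * b * a = (c ^ 2) • a := by
    calc a * b * a = (d * F) * P := by rw [mul_assoc d, ← ha, hd]
      _ = F * (P * R * P) := by
        rw [hda, mul_assoc F, mul_assoc P, ← FR, ← mul_assoc P, ← FP]
        rw [mul_assoc F P R, ← mul_assoc F F, FF, mul_assoc]
      _ = (c ^ 2) • a := by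
        rw [hP, ← hF, mul_add, mul_smul_comm, ← mul_assoc F F, FF, ← ha, ← mul_assoc F (E * R),
          ← mul_assoc F E, FE, zero_mul, zero_mul, add_zero]
  have bab : b * a * b = (c ^ 2) • b := by
    calc b * a * b = (e * F) * R := by rw [mul_assoc e, ← hb, he]
      _ = F * (R * P * R) := by
        rw [hea, mul_assoc F, mul_assoc R, ← FP, ← mul_assoc R, ← FR]
        rw [mul_assoc F R P, ← mul_assoc F F, FF, mul_assoc]
      _ = (c ^ 2) • b := by
        rw [hR, ← hF, mul_add, mul_smul_comm, ← mul_assoc F F, FF, ← hb, ← mul_assoc F (E * P),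
          ← mul_assoc F E, FE, zero_mul, zero_mul, add_zero]
  have Fd : F * d = d := by rw [hd, ← mul_assoc, Fa]
  have dF : d * F = d := by rw [hd, mul_assoc, bF]
  have Fe : F * e = e := by rw [he, ← mul_assoc, Fb]
  have eF : e * F = e := by rw [he, mul_assoc, aF]
  have ad : a * d = d := by rw [hd, ← mul_assoc, aa]
  have ae : a * e = (c ^ 2) • a := by rw [he, ← mul_assoc, aba]
  have bd : b * d = (c ^ 2) • b := by rw [hd, ← mul_assoc, bab]
  have be : b * e = e := by rw [he, ← mul_assoc, bb]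
  have da : d * a = (c ^ 2) • a := by rw [hd, aba]
  have db : d * b = d := by rw [hd, mul_assoc, bb]
  have ea : e * a = e := by rw [he, mul_assoc, aa]
  have eb : e * b = (c ^ 2) • b := by rw [he, bab]
  have dd : d * d = (c ^ 2) • d := by
    conv_lhs => rw [hd, mul_assoc, ← hd]
    rw [bd, mul_smul_comm, ← hd]
  have de : d * e = (c ^ 2) • a := by
    conv_lhs => rw [hd, mul_assoc, be]
    rw [ae]
  have ed : e * d = (c ^ 2) • b := by
    conv_lhs => rw [he, mul_assoc, ad]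
    rw [bd]
  have ee : e * e = (c ^ 2) • e := by
    conv_lhs => rw [he, mul_assoc, ← he]
    rw [ae, mul_smul_comm, ← he]
  have hT0 : 0 ≤ (2 / (1 - c)) • (F - a - b + d + e - (c ^ 2) • F) := by
    refine smul_proj_nonneg (by positivity) ?_ hk1
      (corner_zero FF Fa aF Fb bF aa bb hd.symm he.symm Fd dF Fe eF ad ae bd be da db ea eb dd
        de ed ee)
    simp only [star_sub, star_add, sF, sa, sb, sd, se, star_smul, star_trivial]
    abel
  have hT1 : 0 ≤ ((1 + c) / (1 - c)) • (c • (a + b) - (d + e)) := by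
    refine smul_proj_nonneg (by positivity) ?_ (r := 2 * c * (1 - c)) (by positivity)
      (corner_one rfl aa bb hd.symm he.symm ad ae bd be da db ea eb dd de ed ee)
    simp only [star_sub, star_smul, star_trivial, star_add, sa, sb, sd, se]
    abel_nf
  -- the corner `E`
  obtain ⟨u, hu⟩ : ∃ u : A, u = E * P := ⟨_, rfl⟩
  obtain ⟨v, hv⟩ : ∃ v : A, v = E * R := ⟨_, rfl⟩
  obtain ⟨w, hw⟩ : ∃ w : A, w = u * v := ⟨_, rfl⟩
  have su : star u = u := by rw [hu, star_mul, sP, sE, EP]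
  have sv : star v = v := by rw [hv, star_mul, sR, sE, ER]
  have Eu : E * u = u := by rw [hu, ← mul_assoc, EE]
  have uE : u * E = u := by rw [hu, mul_assoc, ← EP, ← mul_assoc, EE]
  have Ev : E * v = v := by rw [hv, ← mul_assoc, EE]
  have vE : v * E = v := by rw [hv, mul_assoc, ← ER, ← mul_assoc, EE]
  have uu : u * u = u := by
    calc u * u = u * E * P := by rw [mul_assoc, ← hu]
      _ = E * (P * P) := by rw [uE, hu, mul_assoc]
      _ = u := by rw [PP, hu]
  have vv : v * v = v := by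
    calc v * v = v * E * R := by rw [mul_assoc, ← hv]
      _ = E * (R * R) := by rw [vE, hv, mul_assoc]
      _ = v := by rw [RR, hv]
  have hw1 : w = E * (P * R) := by
    calc w = u * E * R := by rw [hw, mul_assoc, ← hv]
      _ = E * (P * R) := by rw [uE, hu, mul_assoc]
  have vu : v * u = w := by
    calc v * u = v * E * P := by rw [mul_assoc, ← hu]
      _ = E * (R * P) := by rw [vE, hv, mul_assoc]
      _ = w := by rw [← hcomm, hw1]
  have sw : star w = w := by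
    conv_lhs => rw [hw, star_mul, su, sv, vu]
  have Ew : E * w = w := by rw [hw, ← mul_assoc, Eu]
  have wE : w * E = w := by rw [hw, mul_assoc, vE]
  have uw : u * w = w := by rw [hw, ← mul_assoc, uu]
  have wv : w * v = w := by rw [hw, mul_assoc, vv]
  have wu : w * u = w := by rw [← vu, mul_assoc, uu]
  have vw : v * w = w := by rw [← vu, ← mul_assoc, vv]
  have ww : w * w = w := by
    conv_lhs => rw [hw, mul_assoc, ← hw, vw, uw]
  have hX : 0 ≤ (2 : ℝ) • (E - u - v + w) := by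
    refine smul_proj_nonneg zero_le_two ?_ one_pos
      (corner_comm EE Eu uE Ev vE uu vv hw.symm vu Ew wE uw wu vw wv ww)
    simp only [star_sub, star_add, sE, su, sv, sw]
  have hY : 0 ≤ c • (E - u) := by
    refine smul_proj_nonneg hc0.le ?_ one_pos ?_
    · rw [star_sub, sE, su]
    · rw [sub_mul, mul_sub, mul_sub, EE, Eu, uE, uu, sub_self, sub_zero, one_smul]
  have hZ : 0 ≤ c • (E - v) := by
    refine smul_proj_nonneg hc0.le ?_ one_pos ?_
    · rw [star_sub, sE, sv]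
    · rw [sub_mul, mul_sub, mul_sub, EE, Ev, vE, vv, sub_self, sub_zero, one_smul]
  have hsum := add_nonneg (add_nonneg (add_nonneg hX (add_nonneg hY hZ)) hT0) hT1
  have e1 : a = P - u := by rw [ha, hF, hu, sub_mul, one_mul]
  have e2 : b = R - v := by rw [hb, hF, hv, sub_mul, one_mul]
  have e3 : d = P * R - w := by rw [hda, hF, hw1, sub_mul, one_mul]
  have e4 : e = R * P - w := by rw [hea, hF, ← vu, hv, hu, sub_mul, one_mul]; congr 1; rw [← hv, ← hu, vu, hw1, hcomm]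
  have key : (1 - P) * (1 - R) + (1 - R) * (1 - P) + c • ((1 - P) + (1 - R))
      = (2 : ℝ) • (E - u - v + w) + (c • (E - u) + c • (E - v))
        + (2 / (1 - c)) • (F - a - b + d + e - (c ^ 2) • F)
        + ((1 + c) / (1 - c)) • (c • (a + b) - (d + e)) := by
    rw [e1, e2, e3, e4, hF]
    have hne : (1 - c : ℝ) ≠ 0 := h1c.ne'
    simp only [mul_sub, sub_mul, mul_one, one_mul]
    match_scalars <;> field_simp <;> ring
  rw [key]
  exact hsum

/-- the constant of the gap inequality -/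
noncomputable def gc (p : ℕ) : ℝ := (Real.sqrt p)⁻¹

theorem gc_sq (p : ℕ) : gc p ^ 2 = ((p : ℝ)⁻¹) := by
  unfold gc
  rw [inv_pow, Real.sq_sqrt (Nat.cast_nonneg p)]

theorem gc_pos (hp : 1 < p) : 0 < gc p := by
  unfold gc
  have : (0 : ℝ) < p := by exact_mod_cast (by omega : 0 < p)
  positivity

theorem gc_lt_one (hp : 1 < p) : gc p < 1 := by
  unfold gc
  have h1 : (1 : ℝ) < Real.sqrt p := by
    rw [Real.lt_sqrt zero_le_one]
    simpa only [one_pow, Nat.one_lt_cast] using (by exact_mod_cast hp : (1 : ℝ) < p)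
  exact inv_lt_one_of_one_lt₀ h1

/-- the pair inequality for two unitaries of prime order whose commutator is central in the
group they generate -/
theorem dft_pair_nonneg (hp : p.Prime) {g h z : A} (ug : g ∈ unitary A) (uh : h ∈ unitary A)
    (hg : g ^ p = 1) (hh : h ^ p = 1) (hz : g * h = z * h * g) (hzg : Commute z g)
    (hzh : Commute z h) :
    0 ≤ dft p g * dft p h + dft p h * dft p g + gc p • (dft p g + dft p h) := by
  have hp0 := hp.ne_zero
  obtain ⟨g1, g2⟩ := Unitary.mem_iff.1 ug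
  obtain ⟨h1, h2⟩ := Unitary.mem_iff.1 uh
  have hz1 : z = g * h * (star g * star h) := by
    calc z = z * (h * (g * star g) * star h) := by rw [g2, mul_one, h2, mul_one]
      _ = (z * h * g) * (star g * star h) := by simp only [mul_assoc]
      _ = g * h * (star g * star h) := by rw [hz]
  have uz : z ∈ unitary A := by
    rw [hz1]
    exact mul_mem (mul_mem ug uh) (mul_mem (Unitary.star_mem ug) (Unitary.star_mem uh))
  have hzp : z ^ p = 1 := pow_eq_one_of_comm hg hz hzg hzh h2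
  obtain ⟨z1, z2⟩ := Unitary.mem_iff.1 uz
  have hstar : avg p (star z) = avg p z := by
    have h3 : star (avg p z) = avg p (star z) := by
      unfold avg
      rw [star_smul, star_trivial, star_sum]
      simp only [star_pow]
    rw [← h3, star_avg uz hzp]
  have hz' : h * g = star z * g * h := by
    rw [mul_assoc, hz, ← mul_assoc, ← mul_assoc, z1, one_mul]
  have hzg' : Commute (star z) g := by
    have h3 : z * g = g * z := hzg.eq
    show star z * g = g * star z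
    calc star z * g = star z * (g * z) * star z := by
          rw [mul_assoc, mul_assoc g, z2, mul_one]
      _ = g * star z := by rw [← h3, ← mul_assoc, z1, one_mul]
  have hzh' : Commute (star z) h := by
    have h3 : z * h = h * z := hzh.eq
    show star z * h = h * star z
    calc star z * h = star z * (h * z) * star z := by
          rw [mul_assoc, mul_assoc h, z2, mul_one]
      _ = h * star z := by rw [← h3, ← mul_assoc, z1, one_mul]
  have hzp' : star z ^ p = 1 := by rw [← star_pow, hzp, star_one]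
  have hP := avg_avg_avg (A := A) hp hg hz hzg hzh hzp
  have hR := avg_avg_avg (A := A) hp hh hz' hzh' hzg' hzp'
  rw [← gc_sq] at hP hR
  rw [hstar] at hR
  have hEP : avg p z * avg p g = avg p g * avg p z :=
    (commute_avg (p := p) (commute_avg (p := p) hzg).symm).symm.eq
  have hER : avg p z * avg p h = avg p h * avg p z :=
    (commute_avg (p := p) (commute_avg (p := p) hzh).symm).symm.eq
  exact pair_nonneg (gc_pos hp.one_lt) (gc_lt_one hp.one_lt) (star_avg ug hg) (star_avg uh hh)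
    (star_avg uz hzp) (avg_mul_avg hp0 hg) (avg_mul_avg hp0 hh) (avg_mul_avg hp0 hzp) hEP hER hP hR

/-- **Gap inequality.**  For unitaries `g i` of prime order `p`, each pair of which has a
commutator that is central in the group generated by the pair, `Δ = ∑ Q_i` satisfies
`Δ² ≥ (1 - (n - 1) / √p) Δ`. -/
theorem gap {ι : Type*} [Fintype ι] [DecidableEq ι] (hp : p.Prime) (g : ι → A)
    (hu : ∀ i, g i ∈ unitary A) (hg : ∀ i, g i ^ p = 1)
    (hc : ∀ i j, i ≠ j → ∃ z, g i * g j = z * g j * g i ∧ Commute z (g i) ∧ Commute z (g j)) :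
    (1 - ((Fintype.card ι : ℝ) - 1) * gc p) • (∑ i, dft p (g i))
      ≤ (∑ i, dft p (g i)) * (∑ i, dft p (g i)) := by
  rw [← sub_nonneg]
  have h1 : ∀ i j, i ≠ j → 0 ≤ (1 / 2 : ℝ) • (dft p (g i) * dft p (g j)
      + dft p (g j) * dft p (g i) + gc p • (dft p (g i) + dft p (g j))) := by
    intro i j hij
    obtain ⟨z, hz, hz1, hz2⟩ := hc i j hij
    have h2 := dft_pair_nonneg hp (hu i) (hu j) (hg i) (hg j) hz hz1 hz2
    exact rsmul_nonneg (by norm_num) h2
  have h3 : 0 ≤ ∑ i, ∑ j ∈ univ.erase i, (1 / 2 : ℝ) • (dft p (g i) * dft p (g j)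
      + dft p (g j) * dft p (g i) + gc p • (dft p (g i) + dft p (g j))) := by
    refine sum_nonneg fun i _ => sum_nonneg fun j hj => h1 i j (Finset.ne_of_mem_erase hj).symm
  refine h3.trans_eq ?_
  have hdd : ∀ i, dft p (g i) * dft p (g i) = dft p (g i) := fun i =>
    dft_mul_dft hp.ne_zero (hg i)
  set Q : ι → A := fun i => dft p (g i) with hQ
  have e1 : ∀ i, ∑ j ∈ univ.erase i, (1 / 2 : ℝ) • (Q i * Q j + Q j * Q i + gc p • (Q i + Q j))
      = (∑ j, (1 / 2 : ℝ) • (Q i * Q j + Q j * Q i + gc p • (Q i + Q j)))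
        - (1 / 2 : ℝ) • (Q i * Q i + Q i * Q i + gc p • (Q i + Q i)) := by
    intro i
    rw [← Finset.sum_erase_add univ _ (mem_univ i), add_sub_cancel_right]
  have e2 : ∀ i, (1 / 2 : ℝ) • (Q i * Q i + Q i * Q i + gc p • (Q i + Q i))
      = (1 + gc p) • Q i := by
    intro i
    rw [hdd i]
    module
  have e3 : ∑ i, ∑ j, Q i * Q j = (∑ i, Q i) * (∑ i, Q i) := by
    rw [sum_mul_sum]
  have e4 : ∑ i, ∑ j, Q j * Q i = (∑ i, Q i) * (∑ i, Q i) := by
    rw [sum_comm, sum_mul_sum]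
  have e5 : ∑ i : ι, ∑ _j : ι, Q i = (Fintype.card ι : ℝ) • ∑ i, Q i := by
    simp only [sum_const, card_univ]
    rw [← Finset.smul_sum, Nat.cast_smul_eq_nsmul]
  have e6 : ∑ _i : ι, ∑ j : ι, Q j = (Fintype.card ι : ℝ) • ∑ i, Q i := by
    rw [sum_const, card_univ, Nat.cast_smul_eq_nsmul]
  calc ∑ i, ∑ j ∈ univ.erase i, (1 / 2 : ℝ) • (Q i * Q j + Q j * Q i + gc p • (Q i + Q j))
      = ∑ i, ((∑ j, (1 / 2 : ℝ) • (Q i * Q j + Q j * Q i + gc p • (Q i + Q j)))
        - (1 + gc p) • Q i) := by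
        refine sum_congr rfl fun i _ => ?_
        rw [e1, e2]
    _ = (1 / 2 : ℝ) • ((∑ i, ∑ j, Q i * Q j) + (∑ i, ∑ j, Q j * Q i)
          + gc p • ((∑ i : ι, ∑ _j : ι, Q i) + ∑ _i : ι, ∑ j : ι, Q j))
        - (1 + gc p) • ∑ i, Q i := by
        rw [sum_sub_distrib, ← smul_sum]
        congr 1
        simp only [← smul_sum, sum_add_distrib]
    _ = (∑ i, Q i) * (∑ i, Q i) - (1 - ((Fintype.card ι : ℝ) - 1) * gc p) • ∑ i, Q i := by
        rw [e3, e4, e5, e6]
        module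

end Order

end Vale.Agent.P083N.Core
end
end

section

section

/-! Positive elements, averages over cyclic groups of unitaries, Laplacians. -/

open scoped ComplexOrder

namespace Vale.Agent.P083N

noncomputable section

universe u

/-- `T` is a positive element. -/
def IsPos {B : Type u} [Mul B] [Star B] (T : B) : Prop := ∃ y, star y * y = T

section

variable {B : Type u} [CStarAlgebra B]

theorem isPos_iff {T : B} :
    IsPos T ↔ @LE.le B (CStarAlgebra.spectralOrder B).toLE 0 T := by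
  let _ := CStarAlgebra.spectralOrder B
  let _ := CStarAlgebra.spectralOrderedRing B
  constructor
  · rintro ⟨y, rfl⟩
    exact star_mul_self_nonneg y
  · intro h
    obtain ⟨y, hy⟩ := CStarAlgebra.nonneg_iff_eq_star_mul_self.1 h
    exact ⟨y, hy.symm⟩

theorem IsPos.add {S T : B} (hS : IsPos S) (hT : IsPos T) : IsPos (S + T) := by
  let _ := CStarAlgebra.spectralOrder B
  let _ := CStarAlgebra.spectralOrderedRing B
  rw [isPos_iff] at hS hT ⊢
  exact add_nonneg hS hT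

theorem IsPos.sum {ι : Type*} (s : Finset ι) (T : ι → B) (h : ∀ i ∈ s, IsPos (T i)) :
    IsPos (∑ i ∈ s, T i) := by
  let _ := CStarAlgebra.spectralOrder B
  let _ := CStarAlgebra.spectralOrderedRing B
  rw [isPos_iff]
  exact Finset.sum_nonneg fun i hi => isPos_iff.1 (h i hi)

theorem IsPos.smul {T : B} (hT : IsPos T) {c : ℝ} (hc : 0 ≤ c) : IsPos (((c : ℝ) : ℂ) • T) := by
  obtain ⟨y, rfl⟩ := hT
  refine ⟨((Real.sqrt c : ℝ) : ℂ) • y, ?_⟩
  rw [star_smul, smul_mul_smul_comm]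
  congr 1
  rw [Complex.star_def, Complex.conj_ofReal, ← Complex.ofReal_mul, Real.mul_self_sqrt hc]

end

section

variable {B : Type u} [CStarAlgebra B]

/-- The average `(1/p) ∑_{k<p} g^k`. -/
def av (p : ℕ) (g : B) : B := ((p : ℂ)⁻¹) • ∑ k ∈ Finset.range p, g ^ k

/-- `1 - av`. -/
def qv (p : ℕ) (g : B) : B := 1 - av p g

/-- The Laplacian `∑ qv`. -/
def lap {ι : Type*} [Fintype ι] (p : ℕ) (g : ι → B) : B := ∑ i, qv p (g i)

variable {p : ℕ}

theorem av_eq_core (g : B) : av p g = Core.avg p g := by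
  unfold av Core.avg
  rw [← Complex.ofReal_natCast, ← Complex.ofReal_inv]
  exact Complex.coe_smul _ _

theorem qv_eq_core (g : B) : qv p g = Core.dft p g := by
  unfold qv Core.dft
  rw [av_eq_core]

theorem mul_av (hp : 0 < p) {g : B} (h : g ^ p = 1) : g * av p g = av p g := by
  rw [av_eq_core]
  exact Core.mul_avg h

theorem av_mul_self (hp : 0 < p) {g : B} (h : g ^ p = 1) : av p g * av p g = av p g := by
  rw [av_eq_core]
  exact Core.avg_mul_avg hp.ne' h

theorem star_av (hp : 0 < p) {g : B} (hu : g ∈ unitary B) (h : g ^ p = 1) :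
    star (av p g) = av p g := by
  rw [av_eq_core]
  exact Core.star_avg hu h

theorem star_qv (hp : 0 < p) {g : B} (hu : g ∈ unitary B) (h : g ^ p = 1) :
    star (qv p g) = qv p g := by
  rw [qv_eq_core]
  exact Core.star_dft hu h

theorem qv_mul_self (hp : 0 < p) {g : B} (h : g ^ p = 1) : qv p g * qv p g = qv p g := by
  rw [qv_eq_core]
  exact Core.dft_mul_dft hp.ne' h

end

end

end Vale.Agent.P083N
end
end

section

section

/-! Passing between the ultrapower and the individual coordinates. -/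

open Filter Topology
open scoped ENNReal InnerProductSpace

namespace Vale.Agent.P083N

open Vale.Agent.P083

noncomputable section

universe u v w

/-- An asymptotic unital *-homomorphism `φ n : A → O` followed by a *-homomorphism `f : O → B`
defines a unital *-homomorphism into the ultrapower of `B`. -/
theorem exists_hom {A : Type u} [CStarAlgebra A] {O : Type v} [CStarAlgebra O]
    {B : Type w} [CStarAlgebra B] [Nontrivial B] {ω : Ultrafilter ℕ} {φ : ℕ → A → O}
    (hφ : LiftsHom A O ω φ) (f : O →⋆ₐ[ℂ] B) :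
    ∃ Φ : A →⋆ₐ[ℂ] Ultrapower ω B, ∀ a, ∃ x : Bdd B, (∀ n, x n = f (φ n a)) ∧
      Φ a = Ultrapower.mk ω x := by
  obtain ⟨Φ, L, hL, hΦ⟩ := exists_hom_of_liftsHom (liftsHom_comp hφ f)
  exact ⟨Φ, fun a => ⟨L a, hL a, hΦ a⟩⟩

/-- Constant sequences. -/
theorem exists_const {B : Type w} [CStarAlgebra B] [Nontrivial B] (ω : Ultrafilter ℕ) :
    ∃ Ψ : B →⋆ₐ[ℂ] Ultrapower ω B, ∀ b, ∃ x : Bdd B, (∀ n, x n = b) ∧
      Ψ b = Ultrapower.mk ω x := by
  have h : LiftsHom B B ω fun _ b => b := by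
    refine ⟨fun a => ⟨‖a‖, fun _ => le_rfl⟩, ?_, ?_, ?_, ?_, ?_⟩ <;> intros <;> simp only [sub_self, norm_zero, tendsto_const_nhds_iff]
  obtain ⟨Φ, L, hL, hΦ⟩ := exists_hom_of_liftsHom h
  exact ⟨Φ, fun a => ⟨L a, hL a, hΦ a⟩⟩

theorem eventually_norm_sub_le {B : Type w} [CStarAlgebra B] [Nontrivial B] {ω : Ultrafilter ℕ}
    {x y : Bdd B} (h : Ultrapower.mk ω x = Ultrapower.mk ω y) {δ : ℝ} (hδ : 0 < δ) :
    ∀ᶠ n in (ω : Filter ℕ), ‖x n - y n‖ ≤ δ := by
  rw [Ultrapower.mk_eq_mk] at h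
  exact h.eventually_le_const hδ

theorem eventually_form_nonneg {H : Type w} [NormedAddCommGroup H] [InnerProductSpace ℂ H]
    [CompleteSpace H] [Nontrivial (H →L[ℂ] H)] {ω : Ultrafilter ℕ} {T : Bdd (H →L[ℂ] H)}
    (hT : IsPos (Ultrapower.mk ω T)) {δ : ℝ} (hδ : 0 < δ) :
    ∀ᶠ n in (ω : Filter ℕ), ∀ x : H, - (δ * ‖x‖ ^ 2) ≤ (⟪x, T n x⟫_ℂ).re := by
  obtain ⟨y, hy⟩ := hT
  exact eventually_nonneg T hy.symm hδ

end

end Vale.Agent.P083N
end
end

section

section

/-! The relations. -/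

namespace Vale.Agent.P083N

noncomputable section

universe u

/-- The relations used in the proof. -/
structure Rels (p : ℕ) [NeZero p] (χ : AddChar (ZMod p) Circle) {A : Type u} [CStarAlgebra A]
    (a : Gen → A) (t : ZMod p → A) (s : A) : Prop where
  uni : ∀ g, a g ∈ unitary A
  pow : ∀ g, a g ^ p = 1
  heis : ∀ g h, g ≠ h → HeisM (a g) (a h)
  iso : ∀ y y', star (t y) * t y' = if y = y' then 1 else 0
  X : ∀ y, a Gen.X * t y = t (y + 1)
  Z : ∀ y, a Gen.Z * t y = ((χ y : Circle) : ℂ) • t y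
  A0 : ∀ y, a Gen.A0 * t y = t y * (a Gen.X ^ y.val * a Gen.A2)
  A1 : ∀ y, a Gen.A1 * t y = t y * a Gen.A0
  A2 : ∀ y, a Gen.A2 * t y = t y * a Gen.A1
  B : ∀ y, a Gen.B * t y = t y * (a Gen.Z ^ y.val * a Gen.B)
  c1 : Commute (a Gen.X) (a Gen.A2)
  c2 : Commute (a Gen.Z) (a Gen.B)
  s_iso : star s * s = 1
  s_inv : ∀ g, a g * s = s

end

end Vale.Agent.P083N
end
end

section

section

/-! Relations (R1) between the six generators. -/

namespace Vale.Agent.P083N

variable {p : ℕ}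

/-- Heisenberg pair with invertible commutator. -/
def HeisI {M : Type*} [Monoid M] (g h : M) : Prop :=
  ∃ z z', z * z' = 1 ∧ z' * z = 1 ∧ g * h = z * (h * g) ∧ Commute z g ∧ Commute z h

theorem HeisI.heisM {M : Type*} [Monoid M] {g h : M} (H : HeisI g h) : HeisM g h := by
  obtain ⟨z, _, _, _, h1, h2, h3⟩ := H
  exact ⟨z, h1, h2, h3⟩

theorem commute_inv_of {M : Type*} [Monoid M] {z z' g : M} (h1 : z * z' = 1) (h2 : z' * z = 1)
    (h : Commute z g) : Commute z' g := by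
  show z' * g = g * z'
  calc z' * g = z' * (g * (z * z')) := by rw [h1, mul_one]
    _ = z' * ((g * z) * z') := by simp only [mul_assoc]
    _ = z' * ((z * g) * z') := by rw [h.eq]
    _ = (z' * z) * g * z' := by simp only [mul_assoc]
    _ = g * z' := by rw [h2, one_mul]

theorem HeisI.symm {M : Type*} [Monoid M] {g h : M} (H : HeisI g h) : HeisI h g := by
  obtain ⟨z, z', h0, h0', h1, h2, h3⟩ := H
  refine ⟨z', z, h0', h0, ?_, commute_inv_of h0 h0' h3, commute_inv_of h0 h0' h2⟩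
  rw [h1, ← mul_assoc, h0', one_mul]

theorem HeisI.of_commute {M : Type*} [Monoid M] {g h : M} (H : Commute g h) : HeisI g h :=
  ⟨1, 1, one_mul _, one_mul _, by rw [one_mul]; exact H, Commute.one_left _, Commute.one_left _⟩

/-! ### special elements -/

section

variable {J : Type*}

/-- pure phase -/
def phM (ψ : J → ZMod p) : Mon J p := ⟨fun x => x, fun _ _ h => h, ψ⟩

theorem phM_mul_neg (ψ : J → ZMod p) : phM ψ * phM (fun x => - ψ x) = 1 :=
  Mon.ext' (fun _ => rfl) fun x => neg_add_cancel (ψ x)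

theorem phM_neg_mul (ψ : J → ZMod p) : phM (fun x => - ψ x) * phM ψ = 1 :=
  Mon.ext' (fun _ => rfl) fun x => add_neg_cancel (ψ x)

theorem phM_commute {ψ : J → ZMod p} {g : Mon J p} (h : ∀ x, ψ (g.map x) = ψ x) :
    Commute (phM ψ) g := by
  refine Mon.ext' (fun _ => rfl) fun x => ?_
  show g.ph x + ψ (g.map x) = ψ x + g.ph x
  rw [h, add_comm]

theorem HeisI.of_phM {g h : Mon J p} (ψ : J → ZMod p) (hm : ∀ x, g.map (h.map x) = h.map (g.map x))
    (hψ : ∀ x, h.ph x + g.ph (h.map x) = (g.ph x + h.ph (g.map x)) + ψ (h.map (g.map x)))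
    (hg : ∀ x, ψ (g.map x) = ψ x) (hh : ∀ x, ψ (h.map x) = ψ x) : HeisI g h :=
  ⟨phM ψ, phM fun x => - ψ x, phM_mul_neg ψ, phM_neg_mul ψ, Mon.ext' hm hψ, phM_commute hg,
    phM_commute hh⟩

end

/-- translation -/
def trM {j : ℕ} (v : Wd p j) : Mon (Wd p j) p :=
  ⟨fun x => x + v, fun _ _ h => add_right_cancel h, fun _ => 0⟩

theorem trM_mul_neg {j : ℕ} (v : Wd p j) : trM v * trM (-v) = 1 :=
  Mon.ext' (fun x => by show x + -v + v = x; abel) fun _ => add_zero 0

theorem trM_neg_mul {j : ℕ} (v : Wd p j) : trM (-v) * trM v = 1 :=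
  Mon.ext' (fun x => by show x + v + -v = x; abel) fun _ => add_zero 0

theorem shift_injective {A : Type*} [AddCommGroup A] (M : A → A) (h : ∀ x, M (x + M x) = M x) :
    Function.Injective fun x : A => x + M x := by
  intro x y hxy
  have hxy' : x + M x = y + M y := hxy
  have e : M x = M y := by rw [← h x, hxy', h y]
  rw [e] at hxy'
  exact add_right_cancel hxy'

/-- shear -/
def shM {j : ℕ} (M : Wd p j → Wd p j) (h : ∀ x, M (x + M x) = M x) : Mon (Wd p j) p :=
  ⟨fun x => x + M x, shift_injective M h, fun _ => 0⟩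

theorem e0_NN {r : ℕ} (h : ¬ r = 0) (j : ℕ) : NN r (e0 p j) = 0 := by
  funext i
  show (if 1 ≤ i.val ∧ (i.val - 1) % 3 = r then dg (e0 p j) (i.val - 1) else 0) = 0
  by_cases h1 : 1 ≤ i.val ∧ (i.val - 1) % 3 = r
  · rw [if_pos h1]
    unfold dg e0
    by_cases h2 : i.val - 1 < j
    · rw [dif_pos h2]
      show (if i.val - 1 = 0 then (1 : ZMod p) else 0) = 0
      rw [if_neg]
      intro h3
      apply h
      rw [← h1.2, h3]
    · rw [dif_neg h2]
  · rw [if_neg h1]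

theorem dg_e0_succ (j i : ℕ) : dg (e0 p j) (i + 1) = 0 := by
  unfold dg e0
  split_ifs with h1 h2
  · simp at h2
  · rfl
  · rfl

theorem dg_NN_zero (r : ℕ) {j : ℕ} (x : Wd p j) : dg (NN r x) 0 = 0 := by
  unfold dg NN
  split_ifs with h1 h2
  · simp only [nonpos_iff_eq_zero, one_ne_zero, zero_tsub, Nat.zero_mod, false_and] at h2
  · rfl
  · rfl

theorem dg_NN_succ (r : ℕ) {j : ℕ} (x : Wd p j) (i : ℕ) :
    dg (NN r x) (i + 1) = if i + 1 < j ∧ i % 3 = r then dg x i else 0 := by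
  by_cases h : i + 1 < j
  · have e : dg (NN r x) (i + 1) = NN r x ⟨i + 1, h⟩ := by
      conv_lhs => unfold dg
      rw [dif_pos h]
    rw [e]
    show (if 1 ≤ i + 1 ∧ (i + 1 - 1) % 3 = r then dg x (i + 1 - 1) else 0) = _
    simp only [le_add_iff_nonneg_left, zero_le, add_tsub_cancel_right, true_and, h]
  · have e : dg (NN r x) (i + 1) = 0 := by
      conv_lhs => unfold dg
      rw [dif_neg h]
    rw [e, if_neg]
    intro h'
    exact h h'.1

/-- bilinear form -/
def bbW {j : ℕ} (x y : Wd p j) : ZMod p := ∑ i ∈ Finset.range j, dg x i * dg y (i + 1)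

theorem QQ_eq {j : ℕ} (x : Wd p j) : QQ x = bbW x x := rfl

theorem bbW_add_left {j : ℕ} (x x' y : Wd p j) : bbW (x + x') y = bbW x y + bbW x' y := by
  unfold bbW
  rw [← Finset.sum_add_distrib]
  refine Finset.sum_congr rfl fun i _ => ?_
  rw [dg_add, add_mul]

theorem bbW_add_right {j : ℕ} (x y y' : Wd p j) : bbW x (y + y') = bbW x y + bbW x y' := by
  unfold bbW
  rw [← Finset.sum_add_distrib]
  refine Finset.sum_congr rfl fun i _ => ?_
  rw [dg_add, mul_add]

theorem bbW_NN {j : ℕ} (r : ℕ) (x y : Wd p j) : bbW (NN r x) (NN r y) = 0 := by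
  unfold bbW
  refine Finset.sum_eq_zero fun i _ => ?_
  rw [dg_NN_succ]
  cases i with
  | zero => rw [dg_NN_zero, zero_mul]
  | succ i =>
    rw [dg_NN_succ]
    split_ifs with h1 h2
    · exfalso
      omega
    · rw [mul_zero]
    · rw [zero_mul]
    · rw [zero_mul]

/-- the invariant `q_r` -/
def qqW (r : ℕ) {j : ℕ} (x : Wd p j) : ZMod p := bbW (NN r x) x + bbW x (NN r x)

theorem QQ_shift (r : ℕ) {j : ℕ} (x : Wd p j) : QQ (x + NN r x) = QQ x + qqW r x := by
  rw [QQ_eq, QQ_eq, bbW_add_left, bbW_add_right, bbW_add_right, bbW_NN, qqW]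
  ring

theorem qqW_shift (r : ℕ) {j : ℕ} (x : Wd p j) : qqW r (x + NN r x) = qqW r x := by
  have h : NN r (x + NN r x) = NN r x := by
    rw [NN_add, NN_NN (by omega), add_zero]
  rw [qqW, h, bbW_add_left, bbW_add_right, bbW_NN, qqW]
  ring

theorem QQ_e0 {j : ℕ} (x : Wd p j) : QQ (x + e0 p j) = QQ x + dg x 1 := by
  rw [QQ_eq, QQ_eq, bbW_add_left, bbW_add_right, bbW_add_right]
  have h1 : ∀ y : Wd p j, bbW y (e0 p j) = 0 := by
    intro y
    unfold bbW
    refine Finset.sum_eq_zero fun i _ => ?_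
    rw [dg_e0_succ, mul_zero]
  have h2 : bbW (e0 p j) x = dg x 1 := by
    unfold bbW
    cases j with
    | zero =>
      simp [dg]
    | succ j =>
      rw [Finset.sum_range_succ']
      rw [Finset.sum_eq_zero fun i _ => by rw [dg_e0_succ, zero_mul]]
      have : dg (e0 p (j + 1)) 0 = 1 := by simp only [dg, lt_add_iff_pos_left, Order.lt_add_one_iff, zero_le, ↓reduceDIte, e0, ↓reduceIte]
      rw [this, zero_add, one_mul]
  rw [h1, h1, h2]
  ring

/-! ### pairs -/

theorem heis_XZ (j : ℕ) : HeisI (gl (p := p) j Gen.X) (gl j Gen.Z) := by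
  refine HeisI.of_phM (fun _ => - dg (e0 p j) 0) (fun _ => rfl) (fun x => ?_) (fun _ => rfl)
    (fun _ => rfl)
  show dg x 0 + 0 = (0 + dg (x + e0 p j) 0) + - dg (e0 p j) 0
  rw [dg_add]
  ring

theorem heis_XB (j : ℕ) : HeisI (gl (p := p) j Gen.X) (gl j Gen.B) := by
  refine HeisI.of_phM (fun x => - dg x 1) (fun _ => rfl) (fun x => ?_) (fun x => ?_)
    (fun _ => rfl)
  · show QQ x + 0 = (0 + QQ (x + e0 p j)) + - dg (x + e0 p j) 1
    rw [QQ_e0, dg_add, dg_e0_succ j 0]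
    ring
  · show - dg (x + e0 p j) 1 = - dg x 1
    rw [dg_add, dg_e0_succ j 0, add_zero]

/-- the shear generator -/
def gS (j r : ℕ) : Mon (Wd p j) p := ⟨fun x => x + NN r x, addNN_injective r j, fun _ => 0⟩

theorem heis_XA0 (j : ℕ) : HeisI (gl (p := p) j Gen.X) (gS j 0) := by
  refine ⟨trM (-(NN 0 (e0 p j))), trM (- -(NN 0 (e0 p j))), trM_mul_neg _, trM_neg_mul _, ?_, ?_, ?_⟩
  · refine Mon.ext' (fun x => ?_) fun x => ?_
    · show x + NN 0 x + e0 p j = (x + e0 p j) + NN 0 (x + e0 p j) + -(NN 0 (e0 p j))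
      rw [NN_add]
      abel
    · show (0 : ZMod p) + 0 = 0 + 0 + 0
      ring
  · refine Mon.ext' (fun x => ?_) fun x => rfl
    show x + e0 p j + -(NN 0 (e0 p j)) = x + -(NN 0 (e0 p j)) + e0 p j
    abel
  · refine Mon.ext' (fun x => ?_) fun x => rfl
    show x + NN 0 x + -(NN 0 (e0 p j)) = x + -(NN 0 (e0 p j)) + NN 0 (x + -(NN 0 (e0 p j)))
    rw [NN_add, NN_neg, NN_NN (by omega)]
    abel

theorem comm_XA {j r : ℕ} (h : ¬ r = 0) : Commute (gl (p := p) j Gen.X) (gS j r) := by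
  refine Mon.ext' (fun x => ?_) fun x => rfl
  show x + NN r x + e0 p j = (x + e0 p j) + NN r (x + e0 p j)
  rw [NN_add, e0_NN h]
  abel

theorem comm_ZA (j r : ℕ) : Commute (gl (p := p) j Gen.Z) (gS j r) := by
  refine Mon.ext' (fun x => rfl) fun x => ?_
  show 0 + dg (x + NN r x) 0 = dg x 0 + 0
  rw [dg_add, dg_NN_zero]
  ring

theorem comm_ZB (j : ℕ) : Commute (gl (p := p) j Gen.Z) (gl j Gen.B) := by
  refine Mon.ext' (fun x => rfl) fun x => ?_
  show QQ x + dg x 0 = dg x 0 + QQ x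
  ring

theorem heis_AB (j r : ℕ) : HeisI (gS (p := p) j r) (gl j Gen.B) := by
  refine HeisI.of_phM (fun x => - qqW r x) (fun _ => rfl) (fun x => ?_) (fun x => ?_)
    (fun _ => rfl)
  · show QQ x + 0 = (0 + QQ (x + NN r x)) + - qqW r (x + NN r x)
    rw [QQ_shift, qqW_shift]
    ring
  · show - qqW r (x + NN r x) = - qqW r x
    rw [qqW_shift]

theorem heis_AA (j : ℕ) {r s : ℕ} (hs : s % 3 = (r + 1) % 3) : HeisI (gS (p := p) j r) (gS j s) := by
  have hrs : ∀ x : Wd p j, NN r (NN s x) = 0 := fun x => NN_NN (by omega) x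
  have hrr : ∀ x : Wd p j, NN r (NN r x) = 0 := fun x => NN_NN (by omega) x
  have hss : ∀ x : Wd p j, NN s (NN s x) = 0 := fun x => NN_NN (by omega) x
  have n0 : ∀ t : ℕ, NN t (0 : Wd p j) = 0 := by
    intro t
    have := NN_add t (0 : Wd p j) 0
    simpa using this
  refine ⟨shM (fun x => - NN s (NN r x)) (fun x => by
      simp only [NN_add, NN_neg, hrs, hrr, hss, n0, add_zero, neg_zero]),
    shM (fun x => NN s (NN r x)) (fun x => by
      simp only [NN_add, NN_neg, hrs, hrr, hss, n0, add_zero, neg_zero]), ?_, ?_, ?_, ?_, ?_⟩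
  · refine Mon.ext' (fun x => ?_) fun x => add_zero 0
    show (x + NN s (NN r x)) + - NN s (NN r (x + NN s (NN r x))) = x
    simp only [NN_add, NN_neg, hrs, hrr, hss, n0, add_zero, neg_zero]
    abel
  · refine Mon.ext' (fun x => ?_) fun x => add_zero 0
    show (x + - NN s (NN r x)) + NN s (NN r (x + - NN s (NN r x))) = x
    simp only [NN_add, NN_neg, hrs, hrr, hss, n0, add_zero, neg_zero]
    abel
  · refine Mon.ext' (fun x => ?_) fun x => ?_
    · show (x + NN s x) + NN r (x + NN s x) = ((x + NN r x) + NN s (x + NN r x)) +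
        - NN s (NN r ((x + NN r x) + NN s (x + NN r x)))
      simp only [NN_add, hrs, add_zero, hrr]
      abel
    · show (0 : ZMod p) + 0 = 0 + 0 + 0
      ring
  · refine Mon.ext' (fun x => ?_) fun x => rfl
    show (x + NN r x) + - NN s (NN r (x + NN r x)) = (x + - NN s (NN r x)) +
      NN r (x + - NN s (NN r x))
    simp only [NN_add, NN_neg, hrs, hrr, hss, n0, add_zero, neg_zero]
    abel
  · refine Mon.ext' (fun x => ?_) fun x => rfl
    show (x + NN s x) + - NN s (NN r (x + NN s x)) = (x + - NN s (NN r x)) +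
      NN s (x + - NN s (NN r x))
    simp only [NN_add, NN_neg, hrs, hrr, hss, n0, add_zero, neg_zero]
    abel

theorem gl_heisI (j : ℕ) (g h : Gen) (hgh : g ≠ h) : HeisI (gl (p := p) j g) (gl j h) := by
  have hXA1 : HeisI (gl (p := p) j Gen.X) (gS j 1) := HeisI.of_commute (comm_XA (by omega))
  have hXA2 : HeisI (gl (p := p) j Gen.X) (gS j 2) := HeisI.of_commute (comm_XA (by omega))
  have hZA : ∀ r, HeisI (gl (p := p) j Gen.Z) (gS j r) := fun r => HeisI.of_commute (comm_ZA j r)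
  have hZB : HeisI (gl (p := p) j Gen.Z) (gl j Gen.B) := HeisI.of_commute (comm_ZB j)
  cases g <;> cases h
  all_goals first
    | exact absurd rfl hgh
    | exact heis_XZ j
    | exact (heis_XZ j).symm
    | exact heis_XA0 j
    | exact (heis_XA0 j).symm
    | exact hXA1
    | exact hXA1.symm
    | exact hXA2
    | exact hXA2.symm
    | exact heis_XB j
    | exact (heis_XB j).symm
    | exact hZB
    | exact hZB.symm
    | exact hZA 0
    | exact hZA 1
    | exact hZA 2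
    | exact (hZA 0).symm
    | exact (hZA 1).symm
    | exact (hZA 2).symm
    | exact heis_AB j 0
    | exact heis_AB j 1
    | exact heis_AB j 2
    | exact (heis_AB j 0).symm
    | exact (heis_AB j 1).symm
    | exact (heis_AB j 2).symm
    | exact heis_AA j (r := 0) (s := 1) rfl
    | exact heis_AA j (r := 1) (s := 2) rfl
    | exact heis_AA j (r := 2) (s := 0) rfl
    | exact (heis_AA j (r := 0) (s := 1) rfl).symm
    | exact (heis_AA j (r := 1) (s := 2) rfl).symm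
    | exact (heis_AA j (r := 2) (s := 0) rfl).symm

/-- (R1) -/
theorem gl_heis (j : ℕ) (g h : Gen) (hgh : g ≠ h) : HeisM (gl (p := p) j g) (gl j h) :=
  (gl_heisI j g h hgh).heisM

theorem gen_heis (g h : Gen) (hgh : g ≠ h) : HeisM (gen (p := p) g) (gen h) := by
  have H : HeisM (fun j => gl (p := p) j g) (fun j => gl j h) := by
    choose z h1 h2 h3 using fun j => gl_heis (p := p) j g h hgh
    exact ⟨z, funext h1, funext h2, funext h3⟩
  exact H.map (Mon.sig (Wd p))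

theorem iter_add {A : Type*} [AddMonoid A] (T : A → A) (v : A → A) (hT : ∀ x, T x = x + v x)
    (hv : ∀ x, v (x + v x) = v x) (n : ℕ) (x : A) : T^[n] x = x + n • v x := by
  induction n generalizing x with
  | zero => simp
  | succ n ih =>
    rw [Function.iterate_succ_apply, ih, hT, hv, add_assoc, add_comm n 1, add_nsmul, one_nsmul]

theorem Mon.pow_map {J : Type*} (a : Mon J p) (n : ℕ) (x : J) : (a ^ n).map x = a.map^[n] x := by
  induction n generalizing x with
  | zero => rfl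
  | succ n ih =>
    rw [pow_succ, Mon.mul_map, ih, Function.iterate_succ_apply]

theorem Mon.pow_ph {J : Type*} (a : Mon J p) (h : ∀ x, a.ph (a.map x) = a.ph x) (n : ℕ) (x : J) :
    (a ^ n).ph x = n • a.ph x := by
  induction n generalizing x with
  | zero => simp
  | succ n ih =>
    rw [pow_succ, Mon.mul_ph, ih, h, add_comm n 1, add_nsmul, one_nsmul]

theorem gl_pow (j : ℕ) (g : Gen) : gl (p := p) j g ^ p = 1 := by
  have hp : ∀ v : Wd p j, p • v = 0 := by
    intro v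
    funext i
    show p • v i = 0
    rw [nsmul_eq_mul, CharP.cast_eq_zero, zero_mul]
  have hp' : ∀ v : ZMod p, p • v = 0 := by
    intro v
    rw [nsmul_eq_mul, CharP.cast_eq_zero, zero_mul]
  have hid : ∀ (n : ℕ) (x : Wd p j), (fun y : Wd p j => y)^[n] x = x := by
    intro n x
    exact congrFun (Function.iterate_id n) x
  have hS : ∀ r : ℕ, gS (p := p) j r ^ p = 1 := by
    intro r
    refine Mon.ext' (fun x => ?_) fun x => ?_
    · rw [Mon.pow_map, iter_add (gS (p := p) j r).map (fun y : Wd p j => NN r y) (fun _ => rfl)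
        (fun y => by rw [NN_add, NN_NN (by omega), add_zero]), hp, add_zero]
      rfl
    · rw [Mon.pow_ph _ (fun _ => rfl), hp']
      rfl
  cases g
  · refine Mon.ext' (fun x => ?_) fun x => ?_
    · rw [Mon.pow_map, iter_add (gl (p := p) j Gen.X).map (fun _ => e0 p j) (fun _ => rfl)
        (fun _ => rfl), hp, add_zero]
      rfl
    · rw [Mon.pow_ph _ (fun _ => rfl), hp']
      rfl
  · refine Mon.ext' (fun x => ?_) fun x => ?_
    · rw [Mon.pow_map]
      exact hid p x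
    · rw [Mon.pow_ph _ (fun _ => rfl), hp']
      rfl
  · exact hS 0
  · exact hS 1
  · exact hS 2
  · refine Mon.ext' (fun x => ?_) fun x => ?_
    · rw [Mon.pow_map]
      exact hid p x
    · rw [Mon.pow_ph _ (fun _ => rfl), hp']
      rfl

theorem gen_pow (g : Gen) : gen (p := p) g ^ p = 1 := by
  have H : (fun j => gl (p := p) j g) ^ p = 1 := funext fun j => gl_pow j g
  show Mon.sig (Wd p) (fun j => gl j g) ^ p = 1
  rw [← map_pow, H, map_one]

theorem X_comm_A2 : Commute (gen (p := p) Gen.X) (gen Gen.A2) := by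
  have H : Commute (fun j => gl (p := p) j Gen.X) (fun j => gl j Gen.A2) :=
    funext fun j => comm_XA (r := 2) (by omega)
  exact H.map (Mon.sig (Wd p))

theorem Z_comm_B : Commute (gen (p := p) Gen.Z) (gen Gen.B) := by
  have H : Commute (fun j => gl (p := p) j Gen.Z) (fun j => gl j Gen.B) :=
    funext fun j => comm_ZB j
  exact H.map (Mon.sig (Wd p))

end Vale.Agent.P083N
end
end

section

section

/-! Relations (R2) with the creation maps. -/

namespace Vale.Agent.P083N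

variable {p : ℕ}

theorem dg_cons_zero {j : ℕ} (y : ZMod p) (x : Wd p j) :
    dg (Fin.cons y x : Wd p (j + 1)) 0 = y := by
  rw [dg, dif_pos (Nat.succ_pos j)]
  rfl

theorem dg_cons_succ {j : ℕ} (y : ZMod p) (x : Wd p j) (i : ℕ) :
    dg (Fin.cons y x : Wd p (j + 1)) (i + 1) = dg x i := by
  unfold dg
  by_cases h : i < j
  · rw [dif_pos (Nat.succ_lt_succ h), dif_pos h]
    rfl
  · rw [dif_neg (by omega), dif_neg h]

theorem dg_of_le {j : ℕ} (x : Wd p j) {i : ℕ} (h : j ≤ i) : dg x i = 0 := by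
  rw [dg, dif_neg (by omega)]

theorem gen_map (g : Gen) (j : ℕ) (x : Wd p j) :
    (gen g).map ⟨j, x⟩ = ⟨j, (gl j g).map x⟩ := rfl

theorem gen_ph (g : Gen) (j : ℕ) (x : Wd p j) :
    (gen g).ph ⟨j, x⟩ = (gl j g).ph x := rfl

theorem cre_map (y : ZMod p) (j : ℕ) (x : Wd p j) :
    (cre y).map ⟨j, x⟩ = ⟨j + 1, (Fin.cons y x : Wd p (j + 1))⟩ := rfl

theorem cre_ph (y : ZMod p) (x : Ix p) : (cre y).ph x = 0 := rfl

/-- (R2) -/
theorem X_cre (y : ZMod p) : gen Gen.X * cre y = cre (y + 1) := by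
  refine Mon.ext' (fun x => ?_) (fun x => ?_)
  · obtain ⟨j, x⟩ := x
    rw [Mon.mul_map, cre_map, cre_map, gen_map]
    refine congrArg (Sigma.mk (j + 1)) (funext fun i => ?_)
    refine Fin.cases ?_ (fun i => ?_) i
    · show y + e0 p (j + 1) 0 = y + 1
      simp [e0]
    · show x i + e0 p (j + 1) i.succ = x i
      simp [e0]
  · rw [Mon.mul_ph, cre_ph, cre_ph, zero_add]
    rfl

theorem Z_cre (y : ZMod p) : gen Gen.Z * cre y = Mon.scal y * cre y := by
  refine Mon.ext' (fun x => rfl) (fun x => ?_)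
  obtain ⟨j, x⟩ := x
  rw [Mon.mul_ph, Mon.mul_ph, cre_ph, cre_map, gen_ph, Mon.scal_ph]
  show 0 + dg (Fin.cons y x : Wd p (j + 1)) 0 = 0 + y
  rw [dg_cons_zero]

theorem NN_cons_zero (r : ℕ) {j : ℕ} (y : ZMod p) (x : Wd p j) :
    NN r (Fin.cons y x : Wd p (j + 1)) 0 = 0 := by
  simp only [NN, Fin.coe_ofNat_eq_mod, Nat.zero_mod, nonpos_iff_eq_zero, one_ne_zero, zero_tsub, false_and, ↓reduceIte]

theorem NN_cons_succ (r : ℕ) {j : ℕ} (y : ZMod p) (x : Wd p j) (i : Fin j) :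
    NN r (Fin.cons y x : Wd p (j + 1)) i.succ
      = if i.val % 3 = r then dg (Fin.cons y x : Wd p (j + 1)) i.val else 0 := by
  simp only [NN, Fin.val_succ, le_add_iff_nonneg_left, zero_le, add_tsub_cancel_right, true_and]

theorem NN_cons_one {j : ℕ} (y : ZMod p) (x : Wd p j) (i : Fin j) :
    NN 1 (Fin.cons y x : Wd p (j + 1)) i.succ = NN 0 x i := by
  rw [NN_cons_succ]
  obtain ⟨i, hi⟩ := i
  cases i with
  | zero => simp only [Nat.zero_mod, zero_ne_one, ↓reduceIte, NN, nonpos_iff_eq_zero, one_ne_zero, zero_tsub, and_true]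
  | succ i =>
    simp only [NN, dg_cons_succ, Nat.add_sub_cancel]
    by_cases h : i % 3 = 0
    · rw [if_pos (by omega), if_pos ⟨by omega, h⟩]
    · rw [if_neg (by omega), if_neg (fun h' => h h'.2)]

theorem NN_cons_two {j : ℕ} (y : ZMod p) (x : Wd p j) (i : Fin j) :
    NN 2 (Fin.cons y x : Wd p (j + 1)) i.succ = NN 1 x i := by
  rw [NN_cons_succ]
  obtain ⟨i, hi⟩ := i
  cases i with
  | zero => simp only [Nat.zero_mod, OfNat.zero_ne_ofNat, ↓reduceIte, NN, nonpos_iff_eq_zero, one_ne_zero, zero_tsub, zero_ne_one, and_self]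
  | succ i =>
    simp only [NN, dg_cons_succ, Nat.add_sub_cancel]
    by_cases h : i % 3 = 1
    · rw [if_pos (by omega), if_pos ⟨by omega, h⟩]
    · rw [if_neg (by omega), if_neg (fun h' => h h'.2)]

theorem NN_cons_three {j : ℕ} (y : ZMod p) (x : Wd p j) (i : Fin j) :
    NN 0 (Fin.cons y x : Wd p (j + 1)) i.succ = NN 2 x i + (if i.val = 0 then y else 0) := by
  rw [NN_cons_succ]
  obtain ⟨i, hi⟩ := i
  cases i with
  | zero => simp only [Nat.zero_mod, ↓reduceIte, dg_cons_zero, NN, nonpos_iff_eq_zero, one_ne_zero, zero_tsub, OfNat.zero_ne_ofNat, and_self, zero_add]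
  | succ i =>
    simp only [NN, dg_cons_succ, Nat.add_sub_cancel]
    by_cases h : i % 3 = 2
    · rw [if_pos (by omega), if_pos ⟨by omega, h⟩, if_neg (by omega), add_zero]
    · rw [if_neg (by omega), if_neg (fun h' => h h'.2), if_neg (by omega), add_zero]

theorem X_pow_map (j k : ℕ) (x : Wd p j) :
    (gen Gen.X ^ k).map ⟨j, x⟩ = ⟨j, x + (k : ZMod p) • e0 p j⟩ := by
  induction k generalizing x with
  | zero =>
    rw [pow_zero, Mon.one_map, Nat.cast_zero, zero_smul, add_zero]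
  | succ k ih =>
    rw [pow_succ, Mon.mul_map, gen_map, ih]
    refine congrArg (Sigma.mk j) ?_
    show x + e0 p j + (k : ZMod p) • e0 p j = x + ((k + 1 : ℕ) : ZMod p) • e0 p j
    rw [Nat.cast_add, Nat.cast_one, add_smul, one_smul, add_assoc, add_comm (e0 p j)]

theorem X_pow_ph (k : ℕ) (x : Ix p) : (gen Gen.X ^ k).ph x = 0 := by
  induction k generalizing x with
  | zero => rfl
  | succ k ih =>
    rw [pow_succ, Mon.mul_ph, ih, add_zero]
    rfl

theorem Z_pow_map (k : ℕ) (x : Ix p) : (gen Gen.Z ^ k).map x = x := by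
  induction k generalizing x with
  | zero => rfl
  | succ k ih =>
    rw [pow_succ, Mon.mul_map, ih]
    rfl

theorem Z_pow_ph (j k : ℕ) (x : Wd p j) :
    (gen Gen.Z ^ k).ph ⟨j, x⟩ = (k : ZMod p) * dg x 0 := by
  induction k with
  | zero =>
    rw [pow_zero, Mon.one_ph, Nat.cast_zero, zero_mul]
  | succ k ih =>
    rw [pow_succ', Mon.mul_ph, ih, Z_pow_map]
    show (k : ZMod p) * dg x 0 + dg x 0 = _
    push_cast
    ring

theorem A0_cre [NeZero p] (y : ZMod p) :
    gen Gen.A0 * cre y = cre y * (gen Gen.X ^ y.val * gen Gen.A2) := by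
  refine Mon.ext' (fun x => ?_) (fun x => ?_)
  · obtain ⟨j, x⟩ := x
    rw [Mon.mul_map, Mon.mul_map, Mon.mul_map, cre_map, gen_map, gen_map, X_pow_map, cre_map]
    refine congrArg (Sigma.mk (j + 1)) (funext fun i => ?_)
    rw [ZMod.natCast_zmod_val]
    refine Fin.cases ?_ (fun i => ?_) i
    · show y + NN 0 (Fin.cons y x : Wd p (j + 1)) 0 = y
      rw [NN_cons_zero, add_zero]
    · show x i + NN 0 (Fin.cons y x : Wd p (j + 1)) i.succ = x i + NN 2 x i + y • e0 p j i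
      rw [NN_cons_three, add_assoc]
      simp [e0]
  · obtain ⟨j, x⟩ := x
    rw [Mon.mul_ph, Mon.mul_ph, Mon.mul_ph, cre_ph, cre_ph, X_pow_ph, zero_add, add_zero,
      add_zero]
    rfl

theorem A1_cre (y : ZMod p) : gen Gen.A1 * cre y = cre y * gen Gen.A0 := by
  refine Mon.ext' (fun x => ?_) (fun x => rfl)
  obtain ⟨j, x⟩ := x
  rw [Mon.mul_map, Mon.mul_map, cre_map, gen_map, gen_map, cre_map]
  refine congrArg (Sigma.mk (j + 1)) (funext fun i => ?_)
  refine Fin.cases ?_ (fun i => ?_) i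
  · show y + NN 1 (Fin.cons y x : Wd p (j + 1)) 0 = y
    rw [NN_cons_zero, add_zero]
  · show x i + NN 1 (Fin.cons y x : Wd p (j + 1)) i.succ = x i + NN 0 x i
    rw [NN_cons_one]

theorem A2_cre (y : ZMod p) : gen Gen.A2 * cre y = cre y * gen Gen.A1 := by
  refine Mon.ext' (fun x => ?_) (fun x => rfl)
  obtain ⟨j, x⟩ := x
  rw [Mon.mul_map, Mon.mul_map, cre_map, gen_map, gen_map, cre_map]
  refine congrArg (Sigma.mk (j + 1)) (funext fun i => ?_)
  refine Fin.cases ?_ (fun i => ?_) i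
  · show y + NN 2 (Fin.cons y x : Wd p (j + 1)) 0 = y
    rw [NN_cons_zero, add_zero]
  · show x i + NN 2 (Fin.cons y x : Wd p (j + 1)) i.succ = x i + NN 1 x i
    rw [NN_cons_two]

theorem QQ_cons {j : ℕ} (y : ZMod p) (x : Wd p j) :
    QQ (Fin.cons y x : Wd p (j + 1)) = y * dg x 0 + QQ x := by
  rw [QQ, QQ, Finset.sum_range_succ']
  simp only [dg_cons_succ, dg_cons_zero]
  rw [add_comm]

theorem B_cre [NeZero p] (y : ZMod p) :
    gen Gen.B * cre y = cre y * (gen Gen.Z ^ y.val * gen Gen.B) := by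
  refine Mon.ext' (fun x => ?_) (fun x => ?_)
  · obtain ⟨j, x⟩ := x
    rw [Mon.mul_map, Mon.mul_map, Mon.mul_map, Z_pow_map]
    rfl
  · obtain ⟨j, x⟩ := x
    rw [Mon.mul_ph, Mon.mul_ph, Mon.mul_ph, cre_ph, cre_ph, cre_map, gen_ph, gen_ph, gen_map,
      Z_pow_ph, ZMod.natCast_zmod_val]
    show 0 + QQ (Fin.cons y x : Wd p (j + 1)) = QQ x + y * dg x 0 + 0
    rw [QQ_cons]
    ring

/-- All generators fix the empty word, with trivial phase. -/
theorem gen_empty (g : Gen) (x : Wd p 0) :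
    (gen g).map ⟨0, x⟩ = ⟨0, x⟩ ∧ (gen g).ph ⟨0, x⟩ = 0 := by
  refine ⟨?_, ?_⟩
  · rw [gen_map]
    exact congrArg (Sigma.mk 0) (Subsingleton.elim _ _)
  · rw [gen_ph]
    cases g
    · rfl
    · show dg x 0 = 0
      exact dg_of_le x le_rfl
    · rfl
    · rfl
    · rfl
    · show QQ x = 0
      rw [QQ, Finset.range_zero, Finset.sum_empty]

end Vale.Agent.P083N
end
end

section

section

/-! STEP 1: the spectral gap for pairwise Heisenberg unitaries of order `p`. -/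

namespace Vale.Agent.P083N

noncomputable section

universe u

variable {B : Type u} [CStarAlgebra B] {p : ℕ}

theorem gap [Fact p.Prime] {ι : Type} [Fintype ι] [DecidableEq ι] (g : ι → B)
    (hu : ∀ i, g i ∈ unitary B) (hp : ∀ i, g i ^ p = 1)
    (hH : ∀ i j, i ≠ j → HeisM (g i) (g j)) :
    IsPos (lap p g * lap p g
      - ((1 - ((Fintype.card ι : ℝ) - 1) / Real.sqrt p : ℝ) : ℂ) • lap p g) := by
  let _ := CStarAlgebra.spectralOrder B
  let _ := CStarAlgebra.spectralOrderedRing B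
  rw [isPos_iff]
  have h1 : ∀ i j, i ≠ j → ∃ z, g i * g j = z * g j * g i ∧ Commute z (g i) ∧ Commute z (g j) := by
    intro i j hij
    obtain ⟨z, h1, h2, h3⟩ := hH i j hij
    exact ⟨z, by rw [h1, mul_assoc], h2, h3⟩
  have h2 := Core.gap (Fact.out : p.Prime) g hu hp h1
  have h3 : lap p g = ∑ i, Core.dft p (g i) := by
    unfold lap
    exact Finset.sum_congr rfl fun i _ => qv_eq_core _
  rw [← h3, ← sub_nonneg, Core.gc, ← div_eq_mul_inv] at h2
  have h5 := Complex.coe_smul (1 - ((Fintype.card ι : ℝ) - 1) / Real.sqrt p) (lap p g)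
  rw [← h5] at h2
  exact h2

theorem isPos_qv (hp : 0 < p) {g : B} (hu : g ∈ unitary B) (h : g ^ p = 1) : IsPos (qv p g) :=
  ⟨qv p g, by rw [star_qv hp hu h, qv_mul_self hp h]⟩

/-- the version used later: six generators and `p ≥ 100`. -/
theorem gap_half [Fact p.Prime] (hp100 : 100 ≤ p) {ι : Type} [Fintype ι] [DecidableEq ι]
    (hι : Fintype.card ι = 6) (g : ι → B)
    (hu : ∀ i, g i ∈ unitary B) (hp : ∀ i, g i ^ p = 1)
    (hH : ∀ i j, i ≠ j → HeisM (g i) (g j)) :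
    IsPos (lap p g * lap p g - ((1 / 2 : ℝ) : ℂ) • lap p g) := by
  have hp0 : 0 < p := by omega
  have h1 := gap g hu hp hH
  have h2 : IsPos (lap p g) := IsPos.sum _ _ fun i _ => isPos_qv hp0 (hu i) (hp i)
  have h10 : (10 : ℝ) ≤ Real.sqrt p := by
    rw [Real.le_sqrt' (by norm_num)]
    have : (100 : ℝ) ≤ p := by exact_mod_cast hp100
    linarith only [this]
  have h3 : 0 ≤ (1 - ((Fintype.card ι : ℝ) - 1) / Real.sqrt p) - 1 / 2 := by
    rw [hι]
    have h4 : ((6 : ℕ) - 1 : ℝ) / Real.sqrt p ≤ 1 / 2 := by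
      rw [div_le_div_iff₀ (by linarith only [h10]) (by norm_num)]
      push_cast
      linarith only [h10]
    linarith only [h4]
  have h4 := h1.add (h2.smul h3)
  have h5 : lap p g * lap p g
      - ((1 - ((Fintype.card ι : ℝ) - 1) / Real.sqrt p : ℝ) : ℂ) • lap p g
      + (((1 - ((Fintype.card ι : ℝ) - 1) / Real.sqrt p) - 1 / 2 : ℝ) : ℂ) • lap p g
      = lap p g * lap p g - ((1 / 2 : ℝ) : ℂ) • lap p g := by
    rw [Complex.ofReal_sub (1 - ((Fintype.card ι : ℝ) - 1) / Real.sqrt p), sub_smul]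
    abel
  rw [h5] at h4
  exact h4

end

end Vale.Agent.P083N
end
end

section

section

/-! STEP 2: the lifting inequality. -/

namespace Vale.Agent.P083N

noncomputable section

universe u

variable {B : Type u} [CStarAlgebra B] {p : ℕ}

/-- `p^{-1/2} ∑_y w_y`. -/
def lam (p : ℕ) [NeZero p] (w : ZMod p → B) : B :=
  (((1 / Real.sqrt p : ℝ)) : ℂ) • ∑ y, w y

theorem l827_star_real_smul (r : ℝ) (x : B) : star ((r : ℂ) • x) = (r : ℂ) • star x := by
  rw [star_smul]
  congr 1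
  simp

theorem l827_pow_mul_inter {g w h : B} (hw : g * w = w * h) (k : ℕ) :
    g ^ k * w = w * h ^ k := by
  induction k with
  | zero => simp
  | succ k ih => rw [pow_succ', mul_assoc, ih, ← mul_assoc, hw, mul_assoc, ← pow_succ']

theorem l827_av_mul_inter {g w h : B} (hw : g * w = w * h) :
    av p g * w = w * av p h := by
  rw [av, av, smul_mul_assoc, mul_smul_comm, Finset.sum_mul, Finset.mul_sum]
  congr 1
  exact Finset.sum_congr rfl fun k _ => l827_pow_mul_inter hw k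

theorem l827_av_mul_of_fixed (hp : p ≠ 0) {g x : B} (h : g * x = x) : av p g * x = x := by
  have h1 : ∀ k : ℕ, g ^ k * x = x := by
    intro k
    induction k with
    | zero => simp
    | succ k ih => rw [pow_succ, mul_assoc, h, ih]
  rw [av, smul_mul_assoc, Finset.sum_mul, Finset.sum_congr rfl fun k _ => h1 k]
  rw [Finset.sum_const, Finset.card_range, ← Nat.cast_smul_eq_nsmul ℂ, smul_smul,
    inv_mul_cancel₀ (by exact_mod_cast hp), one_smul]

theorem l827_pow_mul_av (hp : 0 < p) {g : B} (hg : g ^ p = 1) (k : ℕ) :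
    g ^ k * av p g = av p g := by
  induction k with
  | zero => simp
  | succ k ih => rw [pow_succ, mul_assoc, mul_av hp hg, ih]

theorem l827_commute_av {g x : B} (h : Commute x g) : Commute x (av p g) := by
  rw [av]
  exact (Commute.sum_right _ _ _ fun k _ => h.pow_right k).smul_right _

theorem l827_commute_av_av {g h : B} (hgh : Commute g h) : Commute (av p g) (av p h) :=
  l827_commute_av (l827_commute_av hgh.symm).symm

theorem l827_isPos_proj {e : B} (he : star e = e) (h : e * e = e) : IsPos e :=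
  ⟨e, by rw [he, h]⟩

theorem star_lam_mul [NeZero p] {w : ZMod p → B}
    (hw : ∀ y y', star (w y) * w y' = if y = y' then 1 else 0)
    (f : ZMod p → B) :
    star (lam p w) * ((((1 / Real.sqrt p : ℝ)) : ℂ) • ∑ y, w y * f y)
      = ((p : ℂ)⁻¹) • ∑ y, f y := by
  have hp0 : (0 : ℝ) ≤ p := Nat.cast_nonneg p
  have h1 : (((1 / Real.sqrt p : ℝ)) : ℂ) * (((1 / Real.sqrt p : ℝ)) : ℂ) = (p : ℂ)⁻¹ := by
    rw [← Complex.ofReal_mul, one_div, ← mul_inv, Real.mul_self_sqrt hp0]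
    push_cast; rfl
  rw [lam, l827_star_real_smul, star_sum, smul_mul_smul_comm, h1, Finset.sum_mul]
  congr 1
  refine Finset.sum_congr rfl fun y _ => ?_
  rw [Finset.mul_sum]
  rw [Finset.sum_eq_single y]
  · rw [← mul_assoc, hw, if_pos rfl, one_mul]
  · intro y' _ hy
    rw [← mul_assoc, hw, if_neg (Ne.symm hy), zero_mul]
  · intro h; exact absurd (Finset.mem_univ y) h

theorem star_lam_mul_lam [NeZero p] (w : ZMod p → B)
    (hw : ∀ y y', star (w y) * w y' = if y = y' then 1 else 0) :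
    star (lam p w) * lam p w = 1 := by
  have h := star_lam_mul hw (fun _ => 1)
  simp only [mul_one] at h
  rw [show lam p w = (((1 / Real.sqrt p : ℝ)) : ℂ) • ∑ y, w y from rfl] at h ⊢
  rw [h, Finset.sum_const, Finset.card_univ, ZMod.card, ← Nat.cast_smul_eq_nsmul ℂ, smul_smul,
    inv_mul_cancel₀ (by exact_mod_cast NeZero.ne p), one_smul]

theorem l827_lift_fixed [NeZero p] {w : ZMod p → B} {g : B} (hg : g * lam p w = lam p w) :
    star (lam p w) * qv p g * lam p w = 0 := by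
  rw [qv, mul_assoc, sub_mul, one_mul, l827_av_mul_of_fixed (NeZero.ne p) hg, sub_self, mul_zero]

theorem l827_lift_inter [NeZero p] {w : ZMod p → B}
    (hw : ∀ y y', star (w y) * w y' = if y = y' then 1 else 0) {g h : B}
    (hg : ∀ y, g * w y = w y * h) :
    star (lam p w) * qv p g * lam p w = qv p h := by
  have h1 : g * lam p w = lam p w * h := by
    rw [lam, mul_smul_comm, smul_mul_assoc, Finset.mul_sum, Finset.sum_mul]
    congr 1
    exact Finset.sum_congr rfl fun y _ => hg y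
  rw [qv, qv, mul_assoc, sub_mul, one_mul, l827_av_mul_inter h1, mul_sub, ← mul_assoc,
    star_lam_mul_lam w hw, one_mul]

/-- mixed case -/
theorem l827_lift_mixed [Fact p.Prime] {w : ZMod p → B}
    (hw : ∀ y y', star (w y) * w y' = if y = y' then 1 else 0)
    {C U V : B} (hU : U ^ p = 1) (hV : V ^ p = 1) (hUu : U ∈ unitary B) (hVu : V ∈ unitary B)
    (hUV : Commute U V) (hC : ∀ y, C * w y = w y * (U ^ (ZMod.val y) * V)) :
    IsPos (qv p U + qv p V - star (lam p w) * qv p C * lam p w) := by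
  have hp : 0 < p := (Fact.out : p.Prime).pos
  have hp0 : p ≠ 0 := hp.ne'
  -- the projections
  have hPU := av_mul_self hp hU
  have hPV := av_mul_self hp hV
  have hPUs := star_av hp hUu hU
  have hPVs := star_av hp hVu hV
  have hc : av p U * av p V = av p V * av p U := (l827_commute_av_av hUV).eq
  -- formula
  have h1 : star (lam p w) * av p C * lam p w
      = ((p : ℂ)⁻¹) • ∑ y : ZMod p, av p (U ^ (ZMod.val y) * V) := by
    rw [← star_lam_mul hw, mul_assoc]
    congr 1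
    rw [lam, mul_smul_comm, Finset.mul_sum]
    congr 1
    exact Finset.sum_congr rfl fun y _ => l827_av_mul_inter (hC y)
  have h2 : ∀ y : ZMod p, IsPos (av p (U ^ (ZMod.val y) * V) - av p U * av p V) := by
    intro y
    have hT : (U ^ (ZMod.val y) * V) ^ p = 1 := by
      rw [(hUV.pow_left _).mul_pow, ← pow_mul, mul_comm, pow_mul, hU, one_pow, hV, one_mul]
    have hTu : U ^ (ZMod.val y) * V ∈ unitary B := mul_mem (pow_mem hUu _) hVu
    have hR := av_mul_self hp hT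
    have hRs := star_av hp hTu hT
    obtain ⟨R, hRdef⟩ : ∃ R, R = av p (U ^ (ZMod.val y) * V) := ⟨_, rfl⟩
    rw [← hRdef] at hR hRs ⊢
    have hfix : U ^ (ZMod.val y) * V * (av p U * av p V) = av p U * av p V := by
      calc U ^ (ZMod.val y) * V * (av p U * av p V)
          = U ^ (ZMod.val y) * (V * av p V * av p U) := by rw [hc]; simp only [mul_assoc]
        _ = U ^ (ZMod.val y) * (av p U * av p V) := by rw [mul_av hp hV, hc]
        _ = av p U * av p V := by rw [← mul_assoc, l827_pow_mul_av hp hU]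
    have hRN : R * (av p U * av p V) = av p U * av p V := by
      rw [hRdef]; exact l827_av_mul_of_fixed hp0 hfix
    have hNs : star (av p U * av p V) = av p U * av p V := by
      rw [star_mul, hPUs, hPVs, hc]
    have hNR : (av p U * av p V) * R = av p U * av p V := by
      have := congrArg star hRN
      rwa [star_mul, hRs, hNs] at this
    have hNN : (av p U * av p V) * (av p U * av p V) = av p U * av p V := by
      calc (av p U * av p V) * (av p U * av p V)
          = av p U * (av p V * av p U) * av p V := by simp only [mul_assoc]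
        _ = (av p U * av p U) * (av p V * av p V) := by rw [← hc]; simp only [mul_assoc]
        _ = _ := by rw [hPU, hPV]
    refine l827_isPos_proj ?_ ?_
    · rw [star_sub, hRs, hNs]
    · rw [mul_sub, sub_mul, sub_mul, hR, hRN, hNR, hNN, sub_self, sub_zero]
  have h3 : IsPos (qv p U * qv p V) := by
    have hc' : qv p U * qv p V = qv p V * qv p U := by
      rw [qv, qv]
      simp only [mul_sub, sub_mul, mul_one, one_mul, hc]; abel
    refine l827_isPos_proj ?_ ?_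
    · rw [star_mul, star_qv hp hUu hU, star_qv hp hVu hV, hc']
    · calc qv p U * qv p V * (qv p U * qv p V)
          = qv p U * (qv p V * qv p U) * qv p V := by
            simp only [mul_assoc]
        _ = (qv p U * qv p U) * (qv p V * qv p V) := by
            rw [← hc']; simp only [mul_assoc]
        _ = qv p U * qv p V := by rw [qv_mul_self hp hU, qv_mul_self hp hV]
  have h4 : qv p U + qv p V - star (lam p w) * qv p C * lam p w
      = qv p U * qv p V
        + (((p : ℝ)⁻¹ : ℝ) : ℂ) •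
          ∑ y : ZMod p, (av p (U ^ (ZMod.val y) * V) - av p U * av p V) := by
    have e1 : star (lam p w) * qv p C * lam p w
        = 1 - ((p : ℂ)⁻¹) • ∑ y : ZMod p, av p (U ^ (ZMod.val y) * V) := by
      rw [qv, mul_sub, sub_mul, mul_one, star_lam_mul_lam w hw, h1]
    rw [e1, Finset.sum_sub_distrib, Finset.sum_const, Finset.card_univ, ZMod.card,
      ← Nat.cast_smul_eq_nsmul ℂ, smul_sub, smul_smul]
    push_cast
    rw [inv_mul_cancel₀ (by exact_mod_cast hp0), one_smul]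
    rw [qv, qv]
    simp only [mul_sub, sub_mul, mul_one, one_mul]
    abel
  rw [h4]
  exact h3.add ((IsPos.sum _ _ fun y _ => h2 y).smul (by (clear * - hp; positivity)))

theorem lift_le [Fact p.Prime] (U : Gen → B) (w : ZMod p → B)
    (hu : ∀ g, U g ∈ unitary B) (hp : ∀ g, U g ^ p = 1)
    (hw : ∀ y y', star (w y) * w y' = if y = y' then 1 else 0)
    (hX : ∀ y, U Gen.X * w y = w (y + 1)) (hZ : ∀ y, U Gen.Z * w y = w y)
    (h0 : ∀ y, U Gen.A0 * w y = w y * (U Gen.X ^ y.val * U Gen.A2))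
    (h1 : ∀ y, U Gen.A1 * w y = w y * U Gen.A0)
    (h2 : ∀ y, U Gen.A2 * w y = w y * U Gen.A1)
    (hB : ∀ y, U Gen.B * w y = w y * (U Gen.Z ^ y.val * U Gen.B))
    (c1 : Commute (U Gen.X) (U Gen.A2)) (c2 : Commute (U Gen.Z) (U Gen.B)) :
    IsPos (lap p U - star (lam p w) * lap p U * lam p w) := by
  have hXL : U Gen.X * lam p w = lam p w := by
    rw [lam, mul_smul_comm, Finset.mul_sum]
    congr 1
    rw [Finset.sum_congr rfl fun y _ => hX y]
    exact Fintype.sum_equiv (Equiv.addRight 1) _ _ fun y => rfl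
  have hZL : U Gen.Z * lam p w = lam p w := by
    rw [lam, mul_smul_comm, Finset.mul_sum]
    congr 1
    exact Finset.sum_congr rfl fun y _ => hZ y
  have e0 := l827_lift_mixed hw (hp Gen.X) (hp Gen.A2) (hu Gen.X) (hu Gen.A2) c1 h0
  have eB := l827_lift_mixed hw (hp Gen.Z) (hp Gen.B) (hu Gen.Z) (hu Gen.B) c2 hB
  have eX := l827_lift_fixed hXL
  have eZ := l827_lift_fixed hZL
  have e1 := l827_lift_inter hw h1
  have e2 := l827_lift_inter hw h2
  have hlap : lap p U = qv p (U Gen.X) + (qv p (U Gen.Z) + (qv p (U Gen.A0) + (qv p (U Gen.A1)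
      + (qv p (U Gen.A2) + qv p (U Gen.B))))) := by
    rw [lap]
    change ∑ i ∈ ({Gen.X, Gen.Z, Gen.A0, Gen.A1, Gen.A2, Gen.B} : Finset Gen), qv p (U i) = _
    rw [Finset.sum_insert (by decide), Finset.sum_insert (by decide),
      Finset.sum_insert (by decide), Finset.sum_insert (by decide),
      Finset.sum_insert (by decide), Finset.sum_singleton]
  have key := e0.add eB
  convert key using 1
  rw [hlap]
  simp only [mul_add, add_mul, eX, eZ, e1, e2]
  abel

end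

end Vale.Agent.P083N
end
end

section

section

/-! The relations hold for concrete monomial operators. -/

namespace Vale.Agent.P083N

noncomputable section

/-- The generators as operators. -/
def relA (p : ℕ) (χ : AddChar (ZMod p) Circle) (g : Gen) :
    L2 (Ix p × ℕ) ℂ →L[ℂ] L2 (Ix p × ℕ) ℂ := op ℂ χ (Mon.amp ℕ (gen g))

/-- The creation operators. -/
def relT (p : ℕ) (χ : AddChar (ZMod p) Circle) (y : ZMod p) :
    L2 (Ix p × ℕ) ℂ →L[ℂ] L2 (Ix p × ℕ) ℂ := op ℂ χ (Mon.amp ℕ (cre y))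

theorem relIx_inj (p : ℕ) [Fact p.Prime] :
    ∃ e : Ix p × ℕ → ℕ, Function.Injective e := by
  have : NeZero p := ⟨(Fact.out : p.Prime).ne_zero⟩
  exact Countable.exists_injective_nat (Ix p × ℕ)

/-- The monomial data of the isometry onto the empty word. -/
def relS (p : ℕ) (e : Ix p × ℕ → ℕ) (he : Function.Injective e) : Mon (Ix p × ℕ) p where
  map x := (⟨0, fun _ => 0⟩, e x)
  inj x y h := he (congrArg Prod.snd h)
  ph _ := 0

theorem amp_scal (p : ℕ) (k : ZMod p) :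
    Mon.amp ℕ (Mon.scal k : Mon (Ix p) p) = Mon.scal k := rfl

theorem gen_surjective (p : ℕ) [Fact p.Prime] (g : Gen) :
    Function.Surjective (Mon.amp ℕ (gen (p := p) g)).map := by
  intro x
  have hp : 0 < p := (Fact.out : p.Prime).pos
  have h1 : (Mon.amp ℕ (gen (p := p) g)) * (Mon.amp ℕ (gen (p := p) g)) ^ (p - 1) = 1 := by
    rw [← pow_succ', Nat.sub_add_cancel hp, ← map_pow, gen_pow, map_one]
  refine ⟨((Mon.amp ℕ (gen (p := p) g)) ^ (p - 1)).map x, ?_⟩
  rw [← Mon.mul_map, h1, Mon.one_map]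

theorem cre_disjoint (p : ℕ) {y y' : ZMod p} (h : y ≠ y') (i j : Ix p × ℕ) :
    (Mon.amp ℕ (cre (p := p) y)).map i ≠ (Mon.amp ℕ (cre y')).map j := by
  obtain ⟨⟨k, x⟩, m⟩ := i
  obtain ⟨⟨l, z⟩, n⟩ := j
  intro H
  have h1 := congrArg Prod.fst H
  simp only [Mon.amp_map, cre, Sigma.mk.injEq] at h1
  obtain ⟨h2, h3⟩ := h1
  obtain rfl : k = l := by omega
  rw [heq_eq_eq] at h3
  exact h (Fin.cons_injective2 h3).1

theorem relS_inv (p : ℕ) (e : Ix p × ℕ → ℕ) (he : Function.Injective e) (g : Gen) :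
    Mon.amp ℕ (gen (p := p) g) * relS p e he = relS p e he := by
  refine Mon.ext' (fun x => ?_) (fun x => ?_)
  · rw [Mon.mul_map, Mon.amp_map]
    show ((gen g).map ⟨0, fun _ => 0⟩, e x) = ((⟨0, fun _ => 0⟩ : Ix p), e x)
    rw [(gen_empty g _).1]
  · rw [Mon.mul_ph, Mon.amp_ph]
    show 0 + (gen g).ph ⟨0, fun _ => 0⟩ = 0
    rw [(gen_empty g _).2, add_zero]

/-- The relations hold for monomial operators on `ℓ²(Ix p × ℕ)`. -/
theorem exists_rels_op (p : ℕ) [Fact p.Prime] (χ : AddChar (ZMod p) Circle) :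
    ∃ (a : Gen → (L2 (Ix p × ℕ) ℂ →L[ℂ] L2 (Ix p × ℕ) ℂ))
      (t : ZMod p → (L2 (Ix p × ℕ) ℂ →L[ℂ] L2 (Ix p × ℕ) ℂ))
      (s : L2 (Ix p × ℕ) ℂ →L[ℂ] L2 (Ix p × ℕ) ℂ), Rels p χ a t s := by
  have hp : NeZero p := ⟨(Fact.out : p.Prime).ne_zero⟩
  obtain ⟨e, he⟩ := relIx_inj p
  refine ⟨relA p χ, relT p χ, op ℂ χ (relS p e he), ?_⟩
  refine
    { uni := ?_
      pow := ?_
      heis := ?_
      iso := ?_
      X := ?_
      Z := ?_
      A0 := ?_
      A1 := ?_
      A2 := ?_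
      B := ?_
      c1 := ?_
      c2 := ?_
      s_iso := ?_
      s_inv := ?_ }
  · intro g
    rw [Unitary.mem_iff]
    exact ⟨star_op_mul_op _ _, op_mul_star_op _ _ (gen_surjective p g)⟩
  · intro g
    rw [relA, ← map_pow, ← map_pow, gen_pow, map_one, map_one]
  · intro g h hgh
    exact ((gen_heis g h hgh).map (Mon.amp ℕ)).map (op ℂ χ)
  · intro y y'
    split_ifs with h
    · subst h
      exact star_op_mul_op _ _
    · exact star_op_mul_op_of_disjoint _ _ _ (cre_disjoint p h)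
  · intro y
    rw [relA, relT, relT, ← map_mul, ← map_mul, X_cre]
  · intro y
    rw [relA, relT, ← map_mul, ← map_mul, Z_cre, map_mul, map_mul, amp_scal, op_scal, smul_mul_assoc,
      one_mul]
  · intro y
    rw [relA, relT, relA, relA, ← map_mul, ← map_mul, A0_cre, map_mul, map_mul, map_mul, map_mul,
      map_pow, map_pow]
  · intro y
    rw [relA, relT, relA, ← map_mul, ← map_mul, A1_cre, map_mul, map_mul]
  · intro y
    rw [relA, relT, relA, ← map_mul, ← map_mul, A2_cre, map_mul, map_mul]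
  · intro y
    rw [relA, relT, relA, ← map_mul, ← map_mul, B_cre, map_mul, map_mul, map_mul, map_mul,
      map_pow, map_pow]
  · exact (X_comm_A2.map (Mon.amp ℕ)).map (op ℂ χ)
  · exact (Z_comm_B.map (Mon.amp ℕ)).map (op ℂ χ)
  · exact star_op_mul_op _ _
  · intro g
    rw [relA, ← map_mul, relS_inv]

end

end Vale.Agent.P083N
end
end

section

section

/-! Passing to a separable C*-subalgebra. -/

namespace Vale.Agent.P083N

noncomputable section

open TopologicalSpace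

/-- the element `z` of `HeisM` is the commutator. -/
theorem HeisM.eq_comm {C : Type*} [Ring C] [StarRing C] {g h z : C} (hg : g * star g = 1)
    (hh : h * star h = 1) (H : g * h = z * (h * g)) : z = g * h * (star g * star h) := by
  rw [H]
  calc z = z * (h * (g * star g) * star h) := by rw [hg, mul_one, hh, mul_one]
    _ = z * (h * g) * (star g * star h) := by simp only [mul_assoc]

theorem countable_closure_of_countable {M : Type*} [Monoid M] {s : Set M} (hs : s.Countable) :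
    ((Submonoid.closure s : Submonoid M) : Set M).Countable := by
  haveI := hs.to_subtype
  have h : (Submonoid.closure s : Submonoid M) = MonoidHom.mrange (FreeMonoid.lift ((↑) : s → M)) :=
    Submonoid.closure_eq_mrange s
  rw [h, MonoidHom.coe_mrange]
  haveI : Countable (FreeMonoid s) := inferInstanceAs (Countable (List s))
  exact Set.countable_range _

/-- Elements satisfying the relations can be found in a separable C*-algebra. -/
theorem exists_separable (p : ℕ) [Fact p.Prime] (χ : AddChar (ZMod p) Circle)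
    {C : Type} [CStarAlgebra C] [Nontrivial C] {a : Gen → C} {t : ZMod p → C} {s : C}
    (h : Rels p χ a t s) :
    ∃ (A : Type) (_ : CStarAlgebra A), Nontrivial A ∧ TopologicalSpace.SeparableSpace A ∧
      ∃ (a' : Gen → A) (t' : ZMod p → A) (s' : A), Rels p χ a' t' s' := by
  classical
  let S : Set C := Set.range a ∪ Set.range t ∪ {s}
  have hSc : S.Countable :=
    ((Set.countable_range a).union (Set.countable_range t)).union (Set.countable_singleton s)
  let D : StarSubalgebra ℂ C := (StarAlgebra.adjoin ℂ S).topologicalClosure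
  have hDcl : IsClosed (D : Set C) := StarSubalgebra.isClosed_topologicalClosure _
  letI hC : CStarAlgebra D := StarSubalgebra.cstarAlgebra D (h_closed := hDcl)
  have hsub : S ⊆ (D : Set C) :=
    (StarAlgebra.subset_adjoin ℂ S).trans (StarSubalgebra.le_topologicalClosure _)
  have hsep : IsSeparable (D : Set C) := by
    show IsSeparable (closure ((StarAlgebra.adjoin ℂ S : StarSubalgebra ℂ C) : Set C))
    rw [isSeparable_closure]
    have h1 : ((StarAlgebra.adjoin ℂ S : StarSubalgebra ℂ C) : Set C)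
        = (Submodule.span ℂ (Submonoid.closure (S ∪ star S) : Set C) : Set C) := by
      have := StarAlgebra.adjoin_eq_span (R := ℂ) S
      rw [← this]
      rfl
    rw [h1]
    refine IsSeparable.span ?_
    refine (countable_closure_of_countable ?_).isSeparable
    refine hSc.union ?_
    rw [← Set.image_star]
    exact hSc.image _
  refine ⟨D, hC, ?_, ?_, ?_⟩
  · exact ⟨⟨0, 1, fun h0 => zero_ne_one (congrArg (Subtype.val : D → C) h0)⟩⟩
  · exact hsep.separableSpace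
  · have ha : ∀ g, a g ∈ D := fun g => hsub (Or.inl (Or.inl ⟨g, rfl⟩))
    have ht : ∀ y, t y ∈ D := fun y => hsub (Or.inl (Or.inr ⟨y, rfl⟩))
    have hs : s ∈ D := hsub (Or.inr rfl)
    have hu : ∀ g, star (a g) * a g = 1 ∧ a g * star (a g) = 1 := fun g => by
      have := h.uni g
      rw [Unitary.mem_iff] at this
      exact this
    refine ⟨fun g => ⟨a g, ha g⟩, fun y => ⟨t y, ht y⟩, ⟨s, hs⟩, ?_⟩
    refine ⟨?_, ?_, ?_, ?_, ?_, ?_, ?_, ?_, ?_, ?_, ?_, ?_, ?_, ?_⟩
    · intro g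
      rw [Unitary.mem_iff]
      exact ⟨Subtype.ext (hu g).1, Subtype.ext (hu g).2⟩
    · intro g
      exact Subtype.ext (h.pow g)
    · intro g k hgk
      obtain ⟨z, h1, h2, h3⟩ := h.heis g k hgk
      have hz := HeisM.eq_comm (hu g).2 (hu k).2 h1
      have hzD : z ∈ D := by
        rw [hz]
        exact mul_mem (mul_mem (ha g) (ha k)) (mul_mem (star_mem (ha g)) (star_mem (ha k)))
      exact ⟨⟨z, hzD⟩, Subtype.ext h1, Subtype.ext h2, Subtype.ext h3⟩
    · intro y y'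
      refine Subtype.ext ?_
      have := h.iso y y'
      show star (t y) * t y' = _
      rw [this]
      split_ifs <;> rfl
    · exact fun y => Subtype.ext (h.X y)
    · exact fun y => Subtype.ext (h.Z y)
    · exact fun y => Subtype.ext (h.A0 y)
    · exact fun y => Subtype.ext (h.A1 y)
    · exact fun y => Subtype.ext (h.A2 y)
    · exact fun y => Subtype.ext (h.B y)
    · exact Subtype.ext h.c1
    · exact Subtype.ext h.c2
    · exact Subtype.ext h.s_iso
    · exact fun g => Subtype.ext (h.s_inv g)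

end

end Vale.Agent.P083N
end
end

section

section

/-! STEP 4: the bottom of the spectrum along the levels (abstract version). -/

open scoped InnerProductSpace

namespace Vale.Agent.P083N

noncomputable section

variable {H : Type*} [NormedAddCommGroup H] [InnerProductSpace ℂ H]

theorem low_bound (D : H →L[ℂ] H) (hD : ∀ x y, ⟪D x, y⟫_ℂ = ⟪x, D y⟫_ℂ)
    (E : Submodule ℂ H) (hE : ∀ x ∈ E, D x ∈ E) {m : ℝ} (hm0 : 0 ≤ m)
    (hm : ∀ x ∈ E, m * ‖x‖ ^ 2 ≤ (⟪x, D x⟫_ℂ).re) (x : H) (hx : x ∈ E) :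
    ‖D x‖ ^ 2 ≤ (‖D‖ + 1) * ((⟪x, D x⟫_ℂ).re - m * ‖x‖ ^ 2)
      + 2 * m * (⟪x, D x⟫_ℂ).re - m ^ 2 * ‖x‖ ^ 2 := by
  obtain ⟨y, hy⟩ : ∃ y, y = D x - (m : ℂ) • x := ⟨_, rfl⟩
  have hyE : y ∈ E := by
    rw [hy]
    exact E.sub_mem (hE x hx) (E.smul_mem _ hx)
  obtain ⟨M, hM⟩ : ∃ M : ℝ, M = ‖D‖ + 1 := ⟨_, rfl⟩
  have hM0 : 0 < M := by
    rw [hM]
    (clear * -; positivity)
  -- the test vector
  have hz : x - ((1 / M : ℝ) : ℂ) • y ∈ E := E.sub_mem hx (E.smul_mem _ hyE)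
  have h1 := hm _ hz
  have hre : ∀ (c : ℝ) (v w : H), (⟪v, (c : ℂ) • w⟫_ℂ).re = c * (⟪v, w⟫_ℂ).re := by
    intro c v w
    rw [inner_smul_right, Complex.re_ofReal_mul]
  have hre' : ∀ (c : ℝ) (v w : H), (⟪(c : ℂ) • v, w⟫_ℂ).re = c * (⟪v, w⟫_ℂ).re := by
    intro c v w
    rw [inner_smul_left, Complex.conj_ofReal, Complex.re_ofReal_mul]
  have hsymm : ∀ v w : H, (⟪v, w⟫_ℂ).re = (⟪w, v⟫_ℂ).re := by
    intro v w
    rw [← inner_conj_symm, Complex.conj_re]
  have hnorm : ∀ v : H, (⟪v, v⟫_ℂ).re = ‖v‖ ^ 2 := by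
    intro v
    rw [inner_self_eq_norm_sq_to_K]
    norm_cast
  have hyD : (⟪y, D y⟫_ℂ).re ≤ ‖D‖ * ‖y‖ ^ 2 := by
    calc (⟪y, D y⟫_ℂ).re ≤ ‖⟪y, D y⟫_ℂ‖ := Complex.re_le_norm _
      _ ≤ ‖y‖ * ‖D y‖ := norm_inner_le_norm _ _
      _ ≤ ‖y‖ * (‖D‖ * ‖y‖) := by gcongr; exact D.le_opNorm y
      _ = _ := by ring
  -- expand
  have e1 : (⟪x - ((1 / M : ℝ) : ℂ) • y, D (x - ((1 / M : ℝ) : ℂ) • y)⟫_ℂ).re
      = (⟪x, D x⟫_ℂ).re - 2 * (1 / M) * (⟪D x, y⟫_ℂ).re + (1 / M) ^ 2 * (⟪y, D y⟫_ℂ).re := by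
    rw [map_sub, map_smul, inner_sub_left, inner_sub_right, inner_sub_right]
    simp only [Complex.sub_re, hre, hre']
    rw [← hD x y, hsymm y (D x)]
    ring
  have e2 : ‖x - ((1 / M : ℝ) : ℂ) • y‖ ^ 2
      = ‖x‖ ^ 2 - 2 * (1 / M) * (⟪x, y⟫_ℂ).re + (1 / M) ^ 2 * ‖y‖ ^ 2 := by
    rw [← hnorm, inner_sub_left, inner_sub_right, inner_sub_right]
    simp only [Complex.sub_re, hre, hre', hnorm]
    rw [hsymm y x]
    ring
  have e3 : (⟪D x, y⟫_ℂ).re - m * (⟪x, y⟫_ℂ).re = ‖y‖ ^ 2 := by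
    rw [← hnorm y, ← hre' m x y, ← Complex.sub_re, ← inner_sub_left, ← hy]
  have e4 : ‖y‖ ^ 2 = ‖D x‖ ^ 2 - 2 * m * (⟪x, D x⟫_ℂ).re + m ^ 2 * ‖x‖ ^ 2 := by
    rw [← hnorm y, hy, inner_sub_left, inner_sub_right, inner_sub_right]
    simp only [Complex.sub_re, hre, hre', hnorm]
    rw [hsymm (D x) x]
    ring
  rw [e1, e2] at h1
  have h2 : 0 ≤ m * ((1 / M) ^ 2 * ‖y‖ ^ 2) := by (clear * - hm0 hM0; positivity)
  have h3 : 0 ≤ ((⟪x, D x⟫_ℂ).re - m * ‖x‖ ^ 2) - 2 * (1 / M) * ‖y‖ ^ 2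
      + (1 / M) ^ 2 * (‖D‖ * ‖y‖ ^ 2) := by
    have h4 : (1 / M) ^ 2 * (⟪y, D y⟫_ℂ).re ≤ (1 / M) ^ 2 * (‖D‖ * ‖y‖ ^ 2) := by
      (clear * - hyD hM0; gcongr)
    rw [← e3] at h4 ⊢
    linarith
  have h5 : (1 / M) ^ 2 * (‖D‖ * ‖y‖ ^ 2) ≤ (1 / M) * ‖y‖ ^ 2 := by
    have : (1 / M) * ‖D‖ ≤ 1 := by
      rw [one_div, inv_mul_le_iff₀ hM0, hM]
      linarith only []
    calc (1 / M) ^ 2 * (‖D‖ * ‖y‖ ^ 2) = ((1 / M) * ‖D‖) * ((1 / M) * ‖y‖ ^ 2) := by ring
      _ ≤ 1 * ((1 / M) * ‖y‖ ^ 2) := by (clear * - this hM0; gcongr)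
      _ = _ := one_mul _
  have h6 : (1 / M) * ‖y‖ ^ 2 ≤ (⟪x, D x⟫_ℂ).re - m * ‖x‖ ^ 2 := by linarith only [h3, h5]
  have h7 : ‖y‖ ^ 2 ≤ M * ((⟪x, D x⟫_ℂ).re - m * ‖x‖ ^ 2) := by
    rw [one_div, inv_mul_le_iff₀ hM0] at h6
    exact h6
  rw [e4, hM] at h7
  linarith only [h7]

theorem low_step (D : H →L[ℂ] H) (hD : ∀ x y, ⟪D x, y⟫_ℂ = ⟪x, D y⟫_ℂ) {δ : ℝ} (hδ : 0 < δ)
    (gap : ∀ x, (1 / 2) * (⟪x, D x⟫_ℂ).re - δ * ‖x‖ ^ 2 ≤ ‖D x‖ ^ 2)
    (E : Submodule ℂ H) (hE : ∀ x ∈ E, D x ∈ E)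
    (x0 : H) (hx0 : x0 ∈ E) (hx00 : x0 ≠ 0) (hx0D : (⟪x0, D x0⟫_ℂ).re < (1 / 4) * ‖x0‖ ^ 2) :
    ∃ x ∈ E, ‖x‖ = 1 ∧ (⟪x, D x⟫_ℂ).re ≤ 4 * δ := by
  by_contra hcon
  push Not at hcon
  -- normalisation
  have hunit : ∀ x ∈ E, x ≠ 0 → ∃ y ∈ E, ‖y‖ = 1 ∧
      (⟪x, D x⟫_ℂ).re = (⟪y, D y⟫_ℂ).re * ‖x‖ ^ 2 := by
    intro x hx hx0
    have hxn : 0 < ‖x‖ := norm_pos_iff.2 hx0
    refine ⟨((‖x‖⁻¹ : ℝ) : ℂ) • x, E.smul_mem _ hx, ?_, ?_⟩
    · rw [norm_smul, Complex.norm_real, norm_inv, norm_norm, inv_mul_cancel₀ hxn.ne']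
    · rw [map_smul, inner_smul_left, inner_smul_right, Complex.conj_ofReal,
        Complex.re_ofReal_mul, Complex.re_ofReal_mul]
      (clear * - hx0; field_simp)
  set S : Set ℝ := {e | ∃ x ∈ E, ‖x‖ = 1 ∧ e = (⟪x, D x⟫_ℂ).re} with hS
  obtain ⟨y0, hy0E, hy0n, hy0⟩ := hunit x0 hx0 hx00
  have hne : S.Nonempty := ⟨_, y0, hy0E, hy0n, rfl⟩
  have hlb : ∀ e ∈ S, 4 * δ ≤ e := by
    rintro e ⟨x, hxE, hxn, rfl⟩
    exact (hcon x hxE hxn).le
  have hbdd : BddBelow S := ⟨4 * δ, fun e he => hlb e he⟩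
  obtain ⟨m, hm⟩ : ∃ m, m = sInf S := ⟨_, rfl⟩
  have hm4 : 4 * δ ≤ m := by
    rw [hm]
    exact le_csInf hne hlb
  have hmle : ∀ x ∈ E, m * ‖x‖ ^ 2 ≤ (⟪x, D x⟫_ℂ).re := by
    intro x hx
    by_cases hx0 : x = 0
    · subst hx0
      simp
    · obtain ⟨y, hyE, hyn, hy⟩ := hunit x hx hx0
      rw [hy, hm]
      gcongr
      exact csInf_le hbdd ⟨y, hyE, hyn, rfl⟩
  have hmlt : m < 1 / 4 := by
    have h1 := hmle x0 hx0
    have h2 : 0 < ‖x0‖ ^ 2 := by
      have := norm_pos_iff.2 hx00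
      positivity
    by_contra h
    push Not at h
    nlinarith only [hx0D, h1, h]
  have key : ∀ ε : ℝ, 0 < ε → m / 2 - δ ≤ m ^ 2 + ε * (‖D‖ + 1 + 2 * m) := by
    intro ε hε
    obtain ⟨e, ⟨x, hxE, hxn, rfl⟩, he⟩ := exists_lt_of_csInf_lt hne (show sInf S < m + ε by
      rw [← hm]; linarith only [hε])
    have h1 := low_bound D hD E hE (by linarith only [hδ, hm4]) hmle x hxE
    have h2 := gap x
    have h3 := hmle x hxE
    rw [hxn] at h1 h2 h3
    have hDn : 0 ≤ ‖D‖ := norm_nonneg D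
    have hmp : 0 ≤ m := by linarith only [hδ, hm4]
    nlinarith only [h1, h2, h3, he, hmp, mul_le_mul_of_nonneg_left he.le (by positivity : 0 ≤ ‖D‖ + 1)]
  have hfin : m / 2 - δ ≤ m ^ 2 := by
    refine le_of_forall_pos_le_add fun ε hε => ?_
    have hpos : 0 < ‖D‖ + 1 + 2 * m := by
      have := norm_nonneg D
      linarith only [hδ, hm4, this]
    have := key (ε / (‖D‖ + 1 + 2 * m)) (by (clear * - hε hpos; positivity))
    rwa [div_mul_cancel₀ _ hpos.ne'] at this
  nlinarith only [hm4, hfin, hδ, hmlt]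

/-- Abstract version. -/
theorem exists_low {H : Type*} [NormedAddCommGroup H] [InnerProductSpace ℂ H] [CompleteSpace H]
    (D L : H →L[ℂ] H) (hD : ∀ x y, ⟪D x, y⟫_ℂ = ⟪x, D y⟫_ℂ) (hD0 : ∀ x, 0 ≤ (⟪x, D x⟫_ℂ).re)
    {δ : ℝ} (hδ : 0 < δ) (hδ1 : δ ≤ 1 / 100)
    (gap : ∀ x, (1 / 2) * (⟪x, D x⟫_ℂ).re - δ * ‖x‖ ^ 2 ≤ ‖D x‖ ^ 2)
    (lift : ∀ x, (⟪L x, D (L x)⟫_ℂ).re ≤ (⟪x, D x⟫_ℂ).re + δ * ‖x‖ ^ 2)
    (iso : ∀ x, (1 - δ) * ‖x‖ ^ 2 ≤ ‖L x‖ ^ 2)
    (E : ℕ → Submodule ℂ H) (hDE : ∀ j, ∀ x ∈ E j, D x ∈ E j)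
    (hLE : ∀ j, ∀ x ∈ E j, L x ∈ E (j + 1))
    (x0 : H) (hx0 : x0 ∈ E 0) (hx00 : x0 ≠ 0) (hx0D : (⟪x0, D x0⟫_ℂ).re ≤ (1 / 8) * ‖x0‖ ^ 2) :
    ∀ j, ∃ x ∈ E j, ‖x‖ = 1 ∧ (⟪x, D x⟫_ℂ).re ≤ 4 * δ := by
  intro j
  induction j with
  | zero =>
    refine low_step D hD hδ gap (E 0) (hDE 0) x0 hx0 hx00 (lt_of_le_of_lt hx0D ?_)
    have : 0 < ‖x0‖ := norm_pos_iff.2 hx00
    have : 0 < ‖x0‖ ^ 2 := by positivity
    linarith only [this]
  | succ j ih =>
    obtain ⟨x, hxE, hxn, hx⟩ := ih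
    have h1 := lift x
    have h2 := iso x
    rw [hxn] at h1 h2
    refine low_step D hD hδ gap (E (j + 1)) (hDE (j + 1)) (L x) (hLE j x hxE) ?_ ?_
    · intro h
      rw [h, norm_zero] at h2
      linarith only [hδ1, h2]
    · linarith only [hδ1, hx, h1, h2]

end

end Vale.Agent.P083N
end
end

section

section

/-! STEP 4: error correction along the levels. -/

open scoped ENNReal InnerProductSpace

namespace Vale.Agent.P083N

noncomputable section

variable {p : ℕ} {K : Type} [NormedAddCommGroup K] [InnerProductSpace ℂ K] [CompleteSpace K]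

omit [CompleteSpace K] in
theorem lvl_hasSum_sq {J : Type} (f : L2 J K) : HasSum (fun i => ‖f i‖ ^ 2) (‖f‖ ^ 2) := by
  have h := lp.hasSum_norm (p := 2) (by norm_num) f
  simpa only [ENNReal.toReal_ofNat, Real.rpow_ofNat] using h

omit [CompleteSpace K] in
theorem lvl_sum_le {J : Type} (f : L2 J K) (s : Finset J) : ∑ i ∈ s, ‖f i‖ ^ 2 ≤ ‖f‖ ^ 2 :=
  sum_le_hasSum s (fun _ _ => by positivity) (lvl_hasSum_sq f)

/-- The vectors supported on words of length `j`. -/
def lvl (p : ℕ) (K : Type) [NormedAddCommGroup K] [InnerProductSpace ℂ K] (j : ℕ) :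
    Submodule ℂ (L2 (Ix p) K) where
  carrier := {f | ∀ x : Ix p, x.1 ≠ j → f x = 0}
  add_mem' := by
    intro f g hf hg x hx
    rw [lp.coeFn_add, Pi.add_apply, hf x hx, hg x hx, add_zero]
  zero_mem' := by
    intro x _
    rw [lp.coeFn_zero, Pi.zero_apply]
  smul_mem' := by
    intro c f hf x hx
    rw [lp.coeFn_smul, Pi.smul_apply, hf x hx, smul_zero]

theorem diag_mem_lvl {j : ℕ} {f : L2 (Ix p) K} (hf : f ∈ lvl p K j) (x : K →L[ℂ] K) :
    diag (Ix p) K x f ∈ lvl p K j := by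
  intro i hi
  rw [diag_apply, hf i hi, map_zero]

/-- A monomial operator shifting the level by `d`. -/
theorem op_mem_lvl {j d : ℕ} {f : L2 (Ix p) K} (hf : f ∈ lvl p K j)
    (χ : AddChar (ZMod p) Circle) (a : Mon (Ix p) p) (ha : ∀ x, (a.map x).1 = x.1 + d) :
    op K χ a f ∈ lvl p K (j + d) := by
  intro i hi
  by_cases h : i ∈ Set.range a.map
  · obtain ⟨x, rfl⟩ := h
    rw [op_apply_map, hf x, smul_zero]
    intro hx
    apply hi
    rw [ha, hx]
  · exact op_apply_of_notMem χ a f i h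

theorem star_op_mem_lvl {j : ℕ} {f : L2 (Ix p) K} (hf : f ∈ lvl p K j)
    (χ : AddChar (ZMod p) Circle) (a : Mon (Ix p) p) (ha : ∀ x, (a.map x).1 = x.1) :
    star (op K χ a) f ∈ lvl p K j := by
  intro i hi
  rw [star_op_apply, hf (a.map i), smul_zero]
  rwa [ha]

theorem UU_mem_lvl (χ : AddChar (ZMod p) Circle) (u : Gen → (K →L[ℂ] K)) (g : Gen) {j : ℕ}
    {f : L2 (Ix p) K} (hf : f ∈ lvl p K j) : UU χ u g f ∈ lvl p K j := by
  unfold UU
  exact diag_mem_lvl (op_mem_lvl (d := 0) hf χ⁻¹ (gen g) (fun x => gen_level g x)) (u g)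

theorem star_UU_mem_lvl (χ : AddChar (ZMod p) Circle) (u : Gen → (K →L[ℂ] K)) (g : Gen) {j : ℕ}
    {f : L2 (Ix p) K} (hf : f ∈ lvl p K j) : star (UU χ u g) f ∈ lvl p K j := by
  unfold UU
  rw [star_mul, ← map_star (diag (Ix p) K) (u g)]
  exact star_op_mem_lvl (diag_mem_lvl hf (star (u g))) χ⁻¹ (gen g) (fun x => gen_level g x)

theorem pow_mem_lvl {T : L2 (Ix p) K →L[ℂ] L2 (Ix p) K} {j : ℕ}
    (hT : ∀ f ∈ lvl p K j, T f ∈ lvl p K j) (k : ℕ) :
    ∀ f ∈ lvl p K j, (T ^ k) f ∈ lvl p K j := by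
  induction k with
  | zero => intro f hf; simpa only [pow_zero, one_apply_eq_self] using hf
  | succ k ih =>
    intro f hf
    rw [pow_succ, ContinuousLinearMap.mul_apply]
    exact ih _ (hT f hf)

theorem sum_pow_mem_lvl {T : L2 (Ix p) K →L[ℂ] L2 (Ix p) K} {j : ℕ}
    (hT : ∀ f ∈ lvl p K j, T f ∈ lvl p K j) (n : ℕ) (c : ℂ) :
    ∀ f ∈ lvl p K j, (1 - c • ∑ k ∈ Finset.range n, T ^ k) f ∈ lvl p K j := by
  intro f hf
  rw [ContinuousLinearMap.sub_apply, ContinuousLinearMap.one_apply,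
    ContinuousLinearMap.smul_apply, ContinuousLinearMap.sum_apply]
  exact Submodule.sub_mem _ hf (Submodule.smul_mem _ _
    (Submodule.sum_mem _ fun k _ => pow_mem_lvl hT k f hf))

theorem QQ'_mem_lvl (χ : AddChar (ZMod p) Circle) (u : Gen → (K →L[ℂ] K)) (g : Gen) {j : ℕ}
    {f : L2 (Ix p) K} (hf : f ∈ lvl p K j) : QQ' χ u g f ∈ lvl p K j :=
  sum_pow_mem_lvl (fun _ h => UU_mem_lvl χ u g h) p _ f hf

theorem star_QQ'_eq (χ : AddChar (ZMod p) Circle) (u : Gen → (K →L[ℂ] K)) (g : Gen) :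
    star (QQ' χ u g) = 1 - (star ((p : ℂ)⁻¹)) • ∑ k ∈ Finset.range p, (star (UU χ u g)) ^ k := by
  unfold QQ'
  rw [star_sub, star_one, star_smul, star_sum]
  simp only [star_pow]

theorem star_QQ'_mem_lvl (χ : AddChar (ZMod p) Circle) (u : Gen → (K →L[ℂ] K)) (g : Gen) {j : ℕ}
    {f : L2 (Ix p) K} (hf : f ∈ lvl p K j) : star (QQ' χ u g) f ∈ lvl p K j := by
  rw [star_QQ'_eq]
  exact sum_pow_mem_lvl (fun _ h => star_UU_mem_lvl χ u g h) p _ f hf

theorem DD_apply (χ : AddChar (ZMod p) Circle) (u : Gen → (K →L[ℂ] K)) (f : L2 (Ix p) K) :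
    DD χ u f = ∑ g, star (QQ' χ u g) (QQ' χ u g f) := by
  unfold DD
  rw [ContinuousLinearMap.sum_apply]
  rfl

theorem DD_mem_lvl (χ : AddChar (ZMod p) Circle) (u : Gen → (K →L[ℂ] K)) {j : ℕ}
    {f : L2 (Ix p) K} (hf : f ∈ lvl p K j) : DD χ u f ∈ lvl p K j := by
  rw [DD_apply]
  exact Submodule.sum_mem _ fun g _ => star_QQ'_mem_lvl χ u g (QQ'_mem_lvl χ u g hf)

theorem LL_mem_lvl [NeZero p] (χ : AddChar (ZMod p) Circle) (v : ZMod p → (K →L[ℂ] K)) {j : ℕ}
    {f : L2 (Ix p) K} (hf : f ∈ lvl p K j) : LL χ v f ∈ lvl p K (j + 1) := by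
  unfold LL
  rw [ContinuousLinearMap.smul_apply, ContinuousLinearMap.sum_apply]
  refine Submodule.smul_mem _ _ (Submodule.sum_mem _ fun y _ => ?_)
  unfold WW
  exact diag_mem_lvl (op_mem_lvl (d := 1) hf χ⁻¹ (cre y) (fun x => rfl)) (v y)

theorem inner_DD (χ : AddChar (ZMod p) Circle) (u : Gen → (K →L[ℂ] K)) (x y : L2 (Ix p) K) :
    ⟪x, DD χ u y⟫_ℂ = ∑ g, ⟪QQ' χ u g x, QQ' χ u g y⟫_ℂ := by
  rw [DD_apply, inner_sum]
  refine Finset.sum_congr rfl fun g _ => ?_
  rw [ContinuousLinearMap.star_eq_adjoint, ContinuousLinearMap.adjoint_inner_right]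

theorem inner_DD_re (χ : AddChar (ZMod p) Circle) (u : Gen → (K →L[ℂ] K)) (x : L2 (Ix p) K) :
    (⟪x, DD χ u x⟫_ℂ).re = ∑ g, ‖QQ' χ u g x‖ ^ 2 := by
  rw [inner_DD, Complex.re_sum]
  refine Finset.sum_congr rfl fun g _ => ?_
  rw [inner_self_eq_norm_sq_to_K]
  norm_cast

theorem lvl_single_mem (y : Wd p 0) (k : K) :
    (lp.single 2 (⟨0, y⟩ : Ix p) k : L2 (Ix p) K) ∈ lvl p K 0 := by
  intro x hx
  rw [lp.single_apply, Pi.single_apply, if_neg]
  rintro rfl
  exact hx rfl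

theorem lvl_sum_eq {j : ℕ} [NeZero p] {x : L2 (Ix p) K} (hx : x ∈ lvl p K j) :
    ∑ w : Wd p j, ‖x ⟨j, w⟩‖ ^ 2 = ‖x‖ ^ 2 := by
  have h1 := lvl_hasSum_sq x
  have hinj : Function.Injective (fun w : Wd p j => (⟨j, w⟩ : Ix p)) := sigma_mk_injective
  have h2 : HasSum (fun w : Wd p j => ‖x ⟨j, w⟩‖ ^ 2) (‖x‖ ^ 2) := by
    refine (hinj.hasSum_iff (f := fun i : Ix p => ‖x i‖ ^ 2) ?_).mpr h1
    intro i hi
    have : i.1 ≠ j := by
      rintro rfl
      exact hi ⟨i.2, rfl⟩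
    rw [hx i this, norm_zero]
    norm_num
  exact (hasSum_fintype (fun w : Wd p j => ‖x ⟨j, w⟩‖ ^ 2)).unique h2

theorem UU_apply_level (χ : AddChar (ZMod p) Circle) (u : Gen → (K →L[ℂ] K)) (g : Gen) {j : ℕ}
    (x : L2 (Ix p) K) (w : Wd p j) :
    UU χ u g x ⟨j, (gl j g).map w⟩
      = ((χ (-(gl j g).ph w) : Circle) : ℂ) • u g (x ⟨j, w⟩) := by
  show (diag (Ix p) K (u g) * op K χ⁻¹ (gen g)) x ((gen g).map ⟨j, w⟩) = _
  rw [ContinuousLinearMap.mul_apply, diag_apply, op_apply_map, map_smul, AddChar.inv_apply]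
  rfl

theorem lvl_sum_sub_le (χ : AddChar (ZMod p) Circle) (u : Gen → (K →L[ℂ] K)) (g : Gen) (j : ℕ)
    [NeZero p] (x : L2 (Ix p) K) :
    ∑ w : Wd p j, ‖((χ (-(gl j g).ph w) : Circle) : ℂ) • u g (x ⟨j, w⟩)
      - x ⟨j, (gl j g).map w⟩‖ ^ 2 ≤ ‖UU χ u g x - x‖ ^ 2 := by
  classical
  have himg := lvl_sum_le (UU χ u g x - x)
    (Finset.univ.image (fun w : Wd p j => (⟨j, (gl j g).map w⟩ : Ix p)))
  rw [Finset.sum_image] at himg
  · refine le_of_eq_of_le ?_ himg
    refine Finset.sum_congr rfl fun w _ => ?_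
    rw [lp.coeFn_sub, Pi.sub_apply, UU_apply_level]
  · intro w _ w' _ hww
    exact (gl j g).inj (sigma_mk_injective hww)

theorem Good.base_le [NeZero p] {χ : AddChar (ZMod p) Circle} {δ : ℝ}
    (hδ : 0 < δ) (hδ1 : δ ≤ 1 / 100)
    {u : Gen → (K →L[ℂ] K)} {v : ZMod p → (K →L[ℂ] K)} {s : K →L[ℂ] K} (h : Good χ δ u v s)
    {k : K} (hk : ‖k‖ = 1) {x0 : L2 (Ix p) K}
    (hx0def : x0 = lp.single 2 (⟨0, 0⟩ : Ix p) (s k)) :
    x0 ≠ 0 ∧ (⟪x0, DD χ u x0⟫_ℂ).re ≤ (1 / 8) * ‖x0‖ ^ 2 := by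
  have hx0 : ‖x0‖ = ‖s k‖ := by
    rw [hx0def]
    exact lp.norm_single (E := fun _ : Ix p => K) (p := 2) (by norm_num) (⟨0, 0⟩ : Ix p) (s k)
  have hsk : 1 - δ ≤ ‖s k‖ ^ 2 := by
    have := h.s_iso k
    rw [hk] at this
    linarith only [this]
  refine ⟨?_, ?_⟩
  · intro h0
    rw [h0, norm_zero] at hx0
    rw [← hx0] at hsk
    norm_num at hsk
    linarith only [hδ1, hsk]
  · rw [inner_DD_re, hx0]
    have h1 : ∑ g, ‖QQ' χ u g x0‖ ^ 2 ≤ ∑ _g : Gen, δ ^ 2 := by
      refine Finset.sum_le_sum fun g _ => ?_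
      have := h.base g k
      rw [hk, mul_one, ← hx0def] at this
      exact pow_le_pow_left₀ (norm_nonneg _) this 2
    rw [Finset.sum_const, Finset.card_univ, Gen.card, nsmul_eq_mul] at h1
    push_cast at h1
    (clear hx0def hx0; nlinarith)

theorem Good.inv_sq [NeZero p] {χ : AddChar (ZMod p) Circle} {δ : ℝ}
    (hδ : 0 < δ) (hδ1 : δ ≤ 1 / 100)
    {u : Gen → (K →L[ℂ] K)} {v : ZMod p → (K →L[ℂ] K)} {s : K →L[ℂ] K} (h : Good χ δ u v s)
    (g : Gen) {x : L2 (Ix p) K} (hx1 : ‖x‖ = 1) (hxD : (⟪x, DD χ u x⟫_ℂ).re ≤ 4 * δ) :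
    ‖UU χ u g x - x‖ ^ 2 ≤ 100 * δ := by
  rw [inner_DD_re] at hxD
  have hq : ‖QQ' χ u g x‖ ^ 2 ≤ 4 * δ :=
    (Finset.single_le_sum (f := fun g => ‖QQ' χ u g x‖ ^ 2) (fun _ _ => by (clear δ hδ hδ1 v s h g hx1 hxD; positivity))
      (Finset.mem_univ g)).trans hxD
  have hinv := h.inv g x
  rw [hx1, mul_one] at hinv
  have h1 : ‖UU χ u g x - x‖ ^ 2 ≤ (3 * ‖QQ' χ u g x‖ + δ) ^ 2 :=
    pow_le_pow_left₀ (norm_nonneg _) hinv 2
  (clear v s h hx1; nlinarith [sq_nonneg (3 * ‖QQ' χ u g x‖ - δ), norm_nonneg (QQ' χ u g x)])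

theorem DD_symm (χ : AddChar (ZMod p) Circle) (u : Gen → (K →L[ℂ] K)) (x y : L2 (Ix p) K) :
    ⟪DD χ u x, y⟫_ℂ = ⟪x, DD χ u y⟫_ℂ := by
  rw [inner_DD, ← inner_conj_symm, inner_DD, map_sum]
  exact Finset.sum_congr rfl fun g _ => inner_conj_symm _ _

/-- At a good stage there are almost invariant vectors at all levels. -/
theorem exists_levels [Fact p.Prime] [Nontrivial K] {χ : AddChar (ZMod p) Circle} {δ : ℝ}
    (hδ : 0 < δ) (hδ1 : δ ≤ 1 / 100)
    {u : Gen → (K →L[ℂ] K)} {v : ZMod p → (K →L[ℂ] K)} {s : K →L[ℂ] K} (h : Good χ δ u v s)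
    (j : ℕ) :
    ∃ ζ : Wd p j → K, ∑ x, ‖ζ x‖ ^ 2 = 1 ∧
      ∀ g, ∑ x, ‖((χ (-(gl j g).ph x) : Circle) : ℂ) • u g (ζ x) - ζ ((gl j g).map x)‖ ^ 2
        ≤ 100 * δ := by
  obtain ⟨k, hk⟩ : ∃ k : K, ‖k‖ = 1 := exists_norm_eq K zero_le_one
  obtain ⟨hx0ne, hx0D⟩ := h.base_le hδ hδ1 hk rfl
  obtain ⟨x, hxE, hx1, hxD⟩ := exists_low (DD χ u) (LL χ v) (DD_symm χ u)
    (fun x => (Finset.sum_nonneg fun g _ => by (clear δ hδ hδ1 v s h j k hk hx0ne hx0D; positivity)).trans_eq (inner_DD_re χ u x).symm)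
    hδ hδ1 h.gap h.lift h.iso (lvl p K) (fun j x hx => DD_mem_lvl χ u hx)
    (fun j x hx => LL_mem_lvl χ v hx) _ (lvl_single_mem 0 (s k)) hx0ne hx0D j
  refine ⟨fun w => x ⟨j, w⟩, ?_, fun g => ?_⟩
  · rw [lvl_sum_eq hxE, hx1, one_pow]
  · exact (lvl_sum_sub_le χ u g j x).trans (h.inv_sq hδ hδ1 g hx1 hxD)

end

end Vale.Agent.P083N
end
end

section

section

open scoped ComplexOrder

namespace Vale.Agent.P083

noncomputable section

universe u

variable {P : Type u} [CStarAlgebra P] [PartialOrder P] [StarOrderedRing P]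

omit [PartialOrder P] [StarOrderedRing P] in
/-- A norm-one functional taking the value one at the identity is real on self-adjoint elements. -/
theorem im_eq_zero_of_norm_le_one {φ : P →L[ℂ] ℂ} (hφ : ‖φ‖ ≤ 1) (h1 : φ 1 = 1) {b : P}
    (hb : IsSelfAdjoint b) : (φ b).im = 0 := by
  have key : ∀ t : ℝ, (φ b).re ^ 2 + ((φ b).im + t) ^ 2 ≤ ‖b‖ ^ 2 + t ^ 2 := by
    intro t
    have e1 : φ (b + ((t : ℂ) * Complex.I) • (1 : P)) = φ b + t * Complex.I := by
      rw [map_add, map_smul, h1, smul_eq_mul, mul_one]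
    have e2 : ‖φ (b + ((t : ℂ) * Complex.I) • (1 : P))‖ ≤ ‖b + ((t : ℂ) * Complex.I) • (1 : P)‖ := by
      calc _ ≤ ‖φ‖ * ‖b + ((t : ℂ) * Complex.I) • (1 : P)‖ := φ.le_opNorm _
        _ ≤ 1 * ‖b + ((t : ℂ) * Complex.I) • (1 : P)‖ := by gcongr
        _ = _ := one_mul _
    have e3 : ‖b + ((t : ℂ) * Complex.I) • (1 : P)‖ ^ 2 ≤ ‖b‖ ^ 2 + t ^ 2 := by
      rw [sq, ← CStarRing.norm_star_mul_self]
      have : star (b + ((t : ℂ) * Complex.I) • (1 : P)) * (b + ((t : ℂ) * Complex.I) • (1 : P)) =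
          b * b + ((t ^ 2 : ℝ) : ℂ) • (1 : P) := by
        rw [star_add, star_smul, star_one, hb.star_eq]
        have hs : star ((t : ℂ) * Complex.I) = -((t : ℂ) * Complex.I) := by
          simp only [star_mul', RCLike.star_def, Complex.conj_ofReal, Complex.conj_I, mul_neg]
        rw [hs, add_mul, mul_add, mul_add, smul_mul_smul_comm, mul_smul_comm, smul_mul_assoc,
          mul_one, one_mul, mul_one]
        have : -((t : ℂ) * Complex.I) * ((t : ℂ) * Complex.I) = ((t ^ 2 : ℝ) : ℂ) := by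
          have : Complex.I * Complex.I = -1 := Complex.I_mul_I
          push_cast
          linear_combination (-(t : ℂ) ^ 2) * this
        rw [this, neg_smul]
        abel
      rw [this]
      refine (norm_add_le _ _).trans ?_
      gcongr
      · rw [sq, ← CStarRing.norm_star_mul_self, hb.star_eq]
      · rcases subsingleton_or_nontrivial P with hP | hP
        · have : (1 : P) = 0 := Subsingleton.elim _ _
          rw [this, smul_zero, norm_zero]; (clear * -; positivity)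
        · rw [norm_smul, norm_one, mul_one, Complex.norm_real, Real.norm_of_nonneg (by (clear * -; positivity))]
    rw [e1] at e2
    have e4 : ‖φ b + t * Complex.I‖ ^ 2 = (φ b).re ^ 2 + ((φ b).im + t) ^ 2 := by
      rw [← Complex.normSq_eq_norm_sq, Complex.normSq_apply]
      simp only [Complex.add_re, Complex.mul_re, Complex.ofReal_re, Complex.I_re, mul_zero, Complex.ofReal_im, Complex.I_im, mul_one, sub_self, add_zero, Complex.add_im, Complex.mul_im]
      ring
    rw [← e4]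
    calc ‖φ b + t * Complex.I‖ ^ 2 ≤ ‖b + ((t : ℂ) * Complex.I) • (1 : P)‖ ^ 2 := by (clear * - e2; gcongr)
      _ ≤ _ := e3
  by_contra h
  have h2 := key ((‖b‖ ^ 2 + 1) / (2 * (φ b).im))
  have h3 : 2 * (φ b).im * ((‖b‖ ^ 2 + 1) / (2 * (φ b).im)) = ‖b‖ ^ 2 + 1 := by
    (clear * - h; field_simp)
  nlinarith only [h2, h3]

/-- A norm-one functional taking the value one at the identity is positive. -/
theorem nonneg_of_norm_le_one {φ : P →L[ℂ] ℂ} (hφ : ‖φ‖ ≤ 1) (h1 : φ 1 = 1) {b : P}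
    (hb : 0 ≤ b) : 0 ≤ φ b := by
  have hsa : IsSelfAdjoint b := .of_nonneg hb
  have him := im_eq_zero_of_norm_le_one hφ h1 hsa
  have hre : 0 ≤ (φ b).re := by
    have e1 : ‖(‖b‖ : ℂ) • (1 : P) - b‖ ≤ ‖b‖ := by
      have := IsSelfAdjoint.le_algebraMap_norm_self hsa
      have h2 : 0 ≤ algebraMap ℝ P ‖b‖ - b := sub_nonneg.2 this
      have h3 : algebraMap ℝ P ‖b‖ - b ≤ algebraMap ℝ P ‖b‖ := sub_le_self _ hb
      have h4 := CStarAlgebra.norm_le_norm_of_nonneg_of_le h2 h3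
      have h5 : algebraMap ℝ P ‖b‖ = (‖b‖ : ℂ) • (1 : P) := by
        rw [Algebra.algebraMap_eq_smul_one, Complex.coe_smul]
      rw [h5] at h4
      refine h4.trans ?_
      rcases subsingleton_or_nontrivial P with hP | hP
      · have : (1 : P) = 0 := Subsingleton.elim _ _
        rw [this, smul_zero, norm_zero]; positivity
      · rw [norm_smul, norm_one, mul_one, Complex.norm_real, norm_norm]
    have e2 : ‖φ ((‖b‖ : ℂ) • (1 : P) - b)‖ ≤ ‖b‖ := by
      calc _ ≤ ‖φ‖ * ‖(‖b‖ : ℂ) • (1 : P) - b‖ := φ.le_opNorm _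
        _ ≤ 1 * ‖b‖ := by gcongr
        _ = _ := one_mul _
    rw [map_sub, map_smul, h1, smul_eq_mul, mul_one] at e2
    have e3 : |((‖b‖ : ℂ) - φ b).re| ≤ ‖b‖ := (Complex.abs_re_le_norm _).trans e2
    rw [Complex.sub_re, Complex.ofReal_re] at e3
    have := (abs_le.1 e3).2
    linarith only [this]
  exact Complex.nonneg_iff.2 ⟨hre, him.symm⟩

/-- A norm-one functional taking the value one at the identity, as a positive map. -/
def toPositive (φ : P →L[ℂ] ℂ) (hφ : ‖φ‖ ≤ 1) (h1 : φ 1 = 1) : P →ₚ[ℂ] ℂ :=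
  PositiveLinearMap.mk₀ φ.toLinearMap fun _ hb => nonneg_of_norm_le_one hφ h1 hb

@[simp] theorem toPositive_apply (φ : P →L[ℂ] ℂ) (hφ : ‖φ‖ ≤ 1) (h1 : φ 1 = 1) (x : P) :
    toPositive φ hφ h1 x = φ x := rfl

/-- Norm-attaining states. -/
theorem exists_state_norm [Nontrivial P] (x : P) :
    ∃ ψ : P →ₚ[ℂ] ℂ, ψ 1 = 1 ∧ ψ (star x * x) = (‖x‖ ^ 2 : ℝ) := by
  set a := star x * x with ha
  have ha0 : 0 ≤ a := star_mul_self_nonneg x
  have hsa : IsSelfAdjoint a := .of_nonneg ha0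
  have hn : IsStarNormal a := hsa.isStarNormal
  let a' : StarAlgebra.elemental ℂ a := ⟨a, StarAlgebra.elemental.self_mem ℂ a⟩
  have hz0 : ((‖a‖ : ℝ) : ℂ) ∈ spectrum ℂ a :=
    spectrum.algebraMap_mem ℂ (CStarAlgebra.norm_mem_spectrum_of_nonneg ha0)
  have hz : ((‖a‖ : ℝ) : ℂ) ∈ spectrum ℂ a' := 
    (StarSubalgebra.mem_spectrum_iff (StarAlgebra.elemental ℂ a)
      (hS := StarAlgebra.elemental.isClosed ℂ a)).2 hz0
  obtain ⟨χ, hχ⟩ := WeakDual.CharacterSpace.mem_spectrum_iff_exists.1 hz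
  let f : (StarAlgebra.elemental ℂ a).toSubalgebra.toSubmodule →L[ℂ] ℂ :=
    WeakDual.CharacterSpace.toCLM χ
  have hf : ‖f‖ ≤ 1 := by
    have h2 := WeakDual.CharacterSpace.norm_le_norm_one χ
    refine ContinuousLinearMap.opNorm_le_bound _ zero_le_one fun y => ?_
    have h3 := (WeakDual.toStrongDual (χ : WeakDual ℂ (StarAlgebra.elemental ℂ a))).le_opNorm y
    rw [norm_one] at h2
    exact h3.trans (mul_le_mul_of_nonneg_right h2 (norm_nonneg _))
  obtain ⟨g, hg1, hg2⟩ := exists_extension_norm_eq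
    (StarAlgebra.elemental ℂ a).toSubalgebra.toSubmodule f
  have hgn : ‖g‖ ≤ 1 := hg2 ▸ hf
  have hg1' : g 1 = 1 := by
    have := hg1 (1 : StarAlgebra.elemental ℂ a)
    refine this.trans ?_
    exact map_one χ
  refine ⟨toPositive g hgn hg1', by simpa only [toPositive_apply] using hg1', ?_⟩
  rw [toPositive_apply]
  have h2 := hg1 a'
  refine h2.trans ?_
  have h3 : f a' = χ a' := rfl
  rw [h3, hχ, ha, CStarRing.norm_star_mul_self, sq]

end

end Vale.Agent.P083
end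
end

section

section

/-! A unital representation on a nonzero Hilbert space (GNS). -/

open scoped ComplexOrder InnerProductSpace

namespace Vale.Agent.P083N

noncomputable section

/-- Every nonzero unital C*-algebra has a unital representation on a nonzero Hilbert space. -/
theorem exists_rep (O : Type) [CStarAlgebra O] [Nontrivial O] :
    ∃ (K : Type) (_ : NormedAddCommGroup K) (_ : InnerProductSpace ℂ K) (_ : CompleteSpace K),
      Nontrivial K ∧ Nonempty (O →⋆ₐ[ℂ] (K →L[ℂ] K)) := by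
  letI : PartialOrder O := CStarAlgebra.spectralOrder O
  letI : StarOrderedRing O := CStarAlgebra.spectralOrderedRing O
  obtain ⟨ψ, hψ1, -⟩ := Vale.Agent.P083.exists_state_norm (1 : O)
  refine ⟨ψ.GNS, inferInstance, inferInstance, inferInstance, ?_, ⟨ψ.gnsStarAlgHom⟩⟩
  refine ⟨⟨((ψ.toPreGNS 1 : ψ.PreGNS) : ψ.GNS), 0, fun h => ?_⟩⟩
  have h1 : ‖((ψ.toPreGNS 1 : ψ.PreGNS) : ψ.GNS)‖ = 0 := by rw [h, norm_zero]
  rw [UniformSpace.Completion.norm_coe] at h1
  have h2 := ψ.preGNS_norm_sq (ψ.toPreGNS 1)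
  rw [h1] at h2
  simp only [Complex.ofReal_zero, ne_eq, OfNat.ofNat_ne_zero, not_false_eq_true, zero_pow, PositiveLinearMap.ofPreGNS_toPreGNS, star_one, mul_one, hψ1, zero_ne_one] at h2

end

end Vale.Agent.P083N
end
end

section

section

open scoped InnerProductSpace ENNReal

namespace Vale.Agent.P083

noncomputable section

universe u v

variable {ι : Type u} {H : Type v} [NormedAddCommGroup H] [InnerProductSpace ℂ H]

/-- square summable families -/
abbrev L2 (ι : Type u) (H : Type v) [NormedAddCommGroup H] : Type (max u v) :=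
  lp (fun _ : ι => H) 2

section

variable [DecidableEq ι]

variable [CompleteSpace H]

end

variable [CompleteSpace H]

/-- the ampliation of an operator -/
def amp (b : H →L[ℂ] H) : L2 ι H →L[ℂ] L2 ι H :=
  lp.mapCLM 2 (fun _ : ι => b) (norm_nonneg b) fun _ => le_rfl

theorem amp_apply (b : H →L[ℂ] H) (f : L2 ι H) (i : ι) : amp b f i = b (f i) := rfl

/-- ampliation as a *-homomorphism -/
def ampHom : (H →L[ℂ] H) →⋆ₐ[ℂ] (L2 ι H →L[ℂ] L2 ι H) where
  toFun := amp
  map_one' := by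
    ext f i
    rfl
  map_mul' a b := by
    ext f i
    rfl
  map_zero' := by
    ext f i
    rfl
  map_add' a b := by
    ext f i
    rfl
  commutes' c := by
    ext f i
    rfl
  map_star' b := by
    rw [ContinuousLinearMap.star_eq_adjoint, ContinuousLinearMap.star_eq_adjoint]
    refine (ContinuousLinearMap.eq_adjoint_iff _ _).2 fun f g => ?_
    rw [lp.inner_eq_tsum, lp.inner_eq_tsum]
    refine tsum_congr fun i => ?_
    rw [amp_apply, amp_apply, ContinuousLinearMap.adjoint_inner_left]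

theorem ampHom_apply (b : H →L[ℂ] H) :
    (ampHom : (H →L[ℂ] H) →⋆ₐ[ℂ] (L2 ι H →L[ℂ] L2 ι H)) b = amp b := rfl

end

end Vale.Agent.P083
end
end

section

section

/-! STEP 6a: Gram matrix, square root, Powers–Størmer. -/

open scoped InnerProductSpace ComplexConjugate ComplexOrder
open Matrix Finset

namespace Vale.Agent.P083N

noncomputable section

namespace Gram

variable {ι : Type*} [Fintype ι]

/-- squared Frobenius norm -/
def fro (A : Matrix ι ι ℂ) : ℝ := ∑ i, ∑ j, ‖A i j‖ ^ 2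

theorem trace_conjTranspose_mul (A : Matrix ι ι ℂ) : (Aᴴ * A).trace = (fro A : ℂ) := by
  simp only [fro, Matrix.trace, Matrix.diag, Matrix.mul_apply, Matrix.conjTranspose_apply]
  rw [Finset.sum_comm]
  push_cast
  refine sum_congr rfl fun i _ => sum_congr rfl fun j _ => ?_
  rw [Complex.star_def, ← Complex.normSq_eq_conj_mul_self, Complex.normSq_eq_norm_sq]
  push_cast
  rfl

variable [DecidableEq ι]

/-- spectral decomposition of a Hermitian matrix -/
theorem spectral_eq {A : Matrix ι ι ℂ} (hA : A.IsHermitian) :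
    ((hA.eigenvectorUnitary : Matrix ι ι ℂ)ᴴ * (hA.eigenvectorUnitary : Matrix ι ι ℂ) = 1) ∧
    ((hA.eigenvectorUnitary : Matrix ι ι ℂ) * (hA.eigenvectorUnitary : Matrix ι ι ℂ)ᴴ = 1) ∧
      A = (hA.eigenvectorUnitary : Matrix ι ι ℂ) * diagonal (fun i => (hA.eigenvalues i : ℂ)) *
        (hA.eigenvectorUnitary : Matrix ι ι ℂ)ᴴ := by
  refine ⟨?_, ?_, ?_⟩
  · exact (Matrix.mem_unitaryGroup_iff'.mp hA.eigenvectorUnitary.2)
  · exact (Matrix.mem_unitaryGroup_iff.mp hA.eigenvectorUnitary.2)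
  · have h := hA.spectral_theorem
    rw [Unitary.conjStarAlgAut_apply] at h
    exact h

theorem diag_mul {U : Matrix ι ι ℂ} (hU : Uᴴ * U = 1) (a b : ι → ℂ) :
    (U * diagonal a * Uᴴ) * (U * diagonal b * Uᴴ) = U * diagonal (fun i => a i * b i) * Uᴴ := by
  calc (U * diagonal a * Uᴴ) * (U * diagonal b * Uᴴ)
      = U * diagonal a * (Uᴴ * U) * diagonal b * Uᴴ := by
        simp only [Matrix.mul_assoc]
    _ = _ := by
        rw [hU, Matrix.mul_one, Matrix.mul_assoc U, Matrix.diagonal_mul_diagonal]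

theorem diag_star {U : Matrix ι ι ℂ} (a : ι → ℂ) :
    (U * diagonal a * Uᴴ)ᴴ = U * diagonal (fun i => star (a i)) * Uᴴ := by
  rw [Matrix.conjTranspose_mul, Matrix.conjTranspose_mul, Matrix.conjTranspose_conjTranspose,
    Matrix.diagonal_conjTranspose, ← Matrix.mul_assoc]
  rfl

theorem re_trace_nonneg {U f : Matrix ι ι ℂ} (hf : f.PosSemidef) {d : ι → ℝ} (hd : ∀ i, 0 ≤ d i) :
    0 ≤ ((U * diagonal (fun i => (d i : ℂ)) * Uᴴ) * f).trace.re := by
  have h1 : ((U * diagonal (fun i => (d i : ℂ)) * Uᴴ) * f).trace =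
      (diagonal (fun i => (d i : ℂ)) * (Uᴴ * f * U)).trace := by
    rw [Matrix.mul_assoc, Matrix.mul_assoc, Matrix.trace_mul_comm, Matrix.mul_assoc,
      Matrix.mul_assoc]
  rw [h1]
  have h2 : (Uᴴ * f * U).PosSemidef := hf.conjTranspose_mul_mul_same U
  simp only [Matrix.trace, Matrix.diag, Matrix.diagonal_mul]
  rw [Complex.re_sum]
  refine sum_nonneg fun i _ => ?_
  rw [Complex.re_ofReal_mul]
  exact mul_nonneg (hd i) (Complex.nonneg_iff.mp h2.diag_nonneg).1

/-- the inequality behind the Powers-Stoermer inequality -/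
theorem exists_sign {f B : Matrix ι ι ℂ} (hf : f.PosSemidef) (hB : B.PosSemidef) :
    ∃ s : Matrix ι ι ℂ, sᴴ * s = 1 ∧ fro (f - B) ≤ (s * (f * f - B * B)).trace.re := by
  have hM : (f - B).IsHermitian := hf.isHermitian.sub hB.isHermitian
  obtain ⟨hU1, hU2, hU3⟩ := spectral_eq hM
  set U : Matrix ι ι ℂ := (hM.eigenvectorUnitary : Matrix ι ι ℂ) with hU
  set l := hM.eigenvalues with hl
  set M := f - B with hMdef
  set σ : ι → ℝ := fun i => if 0 ≤ l i then 1 else -1 with hσ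
  have hσσ : ∀ i, (σ i : ℂ) * σ i = 1 := by
    intro i; simp only [hσ]; split_ifs <;> norm_num
  have hσl : ∀ i, (σ i : ℂ) * l i = ((|l i| : ℝ) : ℂ) := by
    intro i; simp only [hσ]; split_ifs with h
    · rw [abs_of_nonneg h]; push_cast; ring
    · rw [abs_of_neg (not_le.mp h)]; push_cast; ring
  set s : Matrix ι ι ℂ := U * diagonal (fun i => (σ i : ℂ)) * Uᴴ with hs
  set m : Matrix ι ι ℂ := U * diagonal (fun i => ((|l i| : ℝ) : ℂ)) * Uᴴ with hm
  have hss : sᴴ * s = 1 := by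
    rw [hs, diag_star, diag_mul hU1]
    have : (fun i => star (σ i : ℂ) * (σ i : ℂ)) = fun _ => (1 : ℂ) := by
      funext i
      rw [Complex.star_def, Complex.conj_ofReal, hσσ]
    rw [this, Matrix.diagonal_one, Matrix.mul_one, hU2]
  have hsM : s * M = m := by
    conv_lhs => rw [hU3, hs]
    rw [diag_mul hU1, hm]
    simp only [hσl]
  have hMs : M * s = m := by
    conv_lhs => rw [hU3, hs]
    rw [diag_mul hU1, hm]
    simp only [mul_comm (l _ : ℂ), hσl]
  refine ⟨s, hss, ?_⟩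
  have hfro : (fro M : ℂ) = (M * (f - B)).trace := by
    rw [← trace_conjTranspose_mul, hM.eq]
  have hfro' : fro M = (M * (f - B)).trace.re := by
    rw [← hfro, Complex.ofReal_re]
  have htr : (s * (f * f - B * B)).trace = (m * (f + B)).trace := by
    have h1 : (2 : ℂ) • (f * f - B * B) = M * (f + B) + (f + B) * M := by
      rw [hMdef, two_smul]
      noncomm_ring
    have e3 : (s * ((f + B) * M)).trace = (m * (f + B)).trace := by
      rw [Matrix.trace_mul_comm, Matrix.mul_assoc, hMs, Matrix.trace_mul_comm]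
    have e4 : (s * (M * (f + B))).trace = (m * (f + B)).trace := by
      rw [← Matrix.mul_assoc, hsM]
    have h2 : (2 : ℂ) * (s * (f * f - B * B)).trace = 2 * (m * (f + B)).trace := by
      rw [← smul_eq_mul, ← Matrix.trace_smul, ← Matrix.mul_smul, h1, Matrix.mul_add,
        Matrix.trace_add, e3, e4]
      ring
    exact mul_left_cancel₀ two_ne_zero h2
  rw [hfro', htr]
  have hd1 : m - M = U * diagonal (fun i => ((|l i| - l i : ℝ) : ℂ)) * Uᴴ := by
    conv_lhs => rw [hU3, hm]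
    rw [← Matrix.sub_mul, ← Matrix.mul_sub, Matrix.diagonal_sub]
    push_cast
    rfl
  have hd2 : m + M = U * diagonal (fun i => ((|l i| + l i : ℝ) : ℂ)) * Uᴴ := by
    conv_lhs => rw [hU3, hm]
    rw [← Matrix.add_mul, ← Matrix.mul_add, Matrix.diagonal_add]
    push_cast
    rfl
  have e1 : (m * (f + B)).trace - (M * (f - B)).trace = ((m - M) * f).trace + ((m + M) * B).trace := by
    rw [← Matrix.trace_sub, ← Matrix.trace_add]
    congr 1
    noncomm_ring
  have h3 := re_trace_nonneg (U := U) hf (d := fun i => |l i| - l i)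
    (fun i => by have := le_abs_self (l i); linarith only [this])
  have h4 := re_trace_nonneg (U := U) hB (d := fun i => |l i| + l i)
    (fun i => by have := neg_abs_le (l i); linarith only [this])
  rw [← hd1] at h3
  rw [← hd2] at h4
  have e2 := congrArg Complex.re e1
  rw [Complex.sub_re, Complex.add_re] at e2
  linarith only [h3, h4, e2]

/-- Frobenius norm in an eigenbasis -/
theorem fro_conj {U : Matrix ι ι ℂ} (hU : Uᴴ * U = 1) (d : ι → ℂ) :
    fro (U * diagonal d * Uᴴ) = ∑ i, ‖d i‖ ^ 2 := by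
  have h : (fro (U * diagonal d * Uᴴ) : ℂ) = ((∑ i, ‖d i‖ ^ 2 : ℝ) : ℂ) := by
    rw [← trace_conjTranspose_mul, diag_star, diag_mul hU, Matrix.trace_mul_comm,
      ← Matrix.mul_assoc, hU, Matrix.one_mul, Matrix.trace_diagonal]
    push_cast
    refine sum_congr rfl fun i _ => ?_
    rw [Complex.star_def, ← Complex.normSq_eq_conj_mul_self, Complex.normSq_eq_norm_sq]
    push_cast
    rfl
  exact_mod_cast h

section vec

variable {K : Type*} [NormedAddCommGroup K] [InnerProductSpace ℂ K]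

theorem sum_norm_sq_act (s : Matrix ι ι ℂ) (hs : s * sᴴ = 1) (b : ι → K) :
    ∑ w, ‖∑ w', s w' w • b w'‖ ^ 2 = ∑ w, ‖b w‖ ^ 2 := by
  have h1 : ∀ w, ((‖∑ w', s w' w • b w'‖ ^ 2 : ℝ) : ℂ)
      = ∑ w', ∑ w'', (s w'' w * star (s w' w)) * ⟪b w', b w''⟫_ℂ := by
    intro w
    have : ((‖∑ w', s w' w • b w'‖ ^ 2 : ℝ) : ℂ)
      = ⟪∑ w', s w' w • b w', ∑ w', s w' w • b w'⟫_ℂ := by
      rw [inner_self_eq_norm_sq_to_K]
      push_cast
      rfl
    rw [this, sum_inner]
    refine sum_congr rfl fun w' _ => ?_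
    rw [inner_sum]
    refine sum_congr rfl fun w'' _ => ?_
    rw [inner_smul_left, inner_smul_right]
    simp only [Complex.star_def]
    ring
  have h2 : ((∑ w, ‖∑ w', s w' w • b w'‖ ^ 2 : ℝ) : ℂ) = ((∑ w, ‖b w‖ ^ 2 : ℝ) : ℂ) := by
    rw [Complex.ofReal_sum, sum_congr rfl fun w _ => h1 w, Finset.sum_comm]
    rw [Complex.ofReal_sum]
    refine sum_congr rfl fun w' _ => ?_
    rw [Finset.sum_comm]
    have h3 : ∀ w'', ∑ w, (s w'' w * star (s w' w)) * ⟪b w', b w''⟫_ℂ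
        = if w'' = w' then ⟪b w', b w''⟫_ℂ else 0 := by
      intro w''
      rw [← Finset.sum_mul]
      have h4 : ∑ w, s w'' w * star (s w' w) = (s * sᴴ) w'' w' := by
        rw [Matrix.mul_apply]
        rfl
      rw [h4, hs, Matrix.one_apply]
      split_ifs
      · rw [one_mul]
      · rw [zero_mul]
    rw [sum_congr rfl fun w'' _ => h3 w'', Finset.sum_ite_eq' univ w']
    rw [if_pos (mem_univ _), inner_self_eq_norm_sq_to_K]
    push_cast
    rfl
  exact_mod_cast h2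

theorem pair_bound (s : Matrix ι ι ℂ) (hs : s * sᴴ = 1) (a b : ι → K) {α β : ℝ}
    (hα : 0 ≤ α) (hβ : 0 ≤ β) (ha : ∑ w, ‖a w‖ ^ 2 ≤ α ^ 2) (hb : ∑ w, ‖b w‖ ^ 2 ≤ β ^ 2) :
    (∑ w, ∑ w', s w' w * ⟪a w, b w'⟫_ℂ).re ≤ α * β := by
  have h1 : ∑ w, ∑ w', s w' w * ⟪a w, b w'⟫_ℂ = ∑ w, ⟪a w, ∑ w', s w' w • b w'⟫_ℂ := by
    refine sum_congr rfl fun w _ => ?_
    rw [inner_sum]
    refine sum_congr rfl fun w' _ => ?_
    rw [inner_smul_right]
  rw [h1]
  calc (∑ w, ⟪a w, ∑ w', s w' w • b w'⟫_ℂ).re ≤ ‖∑ w, ⟪a w, ∑ w', s w' w • b w'⟫_ℂ‖ :=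
        Complex.re_le_norm _
    _ ≤ ∑ w, ‖⟪a w, ∑ w', s w' w • b w'⟫_ℂ‖ := norm_sum_le _ _
    _ ≤ ∑ w, ‖a w‖ * ‖∑ w', s w' w • b w'‖ := sum_le_sum fun w _ => norm_inner_le_norm _ _
    _ ≤ Real.sqrt (∑ w, ‖a w‖ ^ 2) * Real.sqrt (∑ w, ‖∑ w', s w' w • b w'‖ ^ 2) :=
        Real.sum_mul_le_sqrt_mul_sqrt _ _ _
    _ ≤ α * β := by
        rw [sum_norm_sq_act s hs]
        refine mul_le_mul ?_ ?_ (Real.sqrt_nonneg _) hα
        · exact (Real.sqrt_le_sqrt ha).trans (le_of_eq (Real.sqrt_sq hα))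
        · exact (Real.sqrt_le_sqrt hb).trans (le_of_eq (Real.sqrt_sq hβ))

omit [DecidableEq ι] in
/-- existence of the Gram matrix of vectors of a finite dimensional subspace -/
theorem exists_gram (V : Submodule ℂ K) [FiniteDimensional ℂ V]
    (y : ι → K) (hV : ∀ w, y w ∈ V) :
    ∃ T : Matrix ι ι ℂ, T.PosSemidef ∧ T.rank ≤ Module.finrank ℂ V ∧
      ∀ w w', T w w' = ⟪y w, y w'⟫_ℂ := by
  classical
  set b := stdOrthonormalBasis ℂ V with hb
  set Y : Matrix (Fin (Module.finrank ℂ V)) ι ℂ :=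
    Matrix.of fun i w => b.repr ⟨y w, hV w⟩ i with hY
  refine ⟨Yᴴ * Y, Matrix.posSemidef_conjTranspose_mul_self Y, ?_, ?_⟩
  · refine (Matrix.rank_mul_le_right _ _).trans ?_
    have := Matrix.rank_le_card_height Y
    simpa only [ge_iff_le, Fintype.card_fin] using this
  · intro w w'
    have h1 : ⟪y w, y w'⟫_ℂ = ⟪(⟨y w, hV w⟩ : V), ⟨y w', hV w'⟩⟫_ℂ := rfl
    rw [h1, ← b.repr.inner_map_map, PiLp.inner_apply, Matrix.mul_apply]
    refine sum_congr rfl fun i _ => ?_
    rw [Matrix.conjTranspose_apply, hY]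
    simp only [Matrix.of_apply, Complex.star_def, RCLike.inner_apply]
    ring

/-- square root of a positive matrix of small rank -/
theorem exists_root {T : Matrix ι ι ℂ} (hT : T.PosSemidef) {n : ℕ} (hn : T.rank ≤ n) :
    ∃ f : Matrix ι ι ℂ, f.PosSemidef ∧ f * f = T ∧ (fro f : ℂ) = T.trace ∧
      ∀ c : ℂ, ‖c‖ ^ 2 * ((Fintype.card ι : ℝ) - n) ≤ fro (f - c • 1) := by
  have hTh : T.IsHermitian := hT.isHermitian
  obtain ⟨hU1, hU2, hU3⟩ := spectral_eq hTh
  set U : Matrix ι ι ℂ := (hTh.eigenvectorUnitary : Matrix ι ι ℂ) with hU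
  set l := hTh.eigenvalues with hl
  have hl0 : ∀ i, 0 ≤ l i := fun i => hT.eigenvalues_nonneg i
  have h6 : Fintype.card ι ≤ (univ.filter fun i => l i = 0).card + n := by
    have h1 := hTh.rank_eq_card_non_zero_eigs
    rw [Fintype.card_subtype] at h1
    have h2 : (univ.filter fun i => l i = 0).card + (univ.filter fun i => ¬ l i = 0).card
        = Fintype.card ι := by
      rw [Finset.card_filter_add_card_filter_not, Finset.card_univ]
    have h3 : (univ.filter fun i => ¬ l i = 0).card ≤ n := by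
      have : (univ.filter fun i => ¬ l i = 0).card = T.rank := h1.symm
      rw [this]; exact hn
    omega
  set f : Matrix ι ι ℂ := U * diagonal (fun i => ((Real.sqrt (l i) : ℝ) : ℂ)) * Uᴴ with hf
  have hff : f * f = T := by
    rw [hf, diag_mul hU1]
    conv_rhs => rw [hU3]
    congr 3
    funext i
    rw [← Complex.ofReal_mul, Real.mul_self_sqrt (hl0 i)]
  have hfpsd : f.PosSemidef := by
    have h1 : (diagonal (fun i => ((Real.sqrt (l i) : ℝ) : ℂ))).PosSemidef := by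
      rw [Matrix.posSemidef_diagonal_iff]
      intro i
      exact_mod_cast Real.sqrt_nonneg _
    exact h1.mul_mul_conjTranspose_same U
  refine ⟨f, hfpsd, hff, ?_, ?_⟩
  · rw [← trace_conjTranspose_mul, hfpsd.isHermitian.eq, hff]
  · intro c
    have h2 : f - c • (1 : Matrix ι ι ℂ)
        = U * diagonal (fun i => ((Real.sqrt (l i) : ℝ) : ℂ) - c) * Uᴴ := by
      have h3 : c • (1 : Matrix ι ι ℂ) = U * diagonal (fun _ => c) * Uᴴ := by
        have : (diagonal (fun _ : ι => c)) = c • (1 : Matrix ι ι ℂ) := by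
          rw [Matrix.smul_one_eq_diagonal]
        rw [this, Matrix.mul_smul, Matrix.mul_one, Matrix.smul_mul, hU2]
      rw [h3, hf, ← Matrix.sub_mul, ← Matrix.mul_sub, Matrix.diagonal_sub]
    rw [h2, fro_conj hU1]
    have h4 : ∑ i ∈ univ.filter (fun i => l i = 0), ‖((Real.sqrt (l i) : ℝ) : ℂ) - c‖ ^ 2
        ≤ ∑ i, ‖((Real.sqrt (l i) : ℝ) : ℂ) - c‖ ^ 2 :=
      sum_le_sum_of_subset_of_nonneg (filter_subset _ _) fun _ _ _ => sq_nonneg _
    refine le_trans ?_ h4
    have h5 : ∑ i ∈ univ.filter (fun i => l i = 0), ‖((Real.sqrt (l i) : ℝ) : ℂ) - c‖ ^ 2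
        = ((univ.filter (fun i => l i = 0)).card : ℝ) * ‖c‖ ^ 2 := by
      rw [← nsmul_eq_mul, ← Finset.sum_const]
      refine sum_congr rfl fun i hi => ?_
      rw [(mem_filter.mp hi).2]
      simp
    rw [h5, mul_comm]
    refine mul_le_mul_of_nonneg_right ?_ (sq_nonneg _)
    have h7 : (Fintype.card ι : ℝ) ≤ ((univ.filter fun i => l i = 0).card : ℝ) + n := by
      exact_mod_cast h6
    linarith only [h7]

/-- Powers-Stoermer for a monomial conjugation, in terms of a trace -/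
theorem exists_unitary {T f : Matrix ι ι ℂ} (hfpsd : f.PosSemidef) (hff : f * f = T)
    (e : ι ≃ ι) (c : ι → ℂ) (hc : ∀ w, ‖c w‖ = 1) :
    ∃ s : Matrix ι ι ℂ, s * sᴴ = 1 ∧
      ∑ w, ∑ w', ‖f (e w) (e w') - conj (c w) * c w' * f w w'‖ ^ 2
        ≤ (∑ w, ∑ w', s w' w * (T (e w) (e w') - conj (c w) * c w' * T w w')).re := by
  set D : Matrix ι ι ℂ := diagonal c with hD
  have hcc : ∀ w, c w * star (c w) = 1 := by
    intro w
    rw [Complex.star_def, Complex.mul_conj, Complex.normSq_eq_norm_sq, hc w]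
    norm_num
  have hDD : D * Dᴴ = 1 := by
    rw [hD, Matrix.diagonal_conjTranspose, Matrix.diagonal_mul_diagonal]
    have : (fun i => c i * (star c) i) = fun _ => (1 : ℂ) := by
      funext i; exact hcc i
    rw [this, Matrix.diagonal_one]
  set B : Matrix ι ι ℂ := (Dᴴ * f * D).submatrix e.symm e.symm with hBdef
  have hBpsd : B.PosSemidef := (hfpsd.conjTranspose_mul_mul_same D).submatrix e.symm
  have hBB : B * B = (Dᴴ * T * D).submatrix e.symm e.symm := by
    rw [hBdef, Matrix.submatrix_mul_equiv]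
    congr 1
    calc Dᴴ * f * D * (Dᴴ * f * D) = Dᴴ * f * (D * Dᴴ) * f * D := by
          simp only [Matrix.mul_assoc]
      _ = Dᴴ * T * D := by
          rw [hDD, Matrix.mul_one, Matrix.mul_assoc Dᴴ f f, hff]
  have hent : ∀ (A : Matrix ι ι ℂ) (w w' : ι),
      (Dᴴ * A * D) w w' = conj (c w) * c w' * A w w' := by
    intro A w w'
    rw [hD, Matrix.diagonal_conjTranspose, Matrix.mul_diagonal, Matrix.diagonal_mul]
    simp only [Pi.star_apply, Complex.star_def]
    ring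
  obtain ⟨s, hs1, hs2⟩ := exists_sign hfpsd hBpsd
  have hs1' : s * sᴴ = 1 := mul_eq_one_comm.mp hs1
  refine ⟨s.submatrix e e, ?_, ?_⟩
  · rw [Matrix.conjTranspose_submatrix, Matrix.submatrix_mul_equiv, hs1',
      Matrix.submatrix_one_equiv]
  · have hfroB : fro (f - B)
        = ∑ w, ∑ w', ‖f (e w) (e w') - conj (c w) * c w' * f w w'‖ ^ 2 := by
      unfold fro
      rw [← Equiv.sum_comp e]
      refine sum_congr rfl fun w _ => ?_
      rw [← Equiv.sum_comp e]
      refine sum_congr rfl fun w' _ => ?_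
      rw [Matrix.sub_apply, hBdef, Matrix.submatrix_apply, Equiv.symm_apply_apply,
        Equiv.symm_apply_apply, hent]
    rw [← hfroB]
    refine hs2.trans (le_of_eq ?_)
    congr 1
    rw [Matrix.trace]
    simp only [Matrix.diag_apply, Matrix.mul_apply (M := s)]
    rw [Finset.sum_comm, ← Equiv.sum_comp e]
    refine sum_congr rfl fun w _ => ?_
    rw [← Equiv.sum_comp e]
    refine sum_congr rfl fun w' _ => ?_
    rw [hff, Matrix.sub_apply, hBB, Matrix.submatrix_apply, Equiv.symm_apply_apply,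
      Equiv.symm_apply_apply, hent, Matrix.submatrix_apply]

/-- the perturbation estimate -/
theorem perturb (s : Matrix ι ι ℂ) (hs : s * sᴴ = 1) [CompleteSpace K] (y z : ι → K)
    (u : K →L[ℂ] K) {η : ℝ} (hη : 0 ≤ η) (hη1 : η ≤ 1)
    (hy : ∑ w, ‖y w‖ ^ 2 = 1) (hz : ∑ w, ‖z w‖ ^ 2 = 1)
    (hd : ∑ w, ‖y w - u (z w)‖ ^ 2 ≤ η ^ 2) (hu : ‖star u * u - 1‖ ≤ η) :
    (∑ w, ∑ w', s w' w * (⟪y w, y w'⟫_ℂ - ⟪z w, z w'⟫_ℂ)).re ≤ 4 * η := by
  have hsplit : ∀ w w', ⟪y w, y w'⟫_ℂ - ⟪z w, z w'⟫_ℂ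
      = ⟪y w - u (z w), y w'⟫_ℂ + ⟪u (z w), y w' - u (z w')⟫_ℂ
        + ⟪z w, (star u * u - 1) (z w')⟫_ℂ := by
    intro w w'
    have h1 : ⟪z w, (star u * u - 1) (z w')⟫_ℂ = ⟪u (z w), u (z w')⟫_ℂ - ⟪z w, z w'⟫_ℂ := by
      rw [_root_.sub_apply, inner_sub_right, mul_apply_eq_comp,
        ContinuousLinearMap.star_eq_adjoint, ContinuousLinearMap.adjoint_inner_right]
      rfl
    rw [h1, inner_sub_left, inner_sub_right]
    ring
  have htrace2 : ∑ w, ∑ w', s w' w * (⟪y w, y w'⟫_ℂ - ⟪z w, z w'⟫_ℂ)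
      = (∑ w, ∑ w', s w' w * ⟪y w - u (z w), y w'⟫_ℂ)
        + (∑ w, ∑ w', s w' w * ⟪u (z w), y w' - u (z w')⟫_ℂ)
        + ∑ w, ∑ w', s w' w * ⟪z w, (star u * u - 1) (z w')⟫_ℂ := by
    rw [← Finset.sum_add_distrib, ← Finset.sum_add_distrib]
    refine sum_congr rfl fun w _ => ?_
    rw [← Finset.sum_add_distrib, ← Finset.sum_add_distrib]
    refine sum_congr rfl fun w' _ => ?_
    rw [hsplit]
    ring
  have huz : ∑ w, ‖(star u * u - 1) (z w)‖ ^ 2 ≤ η ^ 2 := by
    calc ∑ w, ‖(star u * u - 1) (z w)‖ ^ 2 ≤ ∑ w, η ^ 2 * ‖z w‖ ^ 2 := by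
          refine sum_le_sum fun w _ => ?_
          rw [← mul_pow]
          refine pow_le_pow_left₀ (norm_nonneg _) ?_ 2
          exact ((star u * u - 1).le_opNorm _).trans
            (mul_le_mul_of_nonneg_right hu (norm_nonneg _))
      _ = η ^ 2 := by rw [← Finset.mul_sum, hz, mul_one]
  -- `‖u z‖² = ⟪z, u* u z⟫ ≤ 2`
  have hxn : ∑ w, ‖u (z w)‖ ^ 2 ≤ 2 ^ 2 := by
    have h1 : ∀ w, ‖u (z w)‖ ^ 2 ≤ 2 * ‖y w‖ ^ 2 + 2 * ‖y w - u (z w)‖ ^ 2 := by
      intro w
      have h2 : ‖u (z w)‖ ≤ ‖y w‖ + ‖y w - u (z w)‖ := by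
        have := norm_sub_le (y w) (y w - u (z w))
        rwa [sub_sub_cancel] at this
      have h3 := pow_le_pow_left₀ (norm_nonneg _) h2 2
      nlinarith only [h3, sq_nonneg (‖y w‖ - ‖y w - u (z w)‖)]
    calc ∑ w, ‖u (z w)‖ ^ 2 ≤ ∑ w, (2 * ‖y w‖ ^ 2 + 2 * ‖y w - u (z w)‖ ^ 2) :=
          sum_le_sum fun w _ => h1 w
      _ = 2 * ∑ w, ‖y w‖ ^ 2 + 2 * ∑ w, ‖y w - u (z w)‖ ^ 2 := by
          rw [Finset.sum_add_distrib, Finset.mul_sum, Finset.mul_sum]
      _ ≤ 2 * 1 + 2 * η ^ 2 := by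
          rw [hy]
          linarith only [hd]
      _ ≤ 2 ^ 2 := by nlinarith only [hη1, hη]
  have b1 := pair_bound s hs (fun w => y w - u (z w)) y hη
    (zero_le_one' ℝ) hd (by rw [hy]; norm_num)
  have b2 := pair_bound s hs (fun w => u (z w)) (fun w => y w - u (z w))
    (zero_le_two : (0 : ℝ) ≤ 2) hη hxn hd
  have b3 := pair_bound s hs z (fun w => (star u * u - 1) (z w)) (zero_le_one' ℝ) hη
    (by rw [hz]; norm_num) huz
  rw [htrace2, Complex.add_re, Complex.add_re]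
  linarith

end vec

end Gram

open Gram

theorem gram_step {W : Type} [Fintype W] [DecidableEq W]
    {K : Type} [NormedAddCommGroup K] [InnerProductSpace ℂ K] [CompleteSpace K]
    (V : Submodule ℂ K) [FiniteDimensional ℂ V]
    (y : W → K) (hy : ∑ w, ‖y w‖ ^ 2 = 1) (hV : ∀ w, y w ∈ V) :
    ∃ f : W → W → ℂ, ∑ w, ∑ w', ‖f w w'‖ ^ 2 = 1 ∧
      (∀ c : ℂ, ‖c‖ ^ 2 * ((Fintype.card W : ℝ) - Module.finrank ℂ V)
        ≤ ∑ w, ∑ w', ‖f w w' - (if w = w' then c else 0)‖ ^ 2) ∧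
      ∀ (m : W → W) (c : W → ℂ) (u : K →L[ℂ] K) (η : ℝ), Function.Bijective m →
        (∀ w, ‖c w‖ = 1) → 0 ≤ η → η ≤ 1 →
        ∑ w, ‖c w • u (y w) - y (m w)‖ ^ 2 ≤ η ^ 2 → ‖star u * u - 1‖ ≤ η →
        ∑ w, ∑ w', ‖f (m w) (m w') - conj (c w) * c w' * f w w'‖ ^ 2 ≤ 10 * η := by
  obtain ⟨T, hT1, hT2, hTe⟩ := exists_gram V y hV
  obtain ⟨f, hf1, hff, hf2, hf3⟩ := exists_root hT1 hT2
  refine ⟨f, ?_, ?_, ?_⟩
  · have h2 : T.trace = ((∑ w, ‖y w‖ ^ 2 : ℝ) : ℂ) := by
      rw [Matrix.trace, Complex.ofReal_sum]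
      refine sum_congr rfl fun w _ => ?_
      rw [Matrix.diag_apply, hTe, inner_self_eq_norm_sq_to_K]
      push_cast
      rfl
    rw [h2, hy, Complex.ofReal_one] at hf2
    have h3 : fro f = 1 := by exact_mod_cast hf2
    exact h3
  · intro c
    refine (hf3 c).trans (le_of_eq ?_)
    unfold fro
    refine sum_congr rfl fun w _ => sum_congr rfl fun w' _ => ?_
    rw [Matrix.sub_apply, Matrix.smul_apply, Matrix.one_apply]
    split_ifs
    · rw [smul_eq_mul, mul_one]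
    · rw [smul_zero]
  · intro m c u η hm hc hη hη1 hsum hu
    obtain ⟨s, hs1, hs2⟩ := exists_unitary hf1 hff (Equiv.ofBijective m hm) c hc
    refine hs2.trans ?_
    have h1 := perturb s hs1 (fun w => y (m w)) (fun w => c w • y w) u hη hη1 ?_ ?_ ?_ hu
    · refine le_trans (le_of_eq ?_) (h1.trans (by linarith only [hη]))
      congr 1
      refine sum_congr rfl fun w _ => sum_congr rfl fun w' _ => ?_
      rw [hTe, hTe, inner_smul_left, inner_smul_right]
      simp only [Equiv.ofBijective_apply]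
      ring
    · rw [← hy, ← Equiv.sum_comp (Equiv.ofBijective m hm) (fun w => ‖y w‖ ^ 2)]
      rfl
    · rw [← hy]
      refine sum_congr rfl fun w _ => ?_
      rw [norm_smul, hc w, one_mul]
    · refine le_trans (le_of_eq ?_) hsum
      refine sum_congr rfl fun w _ => ?_
      rw [norm_sub_rev, map_smul]

end

end Vale.Agent.P083N
end
end

section

section

/-! STEP 6: invariant matrices are scalar. -/

namespace Vale.Agent.P083N

noncomputable section

theorem gl_X_cons {p : ℕ} (j : ℕ) (y : ZMod p) (x : Wd p j) :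
    (gl (p := p) (j + 1) Gen.X).map (Fin.cons y x : Wd p (j + 1))
      = (Fin.cons (y + 1) x : Wd p (j + 1)) := by
  funext i
  refine Fin.cases ?_ (fun i => ?_) i
  · show y + e0 p (j + 1) 0 = y + 1
    simp [e0]
  · show x i + e0 p (j + 1) i.succ = x i
    simp [e0]

theorem gl_A0_cons {p : ℕ} (j : ℕ) (y : ZMod p) (x : Wd p j) :
    (gl (p := p) (j + 1) Gen.A0).map (Fin.cons y x : Wd p (j + 1))
      = (Fin.cons y (x + NN 2 x + y • e0 p j) : Wd p (j + 1)) := by
  funext i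
  refine Fin.cases ?_ (fun i => ?_) i
  · show y + NN 0 (Fin.cons y x : Wd p (j + 1)) 0 = y
    rw [NN_cons_zero, add_zero]
  · show x i + NN 0 (Fin.cons y x : Wd p (j + 1)) i.succ = x i + NN 2 x i + y • e0 p j i
    rw [NN_cons_three, add_assoc]
    simp [e0]

theorem gl_A1_cons {p : ℕ} (j : ℕ) (y : ZMod p) (x : Wd p j) :
    (gl (p := p) (j + 1) Gen.A1).map (Fin.cons y x : Wd p (j + 1))
      = (Fin.cons y ((gl j Gen.A0).map x) : Wd p (j + 1)) := by
  funext i
  refine Fin.cases ?_ (fun i => ?_) i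
  · show y + NN 1 (Fin.cons y x : Wd p (j + 1)) 0 = y
    rw [NN_cons_zero, add_zero]
  · show x i + NN 1 (Fin.cons y x : Wd p (j + 1)) i.succ = x i + NN 0 x i
    rw [NN_cons_one]

theorem gl_A2_cons {p : ℕ} (j : ℕ) (y : ZMod p) (x : Wd p j) :
    (gl (p := p) (j + 1) Gen.A2).map (Fin.cons y x : Wd p (j + 1))
      = (Fin.cons y ((gl j Gen.A1).map x) : Wd p (j + 1)) := by
  funext i
  refine Fin.cases ?_ (fun i => ?_) i
  · show y + NN 2 (Fin.cons y x : Wd p (j + 1)) 0 = y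
    rw [NN_cons_zero, add_zero]
  · show x i + NN 2 (Fin.cons y x : Wd p (j + 1)) i.succ = x i + NN 1 x i
    rw [NN_cons_two]

theorem chi_ne_one {p : ℕ} {χ : AddChar (ZMod p) Circle} (hχ : Function.Injective χ)
    {k : ZMod p} (hk : k ≠ 0) : ((χ k : Circle) : ℂ) ≠ 1 := by
  intro h
  apply hk
  apply hχ
  rw [AddChar.map_zero_eq_one]
  exact Circle.coe_injective (by rw [h, Circle.coe_one])

/-- invariant matrices are scalar. -/
theorem scalar_of_invariant {p : ℕ} [Fact p.Prime] {χ : AddChar (ZMod p) Circle}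
    (hχ : Function.Injective χ) (j : ℕ) (f : Wd p j → Wd p j → ℂ)
    (hf : ∀ g x x', f ((gl j g).map x) ((gl j g).map x')
      = ((χ ((gl j g).ph x - (gl j g).ph x') : Circle) : ℂ) * f x x') :
    ∃ c : ℂ, ∀ x x', f x x' = if x = x' then c else 0 := by
  induction j with
  | zero =>
    refine ⟨f 0 0, fun x x' => ?_⟩
    have h1 : x = 0 := Subsingleton.elim _ _
    have h2 : x' = 0 := Subsingleton.elim _ _
    rw [h1, h2, if_pos rfl]
  | succ j ih =>
    -- zero unless the first letters agree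
    have hZ : ∀ (y y' : ZMod p) (x x' : Wd p j), y ≠ y' →
        f (Fin.cons y x : Wd p (j + 1)) (Fin.cons y' x' : Wd p (j + 1)) = 0 := by
      intro y y' x x' hy
      have h := hf Gen.Z (Fin.cons y x : Wd p (j + 1)) (Fin.cons y' x' : Wd p (j + 1))
      have e1 : (gl (j + 1) Gen.Z).ph (Fin.cons y x : Wd p (j + 1)) = y := dg_cons_zero y x
      have e2 : (gl (j + 1) Gen.Z).ph (Fin.cons y' x' : Wd p (j + 1)) = y' := dg_cons_zero y' x'
      rw [e1, e2] at h
      have h' : (1 - ((χ (y - y') : Circle) : ℂ))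
          * f (Fin.cons y x : Wd p (j + 1)) (Fin.cons y' x' : Wd p (j + 1)) = 0 := by
        rw [sub_mul, one_mul]
        exact sub_eq_zero.2 h
      rcases mul_eq_zero.1 h' with h1 | h1
      · exact absurd (sub_eq_zero.1 h1).symm (chi_ne_one hχ (sub_ne_zero.2 hy))
      · exact h1
    -- independent of the first letter
    have hX1 : ∀ (y : ZMod p) (x x' : Wd p j),
        f (Fin.cons (y + 1) x : Wd p (j + 1)) (Fin.cons (y + 1) x' : Wd p (j + 1))
          = f (Fin.cons y x : Wd p (j + 1)) (Fin.cons y x' : Wd p (j + 1)) := by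
      intro y x x'
      have h := hf Gen.X (Fin.cons y x : Wd p (j + 1)) (Fin.cons y x' : Wd p (j + 1))
      rw [gl_X_cons, gl_X_cons] at h
      rw [h]
      show ((χ (0 - 0) : Circle) : ℂ) * _ = _
      rw [sub_self, AddChar.map_zero_eq_one, Circle.coe_one, one_mul]
    have hX : ∀ (y : ZMod p) (x x' : Wd p j),
        f (Fin.cons y x : Wd p (j + 1)) (Fin.cons y x' : Wd p (j + 1))
          = f (Fin.cons 0 x : Wd p (j + 1)) (Fin.cons 0 x' : Wd p (j + 1)) := by
      intro y x x'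
      have key : ∀ n : ℕ, f (Fin.cons (n : ZMod p) x : Wd p (j + 1))
          (Fin.cons (n : ZMod p) x' : Wd p (j + 1))
            = f (Fin.cons 0 x : Wd p (j + 1)) (Fin.cons 0 x' : Wd p (j + 1)) := by
        intro n
        induction n with
        | zero => rw [Nat.cast_zero]
        | succ n ihn => rw [Nat.cast_succ, hX1, ihn]
      have := key y.val
      rwa [ZMod.natCast_zmod_val] at this
    -- the restricted matrix
    set f' : Wd p j → Wd p j → ℂ :=
      fun x x' => f (Fin.cons 0 x : Wd p (j + 1)) (Fin.cons 0 x' : Wd p (j + 1)) with hf'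
    have hA0 : ∀ x x', f' ((gl j Gen.A0).map x) ((gl j Gen.A0).map x') = f' x x' := by
      intro x x'
      have h := hf Gen.A1 (Fin.cons 0 x : Wd p (j + 1)) (Fin.cons 0 x' : Wd p (j + 1))
      rw [gl_A1_cons, gl_A1_cons] at h
      show f _ _ = f _ _
      rw [h]
      show ((χ (0 - 0) : Circle) : ℂ) * _ = _
      rw [sub_self, AddChar.map_zero_eq_one, Circle.coe_one, one_mul]
    have hA1 : ∀ x x', f' ((gl j Gen.A1).map x) ((gl j Gen.A1).map x') = f' x x' := by
      intro x x'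
      have h := hf Gen.A2 (Fin.cons 0 x : Wd p (j + 1)) (Fin.cons 0 x' : Wd p (j + 1))
      rw [gl_A2_cons, gl_A2_cons] at h
      show f _ _ = f _ _
      rw [h]
      show ((χ (0 - 0) : Circle) : ℂ) * _ = _
      rw [sub_self, AddChar.map_zero_eq_one, Circle.coe_one, one_mul]
    have hA0' : ∀ (y : ZMod p) (x x' : Wd p j),
        f' (x + NN 2 x + y • e0 p j) (x' + NN 2 x' + y • e0 p j) = f' x x' := by
      intro y x x'
      have h := hf Gen.A0 (Fin.cons y x : Wd p (j + 1)) (Fin.cons y x' : Wd p (j + 1))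
      rw [gl_A0_cons, gl_A0_cons, hX, hX y x x'] at h
      show f _ _ = f _ _
      rw [h]
      show ((χ (0 - 0) : Circle) : ℂ) * _ = _
      rw [sub_self, AddChar.map_zero_eq_one, Circle.coe_one, one_mul]
    have hA2 : ∀ x x', f' ((gl j Gen.A2).map x) ((gl j Gen.A2).map x') = f' x x' := by
      intro x x'
      have h := hA0' 0 x x'
      rw [zero_smul, add_zero, add_zero] at h
      exact h
    have hXX : ∀ x x', f' ((gl j Gen.X).map x) ((gl j Gen.X).map x') = f' x x' := by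
      intro x x'
      have hs : Function.Surjective (gl (p := p) j Gen.A2).map :=
        Finite.surjective_of_injective (gl j Gen.A2).inj
      obtain ⟨z, rfl⟩ := hs x
      obtain ⟨z', rfl⟩ := hs x'
      have h := hA0' 1 z z'
      rw [one_smul] at h
      rw [hA2 z z']
      exact h
    have hB' : ∀ (y : ZMod p) (x x' : Wd p j),
        f' x x' = ((χ ((y * dg x 0 + QQ x) - (y * dg x' 0 + QQ x')) : Circle) : ℂ) * f' x x' := by
      intro y x x'
      have h := hf Gen.B (Fin.cons y x : Wd p (j + 1)) (Fin.cons y x' : Wd p (j + 1))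
      have e0 : ∀ z : Wd p (j + 1), (gl (j + 1) Gen.B).map z = z := fun z => rfl
      have e1 : (gl (j + 1) Gen.B).ph (Fin.cons y x : Wd p (j + 1)) = y * dg x 0 + QQ x :=
        QQ_cons y x
      have e2 : (gl (j + 1) Gen.B).ph (Fin.cons y x' : Wd p (j + 1)) = y * dg x' 0 + QQ x' :=
        QQ_cons y x'
      rw [e1, e2, e0, e0, hX] at h
      exact h
    have hB : ∀ x x', f' x x' = ((χ (QQ x - QQ x') : Circle) : ℂ) * f' x x' := by
      intro x x'
      have h := hB' 0 x x'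
      rwa [zero_mul, zero_mul, zero_add, zero_add] at h
    have hZZ : ∀ x x', f' x x' = ((χ (dg x 0 - dg x' 0) : Circle) : ℂ) * f' x x' := by
      intro x x'
      have h := hB' 1 x x'
      rw [one_mul, one_mul] at h
      have e : dg x 0 + QQ x - (dg x' 0 + QQ x') = (dg x 0 - dg x' 0) + (QQ x - QQ x') := by
        ring
      rw [e, AddChar.map_add_eq_mul, Circle.coe_mul, mul_assoc, ← hB x x'] at h
      exact h
    obtain ⟨c, hc⟩ := ih f' (by
      intro g x x'
      cases g with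
      | X =>
        rw [hXX]
        show _ = ((χ (0 - 0) : Circle) : ℂ) * _
        rw [sub_self, AddChar.map_zero_eq_one, Circle.coe_one, one_mul]
      | Z => exact hZZ x x'
      | A0 =>
        rw [hA0]
        show _ = ((χ (0 - 0) : Circle) : ℂ) * _
        rw [sub_self, AddChar.map_zero_eq_one, Circle.coe_one, one_mul]
      | A1 =>
        rw [hA1]
        show _ = ((χ (0 - 0) : Circle) : ℂ) * _
        rw [sub_self, AddChar.map_zero_eq_one, Circle.coe_one, one_mul]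
      | A2 =>
        rw [hA2]
        show _ = ((χ (0 - 0) : Circle) : ℂ) * _
        rw [sub_self, AddChar.map_zero_eq_one, Circle.coe_one, one_mul]
      | B => exact hB x x')
    refine ⟨c, fun x x' => ?_⟩
    obtain ⟨y, z, rfl⟩ : ∃ (y : ZMod p) (z : Wd p j), x = (Fin.cons y z : Wd p (j + 1)) :=
      ⟨x 0, Fin.tail x, (Fin.cons_self_tail x).symm⟩
    obtain ⟨y', z', rfl⟩ : ∃ (y : ZMod p) (z : Wd p j), x' = (Fin.cons y z : Wd p (j + 1)) :=
      ⟨x' 0, Fin.tail x', (Fin.cons_self_tail x').symm⟩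
    by_cases hy : y = y'
    · subst hy
      rw [hX]
      show f' z z' = _
      rw [hc]
      by_cases hz : z = z'
      · rw [if_pos hz, if_pos (by rw [hz])]
      · rw [if_neg hz, if_neg]
        intro h
        exact hz (Fin.cons_injective2 h).2
    · rw [hZ y y' z z' hy, if_neg]
      intro h
      exact hy (Fin.cons_injective2 h).1

end

end Vale.Agent.P083N
end
end

section

section

/-! STEP 6b: the uniform spectral gap of the conjugation action on matrices. -/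

open scoped InnerProductSpace ENNReal

namespace Vale.Agent.P083N

noncomputable section

section abstract

variable {H : Type*} [NormedAddCommGroup H] [InnerProductSpace ℂ H] [CompleteSpace H]

/-- For a positive operator with `D² ≥ D/2` the distance to the kernel is controlled by the
quadratic form. -/
theorem exists_near_kernel (D : H →L[ℂ] H) (hD : ∀ x y, ⟪D x, y⟫_ℂ = ⟪x, D y⟫_ℂ)
    (hD0 : ∀ x, 0 ≤ (⟪x, D x⟫_ℂ).re)
    (gap : ∀ x, (1 / 2) * (⟪x, D x⟫_ℂ).re ≤ ‖D x‖ ^ 2) (x : H) :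
    ∃ x0, D x0 = 0 ∧ ‖x - x0‖ ^ 2 ≤ 2 * (⟪x, D x⟫_ℂ).re := by
  have hre : ∀ (c : ℝ) (v w : H), (⟪v, (c : ℂ) • w⟫_ℂ).re = c * (⟪v, w⟫_ℂ).re := by
    intro c v w
    rw [inner_smul_right, Complex.re_ofReal_mul]
  have hre' : ∀ (c : ℝ) (v w : H), (⟪(c : ℂ) • v, w⟫_ℂ).re = c * (⟪v, w⟫_ℂ).re := by
    intro c v w
    rw [inner_smul_left, Complex.conj_ofReal, Complex.re_ofReal_mul]
  have hsymm : ∀ v w : H, (⟪v, w⟫_ℂ).re = (⟪w, v⟫_ℂ).re := by
    intro v w
    rw [← inner_conj_symm, Complex.conj_re]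
  have hnorm : ∀ v : H, (⟪v, v⟫_ℂ).re = ‖v‖ ^ 2 := by
    intro v
    rw [inner_self_eq_norm_sq_to_K]
    norm_cast
  -- on the range
  have hrange : ∀ h : H, ‖D h‖ ^ 2 ≤ 2 * (⟪D h, D (D h)⟫_ℂ).re := by
    intro h
    set a1 : ℝ := (⟪h, D h⟫_ℂ).re with ha1
    set a2 : ℝ := ‖D h‖ ^ 2 with ha2
    set a3 : ℝ := (⟪D h, D (D h)⟫_ℂ).re with ha3
    have h1 : (1 / 2) * a1 ≤ a2 := gap h
    have h3 : 0 ≤ a3 := hD0 (D h)
    have h2 : 0 ≤ a2 := sq_nonneg _
    -- Cauchy-Schwarz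
    have hcs : ∀ t : ℝ, 0 ≤ a1 - 2 * t * a2 + t ^ 2 * a3 := by
      intro t
      have h0 := hD0 (h - (t : ℂ) • D h)
      rw [map_sub, map_smul, inner_sub_left, inner_sub_right, inner_sub_right] at h0
      simp only [Complex.sub_re, hre, hre'] at h0
      have e1 : (⟪h, D (D h)⟫_ℂ).re = a2 := by
        rw [← hD h (D h), hnorm]
      have e2 : (⟪D h, D h⟫_ℂ).re = a2 := hnorm _
      rw [e1, e2] at h0
      linarith only [h0]
    by_cases hz : a3 = 0
    · -- then a2 = 0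
      have h4 := hcs ((a1 + 1) / (2 * a2))
      by_cases ha : a2 = 0
      · rw [ha, hz]
        norm_num
      · rw [hz] at h4
        have h5 : 2 * ((a1 + 1) / (2 * a2)) * a2 = a1 + 1 := by
          field_simp
        rw [h5] at h4
        linarith only [h4]
    · have h3' : 0 < a3 := lt_of_le_of_ne h3 (Ne.symm hz)
      have h4 := hcs (a2 / a3)
      have h5 : a1 - 2 * (a2 / a3) * a2 + (a2 / a3) ^ 2 * a3 = a1 - a2 ^ 2 / a3 := by
        field_simp
        ring
      rw [h5] at h4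
      have h6 : a2 ^ 2 ≤ a1 * a3 := by
        rw [sub_nonneg, div_le_iff₀ h3'] at h4
        exact h4
      by_contra hcon
      push Not at hcon
      nlinarith only [h6, h1, h3', hcon]
  -- closure of the range
  set R : Submodule ℂ H := (LinearMap.range (D : H →ₗ[ℂ] H)).topologicalClosure with hR
  have hclosed : IsClosed (R : Set H) := Submodule.isClosed_topologicalClosure _
  have hRle : ∀ y ∈ R, ‖y‖ ^ 2 ≤ 2 * (⟪y, D y⟫_ℂ).re := by
    intro y hy
    have hcl : IsClosed {y : H | ‖y‖ ^ 2 ≤ 2 * (⟪y, D y⟫_ℂ).re} := by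
      refine isClosed_le (by fun_prop) ?_
      refine Continuous.mul continuous_const (Complex.continuous_re.comp ?_)
      exact Continuous.inner continuous_id D.continuous
    have hsub : (R : Set H) ⊆ {y : H | ‖y‖ ^ 2 ≤ 2 * (⟪y, D y⟫_ℂ).re} := by
      rw [hR, Submodule.topologicalClosure_coe]
      refine closure_minimal ?_ hcl
      rintro _ ⟨h, rfl⟩
      exact hrange h
    exact hsub hy
  haveI : CompleteSpace R := hclosed.completeSpace_coe
  obtain ⟨y, hy, z, hz, hxyz⟩ := Submodule.exists_add_mem_mem_orthogonal (K := R) x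
  have hDz : D z = 0 := by
    have h1 : ∀ h : H, ⟪D h, z⟫_ℂ = 0 := by
      intro h
      exact hz (D h) (Submodule.le_topologicalClosure _ ⟨h, rfl⟩)
    have h2 : ⟪D z, D z⟫_ℂ = 0 := by
      rw [← hD (D z) z]
      exact h1 (D z)
    exact inner_self_eq_zero.1 h2
  refine ⟨z, hDz, ?_⟩
  have hxz : x - z = y := by rw [hxyz]; abel
  rw [hxz]
  refine (hRle y hy).trans (le_of_eq ?_)
  have h1 : D x = D y := by rw [hxyz, map_add, hDz, add_zero]
  have h2 : ⟪x, D x⟫_ℂ = ⟪y, D y⟫_ℂ := by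
    rw [h1, hxyz, inner_add_left, ← hD z y, hDz, inner_zero_left, add_zero]
  rw [h2]

/-- powers of an isometry -/
theorem norm_sub_pow_le (V : H →L[ℂ] H) (hV : ∀ x, ‖V x‖ = ‖x‖) (x : H) (k : ℕ) :
    ‖x - (V ^ k) x‖ ≤ k * ‖x - V x‖ := by
  have hVk : ∀ (k : ℕ) (x : H), ‖(V ^ k) x‖ = ‖x‖ := by
    intro k
    induction k with
    | zero => intro x; rw [pow_zero]; rfl
    | succ k ih =>
      intro x
      rw [pow_succ]
      show ‖(V ^ k) (V x)‖ = ‖x‖
      rw [ih, hV]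
  induction k with
  | zero =>
    rw [pow_zero]
    show ‖x - x‖ ≤ _
    rw [sub_self, norm_zero]
    simp
  | succ k ih =>
    have h1 : x - (V ^ (k + 1)) x = (x - (V ^ k) x) + (V ^ k) (x - V x) := by
      rw [pow_succ, map_sub]
      show x - (V ^ k) (V x) = _
      abel
    rw [h1]
    refine (norm_add_le _ _).trans ?_
    rw [hVk, Nat.cast_succ, add_mul, one_mul]
    exact add_le_add ih le_rfl

theorem norm_qv_le {p : ℕ} (hp : 0 < p) (V : H →L[ℂ] H) (hV : ∀ x, ‖V x‖ = ‖x‖) (x : H) :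
    ‖qv p V x‖ ≤ (p / 2) * ‖x - V x‖ := by
  have hp' : (p : ℂ) ≠ 0 := by exact_mod_cast hp.ne'
  have h1 : qv p V x = ((p : ℂ)⁻¹) • ∑ k ∈ Finset.range p, (x - (V ^ k) x) := by
    rw [Finset.sum_sub_distrib, smul_sub, Finset.sum_const, Finset.card_range, qv, av]
    have e1 : ((p : ℂ)⁻¹) • (p • x) = x := by
      rw [← Nat.cast_smul_eq_nsmul ℂ, smul_smul, inv_mul_cancel₀ hp', one_smul]
    rw [e1]
    show x - (((p : ℂ)⁻¹) • ∑ k ∈ Finset.range p, V ^ k) x = _
    congr 1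
    rw [ContinuousLinearMap.smul_apply, ContinuousLinearMap.sum_apply]
  rw [h1, norm_smul, norm_inv, Complex.norm_natCast]
  have h2 : ‖∑ k ∈ Finset.range p, (x - (V ^ k) x)‖
      ≤ ∑ k ∈ Finset.range p, (k : ℝ) * ‖x - V x‖ :=
    (norm_sum_le _ _).trans (Finset.sum_le_sum fun k _ => norm_sub_pow_le V hV x k)
  have h3 : ∑ k ∈ Finset.range p, (k : ℝ) * ‖x - V x‖ ≤ (p * p / 2) * ‖x - V x‖ := by
    rw [← Finset.sum_mul]
    gcongr
    have h4 : (∑ k ∈ Finset.range p, k) * 2 ≤ p * p := by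
      rw [Finset.sum_range_id_mul_two p]
      exact Nat.mul_le_mul_left p (Nat.sub_le p 1)
    have h5 : ((∑ k ∈ Finset.range p, k : ℕ) : ℝ) * 2 ≤ p * p := by exact_mod_cast h4
    rw [Nat.cast_sum] at h5
    linarith only [h5]
  have hp0 : (0 : ℝ) < p := by exact_mod_cast hp
  calc (p : ℝ)⁻¹ * ‖∑ k ∈ Finset.range p, (x - (V ^ k) x)‖
      ≤ (p : ℝ)⁻¹ * ((p * p / 2) * ‖x - V x‖) := by gcongr; exact h2.trans h3
    _ = (p / 2) * ‖x - V x‖ := by field_simp

end abstract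

theorem L2_norm_sq {J : Type} [Fintype J] (F : L2 J ℂ) : ‖F‖ ^ 2 = ∑ i, ‖F i‖ ^ 2 := by
  have h := lp.norm_rpow_eq_tsum (E := fun _ : J => ℂ) (p := 2) (by norm_num) F
  rw [tsum_fintype] at h
  have e2 : (2 : ℝ≥0∞).toReal = 2 := by norm_num
  rw [e2] at h
  exact_mod_cast h

theorem hs_gap {p : ℕ} [Fact p.Prime] (hp : 100 ≤ p) {χ : AddChar (ZMod p) Circle}
    (hχ : Function.Injective χ) (j : ℕ) (f : Wd p j → Wd p j → ℂ) :
    ∃ c : ℂ, ∑ x, ∑ x', ‖f x x' - (if x = x' then c else 0)‖ ^ 2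
      ≤ (p : ℝ) ^ 2 * ∑ g, ∑ x, ∑ x', ‖f ((gl j g).map x) ((gl j g).map x')
        - ((χ ((gl j g).ph x - (gl j g).ph x') : Circle) : ℂ) * f x x'‖ ^ 2 := by
  classical
  have hp0 : 0 < p := by omega
  set J : Type := Wd p j × Wd p j with hJ
  -- the unitaries
  set V : Gen → (L2 J ℂ →L[ℂ] L2 J ℂ) := fun g => op ℂ χ (Mon.sq (gl j g)) with hV
  have hsurj : ∀ g, Function.Surjective (Mon.sq (gl (p := p) j g)).map := fun g =>
    Finite.surjective_of_injective (Mon.sq (gl j g)).inj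
  have hVu : ∀ g, V g ∈ unitary (L2 J ℂ →L[ℂ] L2 J ℂ) := fun g =>
    ⟨star_op_mul_op χ _, op_mul_star_op χ _ (hsurj g)⟩
  have hVp : ∀ g, V g ^ p = 1 := by
    intro g
    rw [hV]
    dsimp only
    rw [← map_pow, ← map_pow, gl_pow, map_one, map_one]
  have hVH : ∀ g h, g ≠ h → HeisM (V g) (V h) := fun g h hgh =>
    ((gl_heis j g h hgh).map Mon.sq).map (op ℂ χ)
  have hVn : ∀ g x, ‖V g x‖ = ‖x‖ := fun g x => (opIso ℂ χ (Mon.sq (gl j g))).norm_map x
  have hVapp : ∀ g (F : L2 J ℂ) (x x' : Wd p j), V g F ((gl j g).map x, (gl j g).map x')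
      = ((χ ((gl j g).ph x - (gl j g).ph x') : Circle) : ℂ) * F (x, x') := by
    intro g F x x'
    have := op_apply_map χ (Mon.sq (gl j g)) F (x, x')
    rw [smul_eq_mul] at this
    exact this
  -- the Laplacian
  set D : L2 J ℂ →L[ℂ] L2 J ℂ := lap p V with hDdef
  have hqs : ∀ g, star (qv p (V g)) = qv p (V g) := fun g => star_qv hp0 (hVu g) (hVp g)
  have hqq : ∀ g, qv p (V g) * qv p (V g) = qv p (V g) := fun g => qv_mul_self hp0 (hVp g)
  have hDs : star D = D := by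
    rw [hDdef, lap, star_sum]
    exact Finset.sum_congr rfl fun g _ => hqs g
  have hD : ∀ x y, ⟪D x, y⟫_ℂ = ⟪x, D y⟫_ℂ := by
    intro x y
    have h1 := ContinuousLinearMap.adjoint_inner_left D y x
    rw [← ContinuousLinearMap.star_eq_adjoint, hDs] at h1
    exact h1
  have hDform : ∀ x, (⟪x, D x⟫_ℂ).re = ∑ g, ‖qv p (V g) x‖ ^ 2 := by
    intro x
    rw [hDdef, lap, ContinuousLinearMap.sum_apply, inner_sum, Complex.re_sum]
    refine Finset.sum_congr rfl fun g _ => ?_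
    have h1 : ⟪x, qv p (V g) x⟫_ℂ = ⟪qv p (V g) x, qv p (V g) x⟫_ℂ := by
      conv_lhs => rw [← hqq g]
      show ⟪x, qv p (V g) (qv p (V g) x)⟫_ℂ = _
      conv_lhs => rw [← hqs g]
      rw [ContinuousLinearMap.star_eq_adjoint, ContinuousLinearMap.adjoint_inner_right]
      rw [← ContinuousLinearMap.star_eq_adjoint, hqs g]
    rw [h1, inner_self_eq_norm_sq_to_K]
    norm_cast
  have hD0 : ∀ x, 0 ≤ (⟪x, D x⟫_ℂ).re := by
    intro x
    rw [hDform]
    exact Finset.sum_nonneg fun _ _ => sq_nonneg _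
  have hgap : ∀ x, (1 / 2) * (⟪x, D x⟫_ℂ).re ≤ ‖D x‖ ^ 2 := by
    intro x
    obtain ⟨y, hy⟩ := gap_half hp Gen.card V hVu hVp hVH
    have h1 : 0 ≤ (⟪x, (star y * y) x⟫_ℂ).re := by
      have : ⟪x, (star y * y) x⟫_ℂ = ⟪y x, y x⟫_ℂ := by
        rw [ContinuousLinearMap.star_eq_adjoint]
        show ⟪x, ContinuousLinearMap.adjoint y (y x)⟫_ℂ = _
        rw [ContinuousLinearMap.adjoint_inner_right]
      rw [this]
      exact inner_self_nonneg (𝕜 := ℂ)
    rw [hy] at h1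
    have h2 : (⟪x, (lap p V * lap p V - ((1 / 2 : ℝ) : ℂ) • lap p V) x⟫_ℂ).re
        = ‖D x‖ ^ 2 - (1 / 2) * (⟪x, D x⟫_ℂ).re := by
      rw [← hDdef]
      show (⟪x, D (D x) - ((1 / 2 : ℝ) : ℂ) • D x⟫_ℂ).re = _
      rw [inner_sub_right, Complex.sub_re, ← hD x (D x), inner_smul_right,
        Complex.re_ofReal_mul, inner_self_eq_norm_sq_to_K]
      norm_cast
    rw [h2] at h1
    linarith only [h1]
  -- the vector
  obtain ⟨F, hF⟩ : ∃ F : L2 J ℂ, ∀ x x', F (x, x') = f x x' :=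
    ⟨⟨fun i => f i.1 i.2, Memℓp.all _⟩, fun _ _ => rfl⟩
  obtain ⟨F0, hF0, hF1⟩ := exists_near_kernel D hD hD0 hgap F
  -- F0 is invariant
  have hinv : ∀ g, V g F0 = F0 := by
    intro g
    have h1 : ∑ g, ‖qv p (V g) F0‖ ^ 2 = 0 := by
      rw [← hDform, hF0, inner_zero_right, Complex.zero_re]
    have h2 : ‖qv p (V g) F0‖ ^ 2 = 0 :=
      (Finset.sum_eq_zero_iff_of_nonneg fun _ _ => sq_nonneg _).1 h1 g (Finset.mem_univ g)
    have h3 : qv p (V g) F0 = 0 := by
      rwa [sq_eq_zero_iff, norm_eq_zero] at h2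
    have h4 : av p (V g) F0 = F0 := by
      have : F0 - av p (V g) F0 = 0 := h3
      exact (sub_eq_zero.1 this).symm
    have h5 : V g (av p (V g) F0) = av p (V g) F0 :=
      DFunLike.congr_fun (mul_av hp0 (hVp g)) F0
    rwa [h4] at h5
  obtain ⟨c, hc⟩ := scalar_of_invariant hχ j (fun x x' => F0 (x, x')) (by
    intro g x x'
    dsimp only
    rw [← hVapp g F0 x x', hinv g])
  refine ⟨c, ?_⟩
  have hleft : ∑ x, ∑ x', ‖f x x' - (if x = x' then c else 0)‖ ^ 2 = ‖F - F0‖ ^ 2 := by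
    rw [L2_norm_sq, Fintype.sum_prod_type]
    refine Finset.sum_congr rfl fun x _ => Finset.sum_congr rfl fun x' _ => ?_
    have h1 := hc x x'
    dsimp only at h1
    rw [← h1, ← hF]
    rfl
  rw [hleft]
  refine hF1.trans ?_
  rw [hDform, Finset.mul_sum, Finset.mul_sum]
  refine Finset.sum_le_sum fun g _ => ?_
  have hright : ∑ x, ∑ x', ‖f ((gl j g).map x) ((gl j g).map x')
        - ((χ ((gl j g).ph x - (gl j g).ph x') : Circle) : ℂ) * f x x'‖ ^ 2
        = ‖F - V g F‖ ^ 2 := by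
    rw [L2_norm_sq]
    have hbij : Function.Bijective (Mon.sq (gl (p := p) j g)).map :=
      ⟨(Mon.sq (gl j g)).inj, hsurj g⟩
    rw [← hbij.sum_comp (fun i => ‖(F - V g F) i‖ ^ 2), Fintype.sum_prod_type]
    refine Finset.sum_congr rfl fun x _ => Finset.sum_congr rfl fun x' _ => ?_
    show _ = ‖F ((gl j g).map x, (gl j g).map x') - V g F ((gl j g).map x, (gl j g).map x')‖ ^ 2
    rw [hVapp, hF, hF]
  rw [hright]
  have h1 := norm_qv_le hp0 (V g) (hVn g) F
  have h2 : ‖qv p (V g) F‖ ^ 2 ≤ ((p / 2) * ‖F - V g F‖) ^ 2 := by (clear * - h1; gcongr)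
  have h3 : 0 ≤ ‖F - V g F‖ ^ 2 := sq_nonneg _
  have h4 : (0 : ℝ) ≤ (p : ℝ) ^ 2 := sq_nonneg _
  nlinarith only [h2]

end

end Vale.Agent.P083N
end
end

section

section

/-! The Cuntz algebra and its norm ultrapowers exist. -/

open Filter Topology
open scoped ENNReal InnerProductSpace BoundedContinuousFunction

namespace Vale.Agent.P083N

open Vale.Agent.P083

noncomputable section

/-- Generators of a closed star subalgebra generate it. -/
theorem adjoin_closure_top {C : Type} [CStarAlgebra C] (S : Set C) (T : Set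
    ((StarAlgebra.adjoin ℂ S).topologicalClosure))
    (hT : Subtype.val '' T = S) : (StarAlgebra.adjoin ℂ T).topologicalClosure = ⊤ := by
  refine top_unique fun x _ => ?_
  show x ∈ closure ((StarAlgebra.adjoin ℂ T :
    StarSubalgebra ℂ ((StarAlgebra.adjoin ℂ S).topologicalClosure)) :
      Set ((StarAlgebra.adjoin ℂ S).topologicalClosure))
  rw [closure_subtype]
  have h1 : (Subtype.val '' ((StarAlgebra.adjoin ℂ T :
      StarSubalgebra ℂ ((StarAlgebra.adjoin ℂ S).topologicalClosure)) :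
        Set ((StarAlgebra.adjoin ℂ S).topologicalClosure)) : Set C)
      = ((StarAlgebra.adjoin ℂ S : StarSubalgebra ℂ C) : Set C) := by
    have h2 := StarAlgHom.map_adjoin ((StarAlgebra.adjoin ℂ S).topologicalClosure.subtype) T
    have h3 := congrArg (fun D : StarSubalgebra ℂ C => (D : Set C)) h2
    have h4 : (((StarAlgebra.adjoin ℂ S).topologicalClosure.subtype) '' T : Set C) = S := hT
    rw [h4] at h3
    exact h3
  rw [h1]
  exact x.2

/-- the two monomial isometries -/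
def cuntzMon (b : ℕ) : Mon ℕ 1 where
  map n := 2 * n + b
  inj m n h := by
    have h' : 2 * m + b = 2 * n + b := h
    omega
  ph _ := 0

theorem exists_cuntz : ∃ (O : Type) (_ : CStarAlgebra O) (_ : Nontrivial O) (s₁ s₂ : O),
    CuntzTwo s₁ s₂ := by
  classical
  let S₁ : L2 ℕ ℂ →L[ℂ] L2 ℕ ℂ := op ℂ 1 (cuntzMon 0)
  let S₂ : L2 ℕ ℂ →L[ℂ] L2 ℕ ℂ := op ℂ 1 (cuntzMon 1)
  have h1 : star S₁ * S₁ = 1 := star_op_mul_op _ _
  have h2 : star S₂ * S₂ = 1 := star_op_mul_op _ _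
  have h3 : S₁ * star S₁ + S₂ * star S₂ = 1 := by
    ext f j
    show S₁ (star S₁ f) j + S₂ (star S₂ f) j = f j
    obtain ⟨n, hn | hn⟩ : ∃ n, j = 2 * n + 0 ∨ j = 2 * n + 1 := ⟨j / 2, by omega⟩
    · have e1 : S₁ (star S₁ f) j = f j := by
        subst hn
        exact (op_apply_map 1 (cuntzMon 0) _ n).trans (by
          rw [star_op_apply]
          simp only [cuntzMon, Nat.add_zero, add_zero, AddChar.map_zero_eq_one, Circle.coe_one, neg_zero, smul_eq_mul, one_mul])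
      have e2 : S₂ (star S₂ f) j = 0 := by
        refine op_apply_of_notMem _ _ _ _ ?_
        rintro ⟨m, hm⟩
        have : 2 * m + 1 = j := hm
        omega
      rw [e1, e2, add_zero]
    · have e1 : S₂ (star S₂ f) j = f j := by
        subst hn
        exact (op_apply_map 1 (cuntzMon 1) _ n).trans (by
          rw [star_op_apply]
          simp only [cuntzMon, AddChar.map_zero_eq_one, Circle.coe_one, neg_zero, smul_eq_mul, one_mul])
      have e2 : S₁ (star S₁ f) j = 0 := by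
        refine op_apply_of_notMem _ _ _ _ ?_
        rintro ⟨m, hm⟩
        have : 2 * m + 0 = j := hm
        omega
      rw [e1, e2, zero_add]
  have hne : (0 : L2 ℕ ℂ →L[ℂ] L2 ℕ ℂ) ≠ 1 := by
    intro h
    have := congrArg (fun T : L2 ℕ ℂ →L[ℂ] L2 ℕ ℂ => T (lp.single 2 0 (1 : ℂ)) 0) h
    simp only [zero_apply, ZeroMemClass.coe_zero, PreLp.zero_apply, one_apply_eq_self, lp.single_apply, Pi.single_eq_same, zero_ne_one] at this
  let S : Set (L2 ℕ ℂ →L[ℂ] L2 ℕ ℂ) := {S₁, S₂}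
  let D : StarSubalgebra ℂ (L2 ℕ ℂ →L[ℂ] L2 ℕ ℂ) := (StarAlgebra.adjoin ℂ S).topologicalClosure
  have hDcl : IsClosed (D : Set (L2 ℕ ℂ →L[ℂ] L2 ℕ ℂ)) :=
    StarSubalgebra.isClosed_topologicalClosure _
  let hC : CStarAlgebra D := StarSubalgebra.cstarAlgebra D (h_closed := hDcl)
  have hsub : S ⊆ (D : Set (L2 ℕ ℂ →L[ℂ] L2 ℕ ℂ)) :=
    (StarAlgebra.subset_adjoin ℂ S).trans (StarSubalgebra.le_topologicalClosure _)
  have m1 : S₁ ∈ D := hsub (Or.inl rfl)
  have m2 : S₂ ∈ D := hsub (Or.inr rfl)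
  refine ⟨D, hC, ⟨⟨0, 1, fun h0 => hne (congrArg Subtype.val h0)⟩⟩, ⟨S₁, m1⟩, ⟨S₂, m2⟩,
    ⟨Subtype.ext h1, Subtype.ext h2, Subtype.ext h3, ?_⟩⟩
  refine adjoin_closure_top S _ ?_
  rw [Set.image_pair]

/-- Norm ultrapowers exist. -/
theorem exists_isUltrapower (O : Type) [CStarAlgebra O] [Nontrivial O] (ω : Ultrafilter ℕ) :
    ∃ (Q : Type) (_ : CStarAlgebra Q) (q : (ℕ →ᵇ O) →⋆ₐ[ℂ] Q), IsUltrapower O ω Q q := by
  have hmem : ∀ x : ℕ →ᵇ O, Memℓp (fun n => x n) ∞ := by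
    intro x
    refine memℓp_infty ⟨‖x‖, ?_⟩
    rintro _ ⟨n, rfl⟩
    exact x.norm_coe_le_norm n
  let L : (ℕ →ᵇ O) → Bdd O := fun x => ⟨fun n => x n, hmem x⟩
  let q : (ℕ →ᵇ O) →⋆ₐ[ℂ] Ultrapower ω O :=
    { toFun := fun x => Ultrapower.mk ω (L x)
      map_one' := by
        rw [← Ultrapower.mk_one]
        rfl
      map_mul' := fun x y => by
        rw [← Ultrapower.mk_mul]
        rfl
      map_zero' := by
        rw [← Ultrapower.mk_zero]
        rfl
      map_add' := fun x y => by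
        rw [← Ultrapower.mk_add]
        rfl
      commutes' := fun c => by
        rw [Algebra.algebraMap_eq_smul_one, Algebra.algebraMap_eq_smul_one, ← Ultrapower.mk_one,
          ← Ultrapower.mk_smul]
        rfl
      map_star' := fun x => by
        rw [← Ultrapower.mk_star]
        rfl }
  refine ⟨Ultrapower ω O, inferInstance, q, ⟨?_, ?_⟩⟩
  · intro y
    obtain ⟨Y, rfl⟩ := Ultrapower.mk_surjective ω y
    refine ⟨BoundedContinuousFunction.ofNormedAddCommGroupDiscrete (fun n => Y n) ‖Y‖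
      (fun n => Bdd.norm_apply_le Y n), ?_⟩
    show Ultrapower.mk ω _ = _
    congr 1
  · intro x
    show Ultrapower.mk ω (L x) = 0 ↔ _
    rw [← Ultrapower.mk_zero, Ultrapower.mk_eq_mk]
    have : ∀ n, ((L x : Bdd O) : ℕ → O) n - ((0 : Bdd O) : ℕ → O) n = x n := fun n => by
      show x n - 0 = x n
      rw [sub_zero]
    simp only [this]

end

end Vale.Agent.P083N
end
end

section

section

open Filter Topology
open scoped BoundedContinuousFunction

namespace Vale.Agent.P083N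

open Vale.Agent.P083

noncomputable section

/-- A unital *-homomorphism into the norm ultrapower lifts. -/
theorem exists_liftsHom {A : Type} [CStarAlgebra A] {O : Type} [CStarAlgebra O]
    {ω : Ultrafilter ℕ} {Q : Type} [CStarAlgebra Q] {q : (ℕ →ᵇ O) →⋆ₐ[ℂ] Q}
    (hq : IsUltrapower O ω Q q) (Φ : A →⋆ₐ[ℂ] Q) : ∃ φ : ℕ → A → O, LiftsHom A O ω φ := by
  choose L hL using fun a => hq.surj (Φ a)
  refine ⟨fun n a => L a n, ⟨?_, ?_, ?_, ?_, ?_, ?_⟩⟩
  · exact fun a => ⟨‖L a‖, fun n => (L a).norm_coe_le_norm n⟩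
  · have h : q (L 1 - 1) = 0 := by rw [map_sub, hL, map_one, map_one, sub_self]
    exact (hq.ker _).1 h
  · intro a b
    have h : q (L (a + b) - (L a + L b)) = 0 := by
      rw [map_sub, map_add, hL, hL, hL, map_add, sub_self]
    exact (hq.ker _).1 h
  · intro a b
    have h : q (L (a * b) - L a * L b) = 0 := by
      rw [map_sub, map_mul, hL, hL, hL, map_mul, sub_self]
    exact (hq.ker _).1 h
  · intro c a
    have h : q (L (c • a) - c • L a) = 0 := by
      rw [map_sub, map_smul, hL, hL, map_smul, sub_self]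
    exact (hq.ker _).1 h
  · intro a
    have h : q (L (star a) - star (L a)) = 0 := by
      rw [map_sub, map_star, hL, hL, map_star, sub_self]
    exact (hq.ker _).1 h

end

end Vale.Agent.P083N
end
end

section

section

open scoped InnerProductSpace ComplexConjugate

namespace Vale.Agent.P083

noncomputable section

namespace CuntzTwo

variable {O : Type*} [CStarAlgebra O] {s₁ s₂ : O}

theorem norm_le (h : CuntzTwo s₁ s₂) : ‖s₁‖ ≤ 1 ∧ ‖s₂‖ ≤ 1 := by
  rcases subsingleton_or_nontrivial O with hO | hO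
  · constructor
    · rw [Subsingleton.elim s₁ 0]; simp only [norm_zero, zero_le_one]
    · rw [Subsingleton.elim s₂ 0]; simp only [norm_zero, zero_le_one]
  · constructor
    · have h1 : ‖s₁‖ * ‖s₁‖ = 1 := by rw [← CStarRing.norm_star_mul_self, h.iso₁, CStarRing.norm_one]
      nlinarith only [h1]
    · have h1 : ‖s₂‖ * ‖s₂‖ = 1 := by rw [← CStarRing.norm_star_mul_self, h.iso₂, CStarRing.norm_one]
      nlinarith only [h1]

end CuntzTwo

section Tower

variable {O : Type*} [CStarAlgebra O] {s₁ s₂ : O}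
variable {H : Type*} [NormedAddCommGroup H] [InnerProductSpace ℂ H] [CompleteSpace H]
variable (π : O →⋆ₐ[ℂ] (H →L[ℂ] H))

/-- one step of the tower -/
def lam (s₁ s₂ : O) (U : H →ₗ[ℂ] O) : H →ₗ[ℂ] O :=
  (LinearMap.mulLeft ℂ s₁) ∘ₗ U ∘ₗ (π (star s₁) : H →ₗ[ℂ] H) +
  (LinearMap.mulLeft ℂ s₂) ∘ₗ U ∘ₗ (π (star s₂) : H →ₗ[ℂ] H)

end Tower

end

end Vale.Agent.P083
end
end

section

section

open scoped InnerProductSpace ComplexConjugate
open Filter Topology

namespace Vale.Agent.P083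

noncomputable section

section Vector

variable {O : Type*} [CStarAlgebra O] {s₁ s₂ : O}
variable {H : Type*} [NormedAddCommGroup H] [InnerProductSpace ℂ H] [CompleteSpace H]
variable (π : O →⋆ₐ[ℂ] (H →L[ℂ] H))

end Vector

end

end Vale.Agent.P083
end
end

section

section

open scoped InnerProductSpace ComplexConjugate ComplexOrder
open Filter Topology

namespace Vale.Agent.P083

noncomputable section

/-- A state of a unital C*-algebra, as a norm-one unital functional. -/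
structure IsState {O : Type*} [CStarAlgebra O] (g : O →L[ℂ] ℂ) : Prop where
  norm_le : ‖g‖ ≤ 1
  map_one : g 1 = 1

namespace IsState

variable {O : Type*} [CStarAlgebra O] {g : O →L[ℂ] ℂ}

variable [PartialOrder O] [StarOrderedRing O]

end IsState

section

variable {O : Type*} [CStarAlgebra O]

end

end

end Vale.Agent.P083
end
end

section

section

open scoped InnerProductSpace ComplexConjugate ComplexOrder ENNReal
open Filter Topology

namespace Vale.Agent.P083

noncomputable section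

section

variable {O : Type*} [CStarAlgebra O] [Nontrivial O]

end

end

end Vale.Agent.P083
end
end

section

section

open scoped InnerProductSpace ComplexConjugate ComplexOrder ENNReal
open Filter Topology

namespace Vale.Agent.P083

noncomputable section

section

variable {O : Type*} [CStarAlgebra O] [Nontrivial O] (ω : Ultrafilter ℕ)

variable {ω}

section Matrix

variable {B : Type*} [CStarAlgebra B] [PartialOrder B] [StarOrderedRing B]
variable {Q : Type*} [CStarAlgebra Q]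

variable {H : Type*} [NormedAddCommGroup H] [InnerProductSpace ℂ H] [CompleteSpace H]

end Matrix

variable {H : Type*} [NormedAddCommGroup H] [InnerProductSpace ℂ H] [CompleteSpace H]

end

end

end Vale.Agent.P083
end
end

section

section

open Filter Topology

namespace Vale.Agent.P083

noncomputable section

variable {O : Type*} [CStarAlgebra O] {s₁ s₂ : O}

section

variable [Nontrivial O]

end

end

end Vale.Agent.P083
end
end

section

section

open Filter Topology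

namespace Vale.Agent.P083

noncomputable section

universe u v

/-- two isometries whose ranges are complementary -/
structure IsCuntzPair {Q : Type*} [CStarAlgebra Q] (y₁ y₂ : Q) : Prop where
  iso₁ : star y₁ * y₁ = 1
  iso₂ : star y₂ * y₂ = 1
  sum : y₁ * star y₁ + y₂ * star y₂ = 1

namespace IsCuntzPair

variable {Q : Type*} [CStarAlgebra Q] {y₁ y₂ : Q}

theorem orth (h : IsCuntzPair y₁ y₂) : star y₁ * y₂ = 0 := by
  have h1 : (y₁ * star y₁) * (y₁ * star y₁) = y₁ * star y₁ := by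
    rw [mul_assoc, ← mul_assoc (star y₁), h.iso₁, one_mul]
  have h2 : star (star y₁ * y₂) * (star y₁ * y₂) = 0 := by
    have e : y₁ * star y₁ = 1 - y₂ * star y₂ := eq_sub_of_add_eq h.sum
    calc star (star y₁ * y₂) * (star y₁ * y₂) = star y₂ * (y₁ * star y₁) * y₂ := by
          simp only [star_mul, star_star, mul_assoc]
      _ = star y₂ * y₂ - (star y₂ * y₂) * (star y₂ * y₂) := by rw [e]; noncomm_ring
      _ = 0 := by rw [h.iso₂]; simp
  exact (CStarRing.star_mul_self_eq_zero_iff _).1 h2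

theorem orth' (h : IsCuntzPair y₁ y₂) : star y₂ * y₁ = 0 := by
  have := congr_arg star h.orth
  simpa only [star_mul, star_star, star_zero] using this

end IsCuntzPair

theorem CuntzTwo.pair {O : Type*} [CStarAlgebra O] {s₁ s₂ : O} (h : CuntzTwo s₁ s₂) :
    IsCuntzPair s₁ s₂ := ⟨h.iso₁, h.iso₂, h.sum⟩

theorem IsCuntzPair.map {P Q : Type*} [CStarAlgebra P] [CStarAlgebra Q] {s₁ s₂ : P}
    (h : IsCuntzPair s₁ s₂) (f : P →⋆ₐ[ℂ] Q) : IsCuntzPair (f s₁) (f s₂) :=
  ⟨by rw [← map_star, ← map_mul, h.iso₁, map_one],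
   by rw [← map_star, ← map_mul, h.iso₂, map_one],
   by rw [← map_star, ← map_mul, ← map_star, ← map_mul, ← map_add, h.sum, map_one]⟩

end

end Vale.Agent.P083
end
end

section

section

/-! STEP 3: almost all stages are good. -/

open Filter Topology
open scoped ENNReal InnerProductSpace

namespace Vale.Agent.P083N

open Vale.Agent.P083

noncomputable section

/-! ### homomorphisms out of the algebra of bounded sequences -/

section homs

variable {B : Type*} [CStarAlgebra B] [Nontrivial B]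

/-- the quotient map -/
def mkA (ω : Ultrafilter ℕ) : Bdd B →ₐ[ℂ] Ultrapower ω B where
  toFun := Ultrapower.mk ω
  map_one' := Ultrapower.mk_one ω B
  map_mul' := Ultrapower.mk_mul ω B
  map_zero' := Ultrapower.mk_zero ω B
  map_add' := Ultrapower.mk_add ω B
  commutes' c := by
    rw [Algebra.algebraMap_eq_smul_one, Ultrapower.mk_smul, Ultrapower.mk_one,
      Algebra.algebraMap_eq_smul_one]

theorem mkA_apply (ω : Ultrafilter ℕ) (x : Bdd B) : mkA ω x = Ultrapower.mk ω x := rfl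

theorem mkA_star (ω : Ultrafilter ℕ) (x : Bdd B) : mkA ω (star x) = star (mkA ω x) := rfl

/-- evaluation at a coordinate -/
def evA (B : Type*) [CStarAlgebra B] [Nontrivial B] (n : ℕ) : Bdd B →ₐ[ℂ] B where
  toFun x := x n
  map_one' := rfl
  map_mul' _ _ := rfl
  map_zero' := rfl
  map_add' _ _ := rfl
  commutes' _ := rfl

theorem evA_apply (n : ℕ) (x : Bdd B) : evA B n x = x n := rfl

theorem evA_star (n : ℕ) (x : Bdd B) : evA B n (star x) = star (evA B n x) := rfl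

end homs

/-- the quotient `1 - (1/p) ∑ g^k` in any algebra -/
def qr (p : ℕ) {B : Type*} [Ring B] [Algebra ℂ B] (g : B) : B :=
  1 - ((p : ℂ)⁻¹) • ∑ k ∈ Finset.range p, g ^ k

theorem map_qr (p : ℕ) {B C : Type*} [Ring B] [Algebra ℂ B] [Ring C] [Algebra ℂ C]
    (f : B →ₐ[ℂ] C) (g : B) : f (qr p g) = qr p (f g) := by
  unfold qr
  rw [map_sub, map_one, map_smul, map_sum]
  simp only [map_pow]

theorem qr_eq_qv (p : ℕ) {B : Type*} [CStarAlgebra B] (g : B) : qr p g = qv p g := rfl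

theorem qr_mul_of_fix {p : ℕ} (hp : 0 < p) {B : Type*} [Ring B] [Algebra ℂ B] {g v : B}
    (h : g * v = v) : qr p g * v = 0 := by
  have h1 : ∀ k, g ^ k * v = v := by
    intro k
    induction k with
    | zero => rw [pow_zero, one_mul]
    | succ k ih => rw [pow_succ, mul_assoc, h, ih]
  unfold qr
  rw [sub_mul, one_mul, smul_mul_assoc, Finset.sum_mul, Finset.sum_congr rfl fun k _ => h1 k,
    Finset.sum_const, Finset.card_range, ← Nat.cast_smul_eq_nsmul ℂ, smul_smul,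
    inv_mul_cancel₀ (by exact_mod_cast hp.ne'), one_smul, sub_self]

/-! ### the twisted relations -/

section twist

variable {p : ℕ} {K : Type} [NormedAddCommGroup K] [InnerProductSpace ℂ K] [CompleteSpace K]

theorem gen_surjective_base [Fact p.Prime] (g : Gen) : Function.Surjective (gen (p := p) g).map := by
  rintro ⟨j, x⟩
  obtain ⟨y, hy⟩ := (Finite.surjective_of_injective (gl (p := p) j g).inj) x
  exact ⟨⟨j, y⟩, by rw [gen_map, hy]⟩

/-- A homomorphism of `A` and a homomorphism of the operators on words with commuting ranges. -/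
structure Twist (p : ℕ) (K : Type) [NormedAddCommGroup K] [InnerProductSpace ℂ K]
    [CompleteSpace K] (χ : AddChar (ZMod p) Circle) {A Q : Type*} [CStarAlgebra A] [CStarAlgebra Q]
    (Φ : A →⋆ₐ[ℂ] Q) (Ψ : (L2 (Ix p) K →L[ℂ] L2 (Ix p) K) →⋆ₐ[ℂ] Q) : Prop where
  comm : ∀ x (m : Mon (Ix p) p), Commute (Φ x) (Ψ (op K χ⁻¹ m))

variable {χ : AddChar (ZMod p) Circle} {A Q : Type*} [CStarAlgebra A] [CStarAlgebra Q]
  {Φ : A →⋆ₐ[ℂ] Q} {Ψ : (L2 (Ix p) K →L[ℂ] L2 (Ix p) K) →⋆ₐ[ℂ] Q}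

/-- the combined homomorphism -/
def Twist.theta (T : Twist p K χ Φ Ψ) : A × Mon (Ix p) p →* Q :=
  MonoidHom.noncommCoprod (Φ : A →* Q) ((Ψ : (L2 (Ix p) K →L[ℂ] L2 (Ix p) K) →* Q).comp (op K χ⁻¹))
    T.comm

theorem Twist.theta_apply (T : Twist p K χ Φ Ψ) (x : A) (m : Mon (Ix p) p) :
    T.theta (x, m) = Φ x * Ψ (op K χ⁻¹ m) := rfl

theorem Twist.theta_scal (T : Twist p K χ Φ Ψ) (y : ZMod p) (x : A) (m : Mon (Ix p) p) :
    T.theta ((((χ y : Circle) : ℂ) • x, Mon.scal y * m)) = T.theta (x, m) := by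
  have h1 : Ψ (op K χ⁻¹ (Mon.scal y * m)) = ((χ⁻¹ y : Circle) : ℂ) • Ψ (op K χ⁻¹ m) := by
    rw [map_mul, op_scal, smul_one_mul, map_smul]
  rw [Twist.theta_apply, Twist.theta_apply, map_smul, h1, smul_mul_assoc, mul_smul_comm, smul_smul]
  have : ((χ y : Circle) : ℂ) * ((χ⁻¹ y : Circle) : ℂ) = 1 := by
    rw [← Circle.coe_mul, AddChar.inv_apply', mul_inv_cancel, Circle.coe_one]
  rw [this, one_smul]

theorem Twist.uni (T : Twist p K χ Φ Ψ) [Fact p.Prime] {x : A} (hx : x ∈ unitary A) (g : Gen) :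
    T.theta (x, gen g) ∈ unitary Q := by
  rw [Twist.theta_apply]
  refine mul_mem (Unitary.map_mem Φ hx) (Unitary.map_mem Ψ ?_)
  rw [Unitary.mem_iff]
  exact ⟨star_op_mul_op _ _, op_mul_star_op _ _ (gen_surjective_base g)⟩

theorem Twist.orth (T : Twist p K χ Φ Ψ) {t : ZMod p → A}
    (ht : ∀ y y', star (t y) * t y' = if y = y' then 1 else 0) (y y' : ZMod p) :
    star (T.theta (t y, cre y)) * T.theta (t y', cre y') = if y = y' then 1 else 0 := by
  have h1 : star (T.theta (t y, cre y)) * T.theta (t y', cre y') =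
      star (Ψ (op K χ⁻¹ (cre y))) * Φ (star (t y) * t y') * Ψ (op K χ⁻¹ (cre y')) := by
    rw [Twist.theta_apply, Twist.theta_apply, star_mul, map_mul, map_star Φ]
    noncomm_ring
  rw [h1, ht]
  split_ifs with h
  · subst h
    rw [map_one, mul_one, ← map_star, ← map_mul, star_op_mul_op, map_one]
  · simp only [map_zero, mul_zero, zero_mul]

end twist

/-- the projection onto the empty word -/
def emptyProj (p : ℕ) (K : Type) [NormedAddCommGroup K] [InnerProductSpace ℂ K] [NeZero p] :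
    L2 (Ix p) K →L[ℂ] L2 (Ix p) K :=
  (lp.singleContinuousLinearMap ℂ (fun _ : Ix p => K) 2 ⟨0, 0⟩).comp
    (lp.evalCLM ℂ (fun _ : Ix p => K) 2 ⟨0, 0⟩)

section stage

variable {p : ℕ} {K : Type} [NormedAddCommGroup K] [InnerProductSpace ℂ K] [CompleteSpace K]

theorem emptyProj_apply [NeZero p] (f : L2 (Ix p) K) :
    emptyProj p K f = lp.single 2 ⟨0, 0⟩ (f ⟨0, 0⟩) := rfl

theorem op_gen_emptyProj [NeZero p] (χ : AddChar (ZMod p) Circle) (g : Gen) :
    op K χ (gen g) * emptyProj p K = emptyProj p K := by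
  refine ContinuousLinearMap.ext fun f => ?_
  show op K χ (gen g) (emptyProj p K f) = emptyProj p K f
  rw [emptyProj_apply, op_single, (gen_empty g 0).1, (gen_empty g 0).2, AddChar.map_zero_eq_one,
    Circle.coe_one, one_smul]

theorem diag_emptyProj_single [NeZero p] (x : K →L[ℂ] K) (k : K) :
    diag (Ix p) K x (emptyProj p K (lp.single 2 ⟨0, 0⟩ k)) = lp.single 2 ⟨0, 0⟩ (x k) := by
  rw [emptyProj_apply, lp.single_apply_self]
  ext j
  rw [diag_apply]
  by_cases h : j = ⟨0, 0⟩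
  · subst h
    rw [lp.single_apply_self, lp.single_apply_self]
  · rw [lp.single_apply_ne _ _ _ h, lp.single_apply_ne _ _ _ h, map_zero]

theorem nontrivial_L2 [NeZero p] [Nontrivial K] : Nontrivial (L2 (Ix p) K) := by
  obtain ⟨k, hk⟩ := exists_ne (0 : K)
  refine ⟨⟨lp.single 2 ⟨0, 0⟩ k, 0, fun h => hk ?_⟩⟩
  have := congrArg (fun f : L2 (Ix p) K => f ⟨0, 0⟩) h
  simpa only [Matrix.zero_empty, lp.single_apply, Pi.single_eq_same, ZeroMemClass.coe_zero,     PreLp.zero_apply] using this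

theorem norm_le_two_of_star_mul {B : Type*} [CStarAlgebra B] {x : B} {y : B} (hy : ‖y‖ ≤ ‖x‖)
    (h : ‖star x * x - y‖ ≤ 2) : ‖x‖ ≤ 2 := by
  have h1 : ‖x‖ * ‖x‖ ≤ 2 + ‖x‖ := by
    rw [← CStarRing.norm_star_mul_self]
    calc ‖star x * x‖ = ‖(star x * x - y) + y‖ := by rw [sub_add_cancel]
      _ ≤ ‖star x * x - y‖ + ‖y‖ := norm_add_le _ _
      _ ≤ 2 + ‖x‖ := by linarith only [hy, h]
  nlinarith only [h1]

theorem norm_le_two_of_isom {B : Type*} [CStarAlgebra B] {x : B}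
    (h : ‖star x * x - 1‖ ≤ 1) : ‖x‖ ≤ 2 := by
  have h1 : ‖x‖ * ‖x‖ ≤ 2 := by
    rw [← CStarRing.norm_star_mul_self]
    calc ‖star x * x‖ = ‖(star x * x - 1) + 1‖ := by rw [sub_add_cancel]
      _ ≤ ‖star x * x - 1‖ + ‖(1 : B)‖ := norm_add_le _ _
      _ ≤ 2 := by
        have : ‖(1 : B)‖ ≤ 1 := by
          have h2 : ‖(1 : B)‖ * ‖(1 : B)‖ = ‖(1 : B)‖ := by
            rw [← CStarRing.norm_star_mul_self, star_one, one_mul]
          by_contra hcon
          push Not at hcon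
          nlinarith only [h2, hcon]
        linarith
  nlinarith only [h1]

theorem sq_le_of_star_mul {H : Type*} [NormedAddCommGroup H] [InnerProductSpace ℂ H]
    [CompleteSpace H] {L : H →L[ℂ] H} {δ : ℝ} (h : ‖star L * L - 1‖ ≤ δ) (x : H) :
    (1 - δ) * ‖x‖ ^ 2 ≤ ‖L x‖ ^ 2 := by
  have h1 : ⟪x, (star L * L) x⟫_ℂ = ⟪L x, L x⟫_ℂ := by
    rw [ContinuousLinearMap.star_eq_adjoint]
    show ⟪x, ContinuousLinearMap.adjoint L (L x)⟫_ℂ = _
    rw [ContinuousLinearMap.adjoint_inner_right]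
  have h2 : ⟪x, (star L * L - 1) x⟫_ℂ = ⟪L x, L x⟫_ℂ - ⟪x, x⟫_ℂ := by
    rw [← h1, ← inner_sub_right]
    rfl
  have h3 : |(⟪x, (star L * L - 1) x⟫_ℂ).re| ≤ δ * ‖x‖ ^ 2 := by
    refine (Complex.abs_re_le_norm _).trans ((norm_inner_le_norm _ _).trans ?_)
    have h4 : ‖(star L * L - 1) x‖ ≤ δ * ‖x‖ :=
      (ContinuousLinearMap.le_opNorm _ _).trans (by (clear h1 h2; gcongr))
    calc ‖x‖ * ‖(star L * L - 1) x‖ ≤ ‖x‖ * (δ * ‖x‖) := by gcongr
      _ = δ * ‖x‖ ^ 2 := by ring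
  have h5 : (⟪L x, L x⟫_ℂ).re = ‖L x‖ ^ 2 := by
    rw [inner_self_eq_norm_sq_to_K]
    norm_cast
  have h6 : (⟪x, x⟫_ℂ).re = ‖x‖ ^ 2 := by
    rw [inner_self_eq_norm_sq_to_K]
    norm_cast
  rw [h2, Complex.sub_re, h5, h6] at h3
  have := (abs_le.1 h3).1
  linarith only [this]

end stage

/-- The bounds at one stage give the structure `Good`. -/
theorem good_of_bounds {p : ℕ} {K : Type} [NormedAddCommGroup K] [InnerProductSpace ℂ K]
    [CompleteSpace K] [NeZero p] {χ : AddChar (ZMod p) Circle} {δ : ℝ} (hδ : 0 < δ)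
    {u : Gen → (K →L[ℂ] K)} {v : ZMod p → (K →L[ℂ] K)} {s : K →L[ℂ] K}
    (k1 : ∀ x, -(δ * ‖x‖ ^ 2) ≤
      (⟪x, (DD χ u * DD χ u - ((1 / 2 : ℝ) : ℂ) • DD χ u) x⟫_ℂ).re)
    (k2 : ∀ x, -(δ * ‖x‖ ^ 2) ≤ (⟪x, (DD χ u - star (LL χ v) * DD χ u * LL χ v) x⟫_ℂ).re)
    (k3 : ‖star (LL χ v) * LL χ v - 1‖ ≤ δ)
    (k4 : ∀ g, ‖(UU χ u g - 1) - (UU χ u g - 1) * QQ' χ u g‖ ≤ δ)
    (k5 : ∀ g, ‖UU χ u g‖ ≤ 2) (k6 : ∀ g, ‖QQ' χ u g‖ ≤ 2)
    (k7 : ∀ g, ‖star (u g) * u g - 1‖ ≤ δ)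
    (k8 : ∀ g, ‖QQ' χ u g * (diag (Ix p) K s * emptyProj p K)‖ ≤ δ)
    (k9 : ‖star s * s - 1‖ ≤ δ) : Good χ δ u v s := by
  have hself : star (DD χ u) = DD χ u := by
    unfold DD
    rw [star_sum]
    refine Finset.sum_congr rfl fun g _ => ?_
    rw [star_mul, star_star]
  refine ⟨fun x => ?_, fun x => ?_, fun x => sq_le_of_star_mul k3 x, fun g x => ?_, k7, k6,
    fun g k => ?_, fun k => sq_le_of_star_mul k9 k⟩
  · have h := k1 x
    have i1 : ⟪x, (DD χ u * DD χ u - ((1 / 2 : ℝ) : ℂ) • DD χ u) x⟫_ℂ =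
        ⟪DD χ u x, DD χ u x⟫_ℂ - ((1 / 2 : ℝ) : ℂ) * ⟪x, DD χ u x⟫_ℂ := by
      rw [← inner_smul_right, ← ContinuousLinearMap.adjoint_inner_right,
        ← ContinuousLinearMap.star_eq_adjoint, hself, ← inner_sub_right]
      rfl
    have i2 : (⟪DD χ u x, DD χ u x⟫_ℂ).re = ‖DD χ u x‖ ^ 2 := by
      rw [inner_self_eq_norm_sq_to_K]
      norm_cast
    rw [i1, Complex.sub_re, i2, Complex.re_ofReal_mul] at h
    (clear hδ v s k1 k2 k3 k4 k5 k6 k7 k8 k9 hself i1 i2; linarith)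
  · have h := k2 x
    have i1 : ⟪x, (DD χ u - star (LL χ v) * DD χ u * LL χ v) x⟫_ℂ =
        ⟪x, DD χ u x⟫_ℂ - ⟪LL χ v x, DD χ u (LL χ v x)⟫_ℂ := by
      rw [← ContinuousLinearMap.adjoint_inner_right, ← ContinuousLinearMap.star_eq_adjoint,
        ← inner_sub_right]
      rfl
    rw [i1, Complex.sub_re] at h
    linarith
  · have i1 : UU χ u g x - x =
        ((UU χ u g - 1) - (UU χ u g - 1) * QQ' χ u g) x +
        (UU χ u g (QQ' χ u g x) - QQ' χ u g x) := by
      show _ = (UU χ u g x - x - (UU χ u g (QQ' χ u g x) - QQ' χ u g x)) + _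
      abel
    have i2 : ‖((UU χ u g - 1) - (UU χ u g - 1) * QQ' χ u g) x‖ ≤
        δ * ‖x‖ := (ContinuousLinearMap.le_opNorm _ _).trans (by
      gcongr
      exact k4 g)
    have i3 : ‖UU χ u g (QQ' χ u g x)‖ ≤
        2 * ‖QQ' χ u g x‖ := (ContinuousLinearMap.le_opNorm _ _).trans (by
      gcongr
      exact k5 g)
    rw [i1]
    refine (norm_add_le _ _).trans ?_
    have i4 := norm_sub_le (UU χ u g (QQ' χ u g x)) (QQ' χ u g x)
    (clear hδ v s k1 k2 k3 k6 k7 k8 k9 hself i1; linarith)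
  · have i1 : QQ' χ u g (lp.single 2 ⟨0, 0⟩ (s k)) =
        (QQ' χ u g * (diag (Ix p) K s * emptyProj p K)) (lp.single 2 ⟨0, 0⟩ k) := by
      show _ = QQ' χ u g (diag (Ix p) K s (emptyProj p K (lp.single 2 ⟨0, 0⟩ k)))
      rw [diag_emptyProj_single]
    rw [i1]
    refine (ContinuousLinearMap.le_opNorm _ _).trans ?_
    rw [lp.norm_single (by norm_num)]
    gcongr
    exact k8 g

/-- The combined data in the ultrapower, with lifts. -/
structure StageData (p : ℕ) [NeZero p] (K : Type) [NormedAddCommGroup K] [InnerProductSpace ℂ K]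
    [CompleteSpace K] [Nontrivial (L2 (Ix p) K →L[ℂ] L2 (Ix p) K)]
    (χ : AddChar (ZMod p) Circle) (ω : Ultrafilter ℕ)
    (u : ℕ → Gen → (K →L[ℂ] K)) (v : ℕ → ZMod p → (K →L[ℂ] K)) (s : ℕ → (K →L[ℂ] K))
    (Ub : Gen → Bdd (L2 (Ix p) K →L[ℂ] L2 (Ix p) K))
    (Wb : ZMod p → Bdd (L2 (Ix p) K →L[ℂ] L2 (Ix p) K))
    (Sb : Bdd (L2 (Ix p) K →L[ℂ] L2 (Ix p) K)) : Prop where
  eU : ∀ n g, evA _ n (Ub g) = UU χ (u n) g
  eW : ∀ n y, evA _ n (Wb y) = WW χ (v n) y
  eS : ∀ n, evA _ n Sb = diag (Ix p) K (s n) * emptyProj p K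
  uni : ∀ g, mkA ω (Ub g) ∈ unitary _
  pow : ∀ g, mkA ω (Ub g) ^ p = 1
  heis : ∀ g h, g ≠ h → HeisM (mkA ω (Ub g)) (mkA ω (Ub h))
  orth : ∀ y y', star (mkA ω (Wb y)) * mkA ω (Wb y') = if y = y' then 1 else 0
  X : ∀ y, mkA ω (Ub Gen.X) * mkA ω (Wb y) = mkA ω (Wb (y + 1))
  Z : ∀ y, mkA ω (Ub Gen.Z) * mkA ω (Wb y) = mkA ω (Wb y)
  A0 : ∀ y, mkA ω (Ub Gen.A0) * mkA ω (Wb y) =
    mkA ω (Wb y) * (mkA ω (Ub Gen.X) ^ y.val * mkA ω (Ub Gen.A2))
  A1 : ∀ y, mkA ω (Ub Gen.A1) * mkA ω (Wb y) = mkA ω (Wb y) * mkA ω (Ub Gen.A0)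
  A2 : ∀ y, mkA ω (Ub Gen.A2) * mkA ω (Wb y) = mkA ω (Wb y) * mkA ω (Ub Gen.A1)
  B : ∀ y, mkA ω (Ub Gen.B) * mkA ω (Wb y) =
    mkA ω (Wb y) * (mkA ω (Ub Gen.Z) ^ y.val * mkA ω (Ub Gen.B))
  c1 : Commute (mkA ω (Ub Gen.X)) (mkA ω (Ub Gen.A2))
  c2 : Commute (mkA ω (Ub Gen.Z)) (mkA ω (Ub Gen.B))
  fix : ∀ g, mkA ω (Ub g) * mkA ω Sb = mkA ω Sb

theorem exists_stageData {p : ℕ} {K : Type} [NormedAddCommGroup K] [InnerProductSpace ℂ K]
    [CompleteSpace K] [Fact p.Prime] (χ : AddChar (ZMod p) Circle)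
    [Nontrivial (L2 (Ix p) K →L[ℂ] L2 (Ix p) K)]
    {A : Type} [CStarAlgebra A] {a : Gen → A} {t : ZMod p → A} {s : A} (hA : Rels p χ a t s)
    {O : Type} [CStarAlgebra O] (π : O →⋆ₐ[ℂ] (K →L[ℂ] K)) {ω : Ultrafilter ℕ} {φ : ℕ → A → O}
    (hφ : LiftsHom A O ω φ) :
    ∃ Ub Wb Sb, StageData p K χ ω (fun n g => π (φ n (a g))) (fun n y => π (φ n (t y)))
      (fun n => π (φ n s)) Ub Wb Sb := by
  obtain ⟨Φ, hΦ⟩ := exists_hom hφ ((diag (Ix p) K).comp π)
  obtain ⟨Ψ, hΨ⟩ := exists_const (B := L2 (Ix p) K →L[ℂ] L2 (Ix p) K) ω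
  choose X hX hΦ using hΦ
  choose C hC hΨ using hΨ
  have T : Twist p K χ Φ Ψ := ⟨fun x m => by
    show Φ x * Ψ (op K χ⁻¹ m) = Ψ (op K χ⁻¹ m) * Φ x
    rw [hΦ, hΨ, ← Ultrapower.mk_mul, ← Ultrapower.mk_mul]
    congr 1
    ext1
    funext n
    show X x n * C _ n = C _ n * X x n
    rw [hX, hC]
    exact diag_comm_op χ⁻¹ m (π (φ n x))⟩
  have mT : ∀ x m, mkA ω (X x * C (op K χ⁻¹ m)) = T.theta (x, m) := fun x m => by
    rw [map_mul, mkA_apply, mkA_apply, ← hΦ, ← hΨ]
    rfl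
  refine ⟨fun g => X (a g) * C (op K χ⁻¹ (gen g)), fun y => X (t y) * C (op K χ⁻¹ (cre y)),
    X s * C (emptyProj p K), ?_⟩
  constructor
  · intro n g
    show X (a g) n * C (op K χ⁻¹ (gen g)) n = _
    rw [hX, hC]
    rfl
  · intro n y
    show X (t y) n * C (op K χ⁻¹ (cre y)) n = _
    rw [hX, hC]
    rfl
  · intro n
    show X s n * C (emptyProj p K) n = _
    rw [hX, hC]
    rfl
  · intro g
    rw [mT]
    exact T.uni (hA.uni g) g
  · intro g
    rw [mT, ← map_pow, Prod.pow_mk, hA.pow, gen_pow]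
    exact map_one _
  · intro g h hgh
    rw [mT, mT]
    refine HeisM.map T.theta ?_
    obtain ⟨z, h1, h2, h3⟩ := hA.heis g h hgh
    obtain ⟨z', h1', h2', h3'⟩ := gen_heis (p := p) g h hgh
    exact ⟨(z, z'), Prod.ext h1 h1', Prod.ext h2 h2', Prod.ext h3 h3'⟩
  · intro y y'
    rw [mT, mT]
    exact T.orth hA.iso y y'
  · intro y
    rw [mT, mT, mT, ← map_mul, Prod.mk_mul_mk, hA.X, X_cre]
  · intro y
    rw [mT, mT, ← map_mul, Prod.mk_mul_mk, hA.Z, Z_cre, T.theta_scal]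
  · intro y
    rw [mT, mT, mT, mT, ← map_mul, ← map_pow, ← map_mul, ← map_mul, Prod.mk_mul_mk, hA.A0, A0_cre]
    rfl
  · intro y
    rw [mT, mT, mT, ← map_mul, ← map_mul, Prod.mk_mul_mk, hA.A1, A1_cre]
    rfl
  · intro y
    rw [mT, mT, mT, ← map_mul, ← map_mul, Prod.mk_mul_mk, hA.A2, A2_cre]
    rfl
  · intro y
    rw [mT, mT, mT, ← map_mul, ← map_pow, ← map_mul, ← map_mul, Prod.mk_mul_mk, hA.B, B_cre]
    rfl
  · rw [mT, mT]
    have : Commute (a Gen.X, gen (p := p) Gen.X) (a Gen.A2, gen Gen.A2) :=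
      Prod.ext hA.c1 X_comm_A2
    exact this.map T.theta
  · rw [mT, mT]
    have : Commute (a Gen.Z, gen (p := p) Gen.Z) (a Gen.B, gen Gen.B) :=
      Prod.ext hA.c2 Z_comm_B
    exact this.map T.theta
  · intro g
    rw [mT, map_mul, mkA_apply, mkA_apply, ← hΦ, ← hΨ]
    show Φ (a g) * Ψ (op K χ⁻¹ (gen g)) * (Φ s * Ψ (emptyProj p K)) = _
    calc Φ (a g) * Ψ (op K χ⁻¹ (gen g)) * (Φ s * Ψ (emptyProj p K))
        = Φ (a g) * (Ψ (op K χ⁻¹ (gen g)) * Φ s) * Ψ (emptyProj p K) := by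
          simp only [mul_assoc]
      _ = Φ (a g) * (Φ s * Ψ (op K χ⁻¹ (gen g))) * Ψ (emptyProj p K) := by
          rw [(T.comm s (gen g)).eq]
      _ = Φ (a g * s) * Ψ (op K χ⁻¹ (gen g) * emptyProj p K) := by
          rw [map_mul, map_mul]
          simp only [mul_assoc]
      _ = _ := by rw [hA.s_inv, op_gen_emptyProj]

section

variable {p : ℕ} [Fact p.Prime] {K : Type} [NormedAddCommGroup K] [InnerProductSpace ℂ K]
  [CompleteSpace K] [Nontrivial (L2 (Ix p) K →L[ℂ] L2 (Ix p) K)]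
  {χ : AddChar (ZMod p) Circle} {ω : Ultrafilter ℕ}
  {u : ℕ → Gen → (K →L[ℂ] K)} {v : ℕ → ZMod p → (K →L[ℂ] K)} {s : ℕ → (K →L[ℂ] K)}
  {Ub : Gen → Bdd (L2 (Ix p) K →L[ℂ] L2 (Ix p) K)}
  {Wb : ZMod p → Bdd (L2 (Ix p) K →L[ℂ] L2 (Ix p) K)}
  {Sb : Bdd (L2 (Ix p) K →L[ℂ] L2 (Ix p) K)}

namespace StageData

theorem mQ (S : StageData p K χ ω u v s Ub Wb Sb) (g : Gen) :
    mkA ω (qr p (Ub g)) = qv p (mkA ω (Ub g)) := by
  rw [map_qr, qr_eq_qv]

theorem eQ (S : StageData p K χ ω u v s Ub Wb Sb) (n : ℕ) (g : Gen) :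
    evA _ n (qr p (Ub g)) = QQ' χ (u n) g := by
  rw [map_qr, S.eU]
  rfl

theorem mD (S : StageData p K χ ω u v s Ub Wb Sb) :
    mkA ω (∑ g, star (qr p (Ub g)) * qr p (Ub g)) = lap p fun g => mkA ω (Ub g) := by
  have hp0 : 0 < p := (Fact.out : p.Prime).pos
  show _ = ∑ g, qv p (mkA ω (Ub g))
  rw [map_sum]
  refine Finset.sum_congr rfl fun g _ => ?_
  rw [map_mul, mkA_star, S.mQ, star_qv hp0 (S.uni g) (S.pow g), qv_mul_self hp0 (S.pow g)]

theorem eD (S : StageData p K χ ω u v s Ub Wb Sb) (n : ℕ) :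
    evA _ n (∑ g, star (qr p (Ub g)) * qr p (Ub g)) = DD χ (u n) := by
  show _ = ∑ g, star (QQ' χ (u n) g) * QQ' χ (u n) g
  rw [map_sum]
  refine Finset.sum_congr rfl fun g _ => ?_
  rw [map_mul, evA_star, S.eQ]

theorem mL (S : StageData p K χ ω u v s Ub Wb Sb) :
    mkA ω ((((1 / Real.sqrt p : ℝ)) : ℂ) • ∑ y, Wb y) = lam p fun y => mkA ω (Wb y) := by
  show _ = (((1 / Real.sqrt p : ℝ)) : ℂ) • ∑ y, mkA ω (Wb y)
  rw [map_smul, map_sum]

theorem eL (S : StageData p K χ ω u v s Ub Wb Sb) (n : ℕ) :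
    evA _ n ((((1 / Real.sqrt p : ℝ)) : ℂ) • ∑ y, Wb y) = LL χ (v n) := by
  show _ = (((1 / Real.sqrt p : ℝ)) : ℂ) • ∑ y, WW χ (v n) y
  rw [map_smul, map_sum]
  simp only [S.eW]

theorem e1 (S : StageData p K χ ω u v s Ub Wb Sb) (hp : 100 ≤ p) {δ : ℝ} (hδ : 0 < δ) :
    ∀ᶠ n in (ω : Filter ℕ), ∀ x, -(δ * ‖x‖ ^ 2) ≤
      (⟪x, (DD χ (u n) * DD χ (u n) - ((1 / 2 : ℝ) : ℂ) • DD χ (u n)) x⟫_ℂ).re := by
  have hgap := gap_half hp Gen.card _ S.uni S.pow S.heis
  filter_upwards [eventually_form_nonneg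
    (T := (∑ g, star (qr p (Ub g)) * qr p (Ub g)) * (∑ g, star (qr p (Ub g)) * qr p (Ub g)) -
      ((1 / 2 : ℝ) : ℂ) • ∑ g, star (qr p (Ub g)) * qr p (Ub g)) (ω := ω) (by
    rw [← mkA_apply, map_sub, map_mul, map_smul, S.mD]
    exact hgap) hδ] with n h x
  have := h x
  rw [← evA_apply, map_sub, map_mul, map_smul, S.eD] at this
  exact this

theorem e2 (S : StageData p K χ ω u v s Ub Wb Sb) {δ : ℝ} (hδ : 0 < δ) :
    ∀ᶠ n in (ω : Filter ℕ), ∀ x, -(δ * ‖x‖ ^ 2) ≤
      (⟪x, (DD χ (u n) - star (LL χ (v n)) * DD χ (u n) * LL χ (v n)) x⟫_ℂ).re := by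
  have hlift := lift_le _ _ S.uni S.pow S.orth S.X S.Z S.A0 S.A1 S.A2 S.B S.c1 S.c2
  filter_upwards [eventually_form_nonneg
    (T := (∑ g, star (qr p (Ub g)) * qr p (Ub g)) -
      star ((((1 / Real.sqrt p : ℝ)) : ℂ) • ∑ y, Wb y) *
        (∑ g, star (qr p (Ub g)) * qr p (Ub g)) *
        ((((1 / Real.sqrt p : ℝ)) : ℂ) • ∑ y, Wb y)) (ω := ω) (by
    rw [← mkA_apply, map_sub, map_mul, map_mul, mkA_star, S.mD, S.mL]
    exact hlift) hδ] with n h x
  have := h x
  rw [← evA_apply, map_sub, map_mul, map_mul, evA_star, S.eD, S.eL] at this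
  exact this

theorem e3 (S : StageData p K χ ω u v s Ub Wb Sb) {δ : ℝ} (hδ : 0 < δ) :
    ∀ᶠ n in (ω : Filter ℕ), ‖star (LL χ (v n)) * LL χ (v n) - 1‖ ≤ δ := by
  have hlam := star_lam_mul_lam _ S.orth
  filter_upwards [eventually_norm_sub_le
    (x := star ((((1 / Real.sqrt p : ℝ)) : ℂ) • ∑ y, Wb y) *
      ((((1 / Real.sqrt p : ℝ)) : ℂ) • ∑ y, Wb y)) (y := 1) (ω := ω) (by
    rw [← mkA_apply, ← mkA_apply, map_mul, mkA_star, S.mL, map_one, hlam]) hδ] with n h
  have := h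
  rw [← evA_apply, ← evA_apply, map_mul, evA_star, S.eL, map_one] at this
  exact this

theorem e4 (S : StageData p K χ ω u v s Ub Wb Sb) {δ : ℝ} (hδ : 0 < δ) :
    ∀ᶠ n in (ω : Filter ℕ), ∀ g,
      ‖(UU χ (u n) g - 1) - (UU χ (u n) g - 1) * QQ' χ (u n) g‖ ≤ δ := by
  have hp0 : 0 < p := (Fact.out : p.Prime).pos
  refine eventually_all.2 fun g => ?_
  filter_upwards [eventually_norm_sub_le (x := Ub g - 1) (y := (Ub g - 1) * qr p (Ub g)) (ω := ω)
    (by
      rw [← mkA_apply, ← mkA_apply, map_mul, map_sub, map_one, S.mQ, qv, mul_sub, mul_one,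
        sub_mul (mkA ω (Ub g)), one_mul, mul_av hp0 (S.pow g), sub_self, sub_zero]) hδ] with n h
  have := h
  rw [← evA_apply, ← evA_apply, map_mul, map_sub, S.eU, S.eQ, map_one] at this
  exact this

theorem e5 (S : StageData p K χ ω u v s Ub Wb Sb) :
    ∀ᶠ n in (ω : Filter ℕ), ∀ g, ‖UU χ (u n) g‖ ≤ 2 := by
  refine eventually_all.2 fun g => ?_
  filter_upwards [eventually_norm_sub_le (x := star (Ub g) * Ub g) (y := 1) (ω := ω)
    (by
      rw [← mkA_apply, ← mkA_apply, map_mul, mkA_star, map_one]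
      exact (Unitary.mem_iff.1 (S.uni g)).1) one_pos] with n h
  have := h
  rw [← evA_apply, ← evA_apply, map_mul, evA_star, S.eU, map_one] at this
  exact norm_le_two_of_isom this

theorem e6 (S : StageData p K χ ω u v s Ub Wb Sb) :
    ∀ᶠ n in (ω : Filter ℕ), ∀ g, ‖QQ' χ (u n) g‖ ≤ 2 := by
  have hp0 : 0 < p := (Fact.out : p.Prime).pos
  refine eventually_all.2 fun g => ?_
  filter_upwards [eventually_norm_sub_le (x := star (qr p (Ub g)) * qr p (Ub g))
    (y := qr p (Ub g)) (ω := ω)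
    (by
      rw [← mkA_apply, ← mkA_apply, map_mul, mkA_star, S.mQ, star_qv hp0 (S.uni g) (S.pow g),
        qv_mul_self hp0 (S.pow g)]) two_pos] with n h
  have := h
  rw [← evA_apply, ← evA_apply, map_mul, evA_star, S.eQ] at this
  exact norm_le_two_of_star_mul le_rfl this

theorem e8 (S : StageData p K χ ω u v s Ub Wb Sb) {δ : ℝ} (hδ : 0 < δ) :
    ∀ᶠ n in (ω : Filter ℕ), ∀ g,
      ‖QQ' χ (u n) g * (diag (Ix p) K (s n) * emptyProj p K)‖ ≤ δ := by
  have hp0 : 0 < p := (Fact.out : p.Prime).pos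
  refine eventually_all.2 fun g => ?_
  filter_upwards [eventually_norm_sub_le (x := qr p (Ub g) * Sb) (y := 0) (ω := ω)
    (by
      rw [← mkA_apply, ← mkA_apply, map_mul, map_qr, map_zero, qr_mul_of_fix hp0 (S.fix g)])
    hδ] with n h
  have := h
  rw [← evA_apply, ← evA_apply, map_mul, S.eQ, S.eS, map_zero, sub_zero] at this
  exact this

end StageData

end

theorem eventually_isom {A : Type} [CStarAlgebra A] {O : Type} [CStarAlgebra O]
    {K : Type} [NormedAddCommGroup K] [InnerProductSpace ℂ K] [CompleteSpace K] [Nontrivial K]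
    (π : O →⋆ₐ[ℂ] (K →L[ℂ] K)) {ω : Ultrafilter ℕ} {φ : ℕ → A → O}
    (hφ : LiftsHom A O ω φ) {x : A} (hx : star x * x = 1) {δ : ℝ} (hδ : 0 < δ) :
    ∀ᶠ n in (ω : Filter ℕ), ‖star (π (φ n x)) * π (φ n x) - 1‖ ≤ δ := by
  obtain ⟨Φ, hΦ⟩ := exists_hom hφ π
  choose X hX hΦ using hΦ
  filter_upwards [eventually_norm_sub_le (x := star (X x) * X x) (y := 1) (ω := ω)
    (by
      rw [← mkA_apply, ← mkA_apply, map_mul, mkA_star, mkA_apply, ← hΦ, map_one, ← map_star,
        ← map_mul, hx, map_one]) hδ] with n h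
  have := h
  rw [← evA_apply, ← evA_apply, map_mul, evA_star, map_one, evA_apply, hX] at this
  exact this

variable {p : ℕ} {K : Type} [NormedAddCommGroup K] [InnerProductSpace ℂ K] [CompleteSpace K]

theorem eventually_good [Fact p.Prime] (hp : 100 ≤ p) (χ : AddChar (ZMod p) Circle)
    [Nontrivial K]
    {A : Type} [CStarAlgebra A] {a : Gen → A} {t : ZMod p → A} {s : A} (hA : Rels p χ a t s)
    {O : Type} [CStarAlgebra O] (π : O →⋆ₐ[ℂ] (K →L[ℂ] K)) {ω : Ultrafilter ℕ} {φ : ℕ → A → O}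
    (hφ : LiftsHom A O ω φ) {δ : ℝ} (hδ : 0 < δ) :
    ∀ᶠ n in (ω : Filter ℕ), Good χ δ (fun g => π (φ n (a g))) (fun y => π (φ n (t y)))
      (π (φ n s)) := by
  haveI : Nontrivial (L2 (Ix p) K) := nontrivial_L2
  obtain ⟨Ub, Wb, Sb, S⟩ := exists_stageData χ hA π hφ
  have e7 : ∀ᶠ n in (ω : Filter ℕ), ∀ g, ‖star (π (φ n (a g))) * π (φ n (a g)) - 1‖ ≤ δ :=
    eventually_all.2 fun g => eventually_isom π hφ (Unitary.mem_iff.1 (hA.uni g)).1 hδ
  filter_upwards [S.e1 hp hδ, S.e2 hδ, S.e3 hδ, S.e4 hδ, S.e5, S.e6, e7, S.e8 hδ,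
    eventually_isom π hφ hA.s_iso hδ] with n h1 h2 h3 h4 h5 h6 h7 h8 h9
  exact good_of_bounds hδ h1 h2 h3 h4 h5 h6 h7 h8 h9

end

end Vale.Agent.P083N
end
end

section

section

open Filter Topology
open scoped InnerProductSpace ENNReal

namespace Vale.Agent.P083

noncomputable section

universe u v w

theorem L2.hasSum_sq {ι : Type u} {H : Type v} [NormedAddCommGroup H] [InnerProductSpace ℂ H]
    (f : L2 ι H) : HasSum (fun i => ‖f i‖ ^ 2) (‖f‖ ^ 2) := by
  have h := lp.hasSum_norm (p := 2) (by norm_num) f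
  simpa only [ENNReal.toReal_ofNat, Real.rpow_ofNat] using h

namespace Slice

variable {ι : Type u} {K : Type v} [NormedAddCommGroup K] [InnerProductSpace ℂ K] [CompleteSpace K]

/-- the operator `k ↦ (⟨e_l, k⟩ ξ)_l` -/
def rk (b : HilbertBasis ι ℂ K) (ξ : K) : K →L[ℂ] L2 ι K :=
  (lp.mapCLM 2 (fun _ : ι => ContinuousLinearMap.toSpanSingleton ℂ ξ) (norm_nonneg ξ)
    fun _ => by
      rw [ContinuousLinearMap.norm_toSpanSingleton]).comp
    (b.repr.toContinuousLinearEquiv : K →L[ℂ] lp (fun _ : ι => ℂ) 2)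

theorem rk_apply (b : HilbertBasis ι ℂ K) (ξ k : K) (l : ι) :
    rk b ξ k l = (b.repr k l) • ξ := rfl

theorem inner_rk (b : HilbertBasis ι ℂ K) (ξ ξ' k k' : K) :
    ⟪rk b ξ k, rk b ξ' k'⟫_ℂ = ⟪ξ, ξ'⟫_ℂ * ⟪k, k'⟫_ℂ := by
  rw [lp.inner_eq_tsum]
  have : ∀ l, ⟪rk b ξ k l, rk b ξ' k' l⟫_ℂ = ⟪ξ, ξ'⟫_ℂ * ⟪b.repr k l, b.repr k' l⟫_ℂ := by
    intro l
    rw [rk_apply, rk_apply, inner_smul_left, inner_smul_right, RCLike.inner_apply]
    ring
  rw [tsum_congr this, tsum_mul_left, ← lp.inner_eq_tsum, b.repr.inner_map_map]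

theorem amp_comp_rk (b : HilbertBasis ι ℂ K) (ξ : K) (a : K →L[ℂ] K) :
    (amp a).comp (rk b ξ) = rk b (a ξ) := by
  refine ContinuousLinearMap.ext fun k => ?_
  ext l
  show a (rk b ξ k l) = rk b (a ξ) k l
  rw [rk_apply, rk_apply, map_smul]

/-- the shift on operators from `K` to `K ⊗ l²` -/
def psi (S T : K →L[ℂ] K) (R : K →L[ℂ] L2 ι K) : K →L[ℂ] L2 ι K :=
  (amp S).comp (R.comp (star S)) + (amp T).comp (R.comp (star T))

theorem psi_apply (S T : K →L[ℂ] K) (R : K →L[ℂ] L2 ι K) (k : K) :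
    psi S T R k = amp S (R ((star S) k)) + amp T (R ((star T) k)) := rfl

theorem inner_amp_amp (S T : K →L[ℂ] K) (f g : L2 ι K) :
    ⟪amp S f, amp T g⟫_ℂ = ⟪f, amp (star S * T) g⟫_ℂ := by
  have h1 : amp (ι := ι) (star S * T) = star (amp S) * amp T := by
    rw [← ampHom_apply, ← ampHom_apply, ← ampHom_apply, map_mul, map_star]
  rw [h1]
  show _ = ⟪f, (star (amp S)) (amp T g)⟫_ℂ
  rw [ContinuousLinearMap.star_eq_adjoint, ContinuousLinearMap.adjoint_inner_right]

theorem amp_one (f : L2 ι K) : amp (1 : K →L[ℂ] K) f = f := by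
  ext i
  rfl

theorem amp_zero (f : L2 ι K) : amp (0 : K →L[ℂ] K) f = 0 := by
  ext i
  rfl

variable {S T : K →L[ℂ] K}

/-- `R` and `R'` are isometric up to a scalar. -/
def Rel (R R' : K →L[ℂ] L2 ι K) (c : ℂ) : Prop := ∀ k k', ⟪R k, R' k'⟫_ℂ = c * ⟪k, k'⟫_ℂ

theorem inner_star_star (h : IsCuntzPair S T) (k k' : K) :
    ⟪(star S) k, (star S) k'⟫_ℂ + ⟪(star T) k, (star T) k'⟫_ℂ = ⟪k, k'⟫_ℂ := by
  have h1 := congr_arg (fun A : K →L[ℂ] K => ⟪k, A k'⟫_ℂ) h.sum
  have h2 : ⟪k, (S * star S) k'⟫_ℂ = ⟪(star S) k, (star S) k'⟫_ℂ := by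
    show ⟪k, S ((star S) k')⟫_ℂ = _
    rw [ContinuousLinearMap.star_eq_adjoint, ContinuousLinearMap.adjoint_inner_left]
  have h3 : ⟪k, (T * star T) k'⟫_ℂ = ⟪(star T) k, (star T) k'⟫_ℂ := by
    show ⟪k, T ((star T) k')⟫_ℂ = _
    rw [ContinuousLinearMap.star_eq_adjoint, ContinuousLinearMap.adjoint_inner_left]
  rw [← h2, ← h3, ← inner_add_right]
  exact h1

theorem Rel.psi (h : IsCuntzPair S T) {R R' : K →L[ℂ] L2 ι K} {c : ℂ} (hR : Rel R R' c) :
    Rel (psi S T R) (psi S T R') c := by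
  intro k k'
  rw [psi_apply, psi_apply, inner_add_left, inner_add_right, inner_add_right, inner_amp_amp,
    inner_amp_amp, inner_amp_amp, inner_amp_amp, h.iso₁, h.orth, h.orth', h.iso₂, amp_one, amp_one,
    amp_zero, amp_zero, inner_zero_right, inner_zero_right, hR, hR, ← inner_star_star h k k']
  ring

theorem psi_comp (h : IsCuntzPair S T) (R : K →L[ℂ] L2 ι K) (k : K) :
    psi S T R (S k) = amp S (R k) ∧ psi S T R (T k) = amp T (R k) := by
  have e1 : (star S) (S k) = k := congr_arg (fun A : K →L[ℂ] K => A k) h.iso₁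
  have e2 : (star T) (S k) = 0 := congr_arg (fun A : K →L[ℂ] K => A k) h.orth'
  have e3 : (star S) (T k) = 0 := congr_arg (fun A : K →L[ℂ] K => A k) h.orth
  have e4 : (star T) (T k) = k := congr_arg (fun A : K →L[ℂ] K => A k) h.iso₂
  rw [psi_apply, psi_apply, e1, e2, e3, e4]
  simp

theorem amp_amp (A B : K →L[ℂ] K) (f : L2 ι K) : amp A (amp B f) = amp (A * B) f := by
  ext i
  rfl

theorem star_psi (h : IsCuntzPair S T) (R : K →L[ℂ] L2 ι K) (k : K) :
    amp (star S) (psi S T R k) = R ((star S) k) ∧ amp (star T) (psi S T R k) = R ((star T) k) := by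
  rw [psi_apply, map_add, map_add, amp_amp, amp_amp, amp_amp, amp_amp, h.iso₁, h.orth, h.orth',
    h.iso₂, amp_one, amp_one, amp_zero, amp_zero, add_zero, zero_add]
  exact ⟨rfl, rfl⟩

/-- the vectors `S^m T k₀` -/
def xi (S T : K →L[ℂ] K) (k₀ : K) (m : ℕ) : K := (S ^ m) (T k₀)

theorem star_xi (h : IsCuntzPair S T) (k₀ : K) (m : ℕ) :
    (star S) (xi S T k₀ (m + 1)) = xi S T k₀ m ∧ (star T) (xi S T k₀ (m + 1)) = 0 := by
  have e1 : ∀ k, (star S) (S k) = k := fun k => congr_arg (fun A : K →L[ℂ] K => A k) h.iso₁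
  have e2 : ∀ k, (star T) (S k) = 0 := fun k => congr_arg (fun A : K →L[ℂ] K => A k) h.orth'
  have e : xi S T k₀ (m + 1) = S (xi S T k₀ m) := by
    rw [xi, xi, pow_succ']
    rfl
  rw [e]
  exact ⟨e1 _, e2 _⟩

theorem inner_xi (h : IsCuntzPair S T) (k₀ : K) (m d : ℕ) :
    ⟪xi S T k₀ m, xi S T k₀ (m + d)⟫_ℂ = if d = 0 then ⟪k₀, k₀⟫_ℂ else 0 := by
  have e1 : ∀ k k', ⟪S k, S k'⟫_ℂ = ⟪k, k'⟫_ℂ := by
    intro k k'
    rw [← ContinuousLinearMap.adjoint_inner_right, ← ContinuousLinearMap.star_eq_adjoint]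
    congr 1
    exact congr_arg (fun A : K →L[ℂ] K => A k') h.iso₁
  have e2 : ∀ k k', ⟪T k, T k'⟫_ℂ = ⟪k, k'⟫_ℂ := by
    intro k k'
    rw [← ContinuousLinearMap.adjoint_inner_right, ← ContinuousLinearMap.star_eq_adjoint]
    congr 1
    exact congr_arg (fun A : K →L[ℂ] K => A k') h.iso₂
  have e3 : ∀ k k', ⟪T k, S k'⟫_ℂ = 0 := by
    intro k k'
    rw [← ContinuousLinearMap.adjoint_inner_right, ← ContinuousLinearMap.star_eq_adjoint]
    have : (star T) (S k') = 0 := congr_arg (fun A : K →L[ℂ] K => A k') h.orth'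
    rw [this, inner_zero_right]
  have e : ∀ m, xi S T k₀ (m + 1) = S (xi S T k₀ m) := by
    intro m
    rw [xi, xi, pow_succ']
    rfl
  induction m with
  | zero =>
    cases d with
    | zero =>
      rw [if_pos rfl]
      exact e2 _ _
    | succ d =>
      rw [if_neg (Nat.succ_ne_zero d), zero_add, e]
      exact e3 _ _
  | succ m ih =>
    rw [show m + 1 + d = (m + d) + 1 by ring, e, e, e1, ih]

theorem inner_rk_iter (h : IsCuntzPair S T) (b : HilbertBasis ι ℂ K) (k₀ : K) (m d : ℕ)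
    (R : K →L[ℂ] L2 ι K) (k k' : K) :
    ⟪rk b (xi S T k₀ (m + d)) k, (psi S T)^[d] R k'⟫_ℂ =
      ⟪rk b (xi S T k₀ m) k, R (((star S) ^ d) k')⟫_ℂ := by
  induction d generalizing R k' with
  | zero => rfl
  | succ d ih =>
    rw [Function.iterate_succ_apply', ← add_assoc, psi_apply, inner_add_right]
    have e : ∀ (A : K →L[ℂ] K) (ξ : K) (g : L2 ι K),
        ⟪rk b ξ k, amp A g⟫_ℂ = ⟪rk b ((star A) ξ) k, g⟫_ℂ := by
      intro A ξ g
      have h1 : rk b ((star A) ξ) k = amp (star A) (rk b ξ k) := by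
        rw [← amp_comp_rk]
        rfl
      have h2 : amp (ι := ι) (star A) = star (amp A) := by
        rw [← ampHom_apply, ← ampHom_apply, map_star]
      rw [h1, h2, ContinuousLinearMap.star_eq_adjoint, ContinuousLinearMap.adjoint_inner_left]
    rw [e, e, (star_xi h k₀ _).1, (star_xi h k₀ _).2, ih]
    have h0 : ∀ g : L2 ι K, ⟪rk b 0 k, g⟫_ℂ = 0 := by
      intro g
      have : rk b 0 k = 0 := by
        ext l
        rw [rk_apply, smul_zero]
        rfl
      rw [this, inner_zero_left]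
    rw [h0, add_zero, pow_succ]
    rfl

theorem rel_iter (h : IsCuntzPair S T) (b : HilbertBasis ι ℂ K) {k₀ : K} (hk₀ : ‖k₀‖ = 1)
    (M : ℕ) {m m' : ℕ} (hm : m ≤ M) (hm' : m' ≤ M) :
    Rel ((psi S T)^[m] (rk b (xi S T k₀ (M + 1)))) ((psi S T)^[m'] (rk b (xi S T k₀ (M + 1))))
      (if m = m' then 1 else 0) := by
  -- first the case `m ≤ m'`
  have key : ∀ d ≤ M, Rel (rk b (xi S T k₀ (M + 1))) ((psi S T)^[d] (rk b (xi S T k₀ (M + 1))))
      (if d = 0 then 1 else 0) := by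
    intro d hd k k'
    obtain ⟨e, rfl⟩ := Nat.exists_eq_add_of_le hd
    have h1 := inner_rk_iter h b k₀ (e + 1) d (rk b (xi S T k₀ (d + e + 1))) k k'
    rw [show e + 1 + d = d + e + 1 by ring] at h1
    rw [h1, inner_rk, show d + e + 1 = (e + 1) + d by ring, inner_xi h]
    by_cases hd0 : d = 0
    · subst hd0
      rw [if_pos rfl, if_pos rfl, inner_self_eq_norm_sq_to_K, hk₀]
      simp only [Complex.coe_algebraMap, Complex.ofReal_one, one_pow, pow_zero, one_apply_eq_self, one_mul]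
    · rw [if_neg hd0, if_neg hd0]
      simp only [pow_apply_eq_iterate, zero_mul]
  have key2 : ∀ m d, m + d ≤ M → Rel ((psi S T)^[m] (rk b (xi S T k₀ (M + 1))))
      ((psi S T)^[m + d] (rk b (xi S T k₀ (M + 1)))) (if d = 0 then 1 else 0) := by
    intro m d hmd
    induction m with
    | zero => simpa using key d (by omega)
    | succ m ih =>
      rw [show m + 1 + d = (m + d) + 1 by ring, Function.iterate_succ_apply',
        Function.iterate_succ_apply']
      exact (ih (by omega)).psi h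
  rcases le_total m m' with hle | hle
  · obtain ⟨d, rfl⟩ := Nat.exists_eq_add_of_le hle
    have := key2 m d hm'
    by_cases hd : d = 0
    · subst hd
      simpa using this
    · rw [if_neg hd] at this
      rwa [if_neg (by omega)]
  · obtain ⟨d, rfl⟩ := Nat.exists_eq_add_of_le hle
    have := key2 m' d hm
    by_cases hd : d = 0
    · subst hd
      simpa using this
    · rw [if_neg hd] at this
      rw [if_neg (by omega)]
      intro k k'
      rw [← inner_conj_symm, this k' k]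
      simp

/-- the averaged operator -/
def VV (S T : K →L[ℂ] K) (b : HilbertBasis ι ℂ K) (k₀ : K) (M : ℕ) : K →L[ℂ] L2 ι K :=
  (((√((M + 1 : ℕ) : ℝ))⁻¹ : ℝ) : ℂ) •
    ∑ m ∈ Finset.range (M + 1), (psi S T)^[m] (rk b (xi S T k₀ (M + 1)))

theorem inner_VV (h : IsCuntzPair S T) (b : HilbertBasis ι ℂ K) {k₀ : K} (hk₀ : ‖k₀‖ = 1)
    (M : ℕ) (k k' : K) : ⟪VV S T b k₀ M k, VV S T b k₀ M k'⟫_ℂ = ⟪k, k'⟫_ℂ := by
  have e1 : ∀ k, VV S T b k₀ M k = (((√((M + 1 : ℕ) : ℝ))⁻¹ : ℝ) : ℂ) •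
      ∑ m ∈ Finset.range (M + 1), ((psi S T)^[m] (rk b (xi S T k₀ (M + 1)))) k := by
    intro k
    rw [VV, smul_apply, sum_apply]
  rw [e1, e1, inner_smul_left, inner_smul_right, sum_inner]
  have e2 : ∀ m ∈ Finset.range (M + 1),
      ⟪((psi S T)^[m] (rk b (xi S T k₀ (M + 1)))) k,
        ∑ m ∈ Finset.range (M + 1), ((psi S T)^[m] (rk b (xi S T k₀ (M + 1)))) k'⟫_ℂ =
      ⟪k, k'⟫_ℂ := by
    intro m hm
    rw [Finset.mem_range] at hm
    rw [inner_sum, Finset.sum_eq_single_of_mem m (Finset.mem_range.2 hm)]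
    · rw [rel_iter h b hk₀ M (by omega) (by omega), if_pos rfl, one_mul]
    · intro m' hm' hne
      rw [Finset.mem_range] at hm'
      rw [rel_iter h b hk₀ M (by omega) (by omega), if_neg (Ne.symm hne), zero_mul]
  rw [Finset.sum_congr rfl e2, Finset.sum_const, Finset.card_range, nsmul_eq_mul]
  have h3 : (0 : ℝ) < ((M + 1 : ℕ) : ℝ) := by positivity
  have h4 : (((√((M + 1 : ℕ) : ℝ))⁻¹ : ℝ) : ℂ) * (((√((M + 1 : ℕ) : ℝ))⁻¹ : ℝ) : ℂ) *
      ((M + 1 : ℕ) : ℂ) = 1 := by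
    rw [← Complex.ofReal_mul, ← mul_inv, Real.mul_self_sqrt h3.le, ← Complex.ofReal_natCast,
      ← Complex.ofReal_mul, inv_mul_cancel₀ h3.ne', Complex.ofReal_one]
  rw [Complex.conj_ofReal, ← mul_assoc, ← mul_assoc, h4, one_mul]

theorem norm_VV (h : IsCuntzPair S T) (b : HilbertBasis ι ℂ K) {k₀ : K} (hk₀ : ‖k₀‖ = 1)
    (M : ℕ) (k : K) : ‖VV S T b k₀ M k‖ = ‖k‖ := by
  have h1 := inner_VV h b hk₀ M k k
  rw [inner_self_eq_norm_sq_to_K, inner_self_eq_norm_sq_to_K] at h1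
  have h2 : ‖VV S T b k₀ M k‖ ^ 2 = ‖k‖ ^ 2 := by exact_mod_cast h1
  exact (sq_eq_sq₀ (norm_nonneg _) (norm_nonneg _)).1 h2

theorem norm_iter (h : IsCuntzPair S T) (b : HilbertBasis ι ℂ K) {k₀ : K} (hk₀ : ‖k₀‖ = 1)
    (M m : ℕ) (k : K) : ‖(psi S T)^[m] (rk b (xi S T k₀ (M + 1))) k‖ = ‖k‖ := by
  have hrel : Rel ((psi S T)^[m] (rk b (xi S T k₀ (M + 1))))
      ((psi S T)^[m] (rk b (xi S T k₀ (M + 1)))) 1 := by
    induction m with
    | zero =>
      have := rel_iter h b hk₀ M (Nat.zero_le M) (Nat.zero_le M)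
      rwa [if_pos rfl] at this
    | succ m ih =>
      rw [Function.iterate_succ_apply']
      exact ih.psi h
  have h1 := hrel k k
  rw [one_mul, inner_self_eq_norm_sq_to_K, inner_self_eq_norm_sq_to_K] at h1
  have h2 : ‖(psi S T)^[m] (rk b (xi S T k₀ (M + 1))) k‖ ^ 2 = ‖k‖ ^ 2 := by exact_mod_cast h1
  exact (sq_eq_sq₀ (norm_nonneg _) (norm_nonneg _)).1 h2

theorem norm_amp_le (A : K →L[ℂ] K) : ‖(amp A : L2 ι K →L[ℂ] L2 ι K)‖ ≤ ‖A‖ :=
  NonUnitalStarAlgHom.norm_apply_le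
    (ampHom : (K →L[ℂ] K) →⋆ₐ[ℂ] (L2 ι K →L[ℂ] L2 ι K)) A

theorem VV_apply (b : HilbertBasis ι ℂ K) (k₀ : K) (M : ℕ) (k : K) :
    VV S T b k₀ M k = (((√((M + 1 : ℕ) : ℝ))⁻¹ : ℝ) : ℂ) •
      ∑ m ∈ Finset.range (M + 1), ((psi S T)^[m] (rk b (xi S T k₀ (M + 1)))) k := by
  rw [VV, smul_apply, sum_apply]

theorem comm_aux (h : IsCuntzPair S T) (b : HilbertBasis ι ℂ K) {k₀ : K} (hk₀ : ‖k₀‖ = 1)
    (M : ℕ) {A : K →L[ℂ] K} (hA : ‖A‖ ≤ 1)
    (hA' : ∀ (R : K →L[ℂ] L2 ι K) (k : K), psi S T R (A k) = amp A (R k)) (k : K) :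
    ‖amp A (VV S T b k₀ M k) - VV S T b k₀ M (A k)‖ ≤ 2 / √((M + 1 : ℕ) : ℝ) * ‖k‖ := by
  have h1 : amp A (VV S T b k₀ M k) - VV S T b k₀ M (A k) =
      (((√((M + 1 : ℕ) : ℝ))⁻¹ : ℝ) : ℂ) •
        (((psi S T)^[M + 1] (rk b (xi S T k₀ (M + 1)))) (A k) -
          ((psi S T)^[0] (rk b (xi S T k₀ (M + 1)))) (A k)) := by
    rw [VV_apply, VV_apply, map_smul, map_sum, ← smul_sub, ← Finset.sum_range_sub
      (fun m => ((psi S T)^[m] (rk b (xi S T k₀ (M + 1)))) (A k)), ← Finset.sum_sub_distrib]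
    congr 1
    refine Finset.sum_congr rfl fun m _ => ?_
    rw [Function.iterate_succ_apply', hA']
  rw [h1, norm_smul, Complex.norm_real, Real.norm_eq_abs, abs_of_nonneg (by positivity)]
  have h2 : ‖A k‖ ≤ ‖k‖ := by
    calc ‖A k‖ ≤ ‖A‖ * ‖k‖ := A.le_opNorm k
      _ ≤ 1 * ‖k‖ := by (clear * - hA; gcongr)
      _ = ‖k‖ := one_mul _
  have h3 := norm_sub_le (((psi S T)^[M + 1] (rk b (xi S T k₀ (M + 1)))) (A k))
    (((psi S T)^[0] (rk b (xi S T k₀ (M + 1)))) (A k))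
  rw [norm_iter h b hk₀, norm_iter h b hk₀] at h3
  calc (√((M + 1 : ℕ) : ℝ))⁻¹ * ‖((psi S T)^[M + 1] (rk b (xi S T k₀ (M + 1)))) (A k) -
          ((psi S T)^[0] (rk b (xi S T k₀ (M + 1)))) (A k)‖
      ≤ (√((M + 1 : ℕ) : ℝ))⁻¹ * (2 * ‖k‖) := by gcongr; (clear h hk₀ hA' h1; linarith)
    _ = 2 / √((M + 1 : ℕ) : ℝ) * ‖k‖ := by rw [div_eq_mul_inv]; ring

theorem comm_aux' (h : IsCuntzPair S T) (b : HilbertBasis ι ℂ K) {k₀ : K} (hk₀ : ‖k₀‖ = 1)
    (M : ℕ) {A : K →L[ℂ] K} (hA : ‖A‖ ≤ 1)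
    (hA' : ∀ (R : K →L[ℂ] L2 ι K) (k : K), amp A (psi S T R k) = R (A k)) (k : K) :
    ‖amp A (VV S T b k₀ M k) - VV S T b k₀ M (A k)‖ ≤ 2 / √((M + 1 : ℕ) : ℝ) * ‖k‖ := by
  have h1 : amp A (VV S T b k₀ M k) - VV S T b k₀ M (A k) =
      (((√((M + 1 : ℕ) : ℝ))⁻¹ : ℝ) : ℂ) •
        (amp A (((psi S T)^[0] (rk b (xi S T k₀ (M + 1)))) k) -
          ((psi S T)^[M] (rk b (xi S T k₀ (M + 1)))) (A k)) := by
    rw [VV_apply, VV_apply, map_smul, map_sum, ← smul_sub]
    congr 1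
    rw [Finset.sum_range_succ', Finset.sum_range_succ]
    have : ∀ m ∈ Finset.range M, amp A (((psi S T)^[m + 1] (rk b (xi S T k₀ (M + 1)))) k) =
        ((psi S T)^[m] (rk b (xi S T k₀ (M + 1)))) (A k) := by
      intro m _
      rw [Function.iterate_succ_apply', hA']
    rw [Finset.sum_congr rfl this]
    abel
  rw [h1, norm_smul, Complex.norm_real, Real.norm_eq_abs, abs_of_nonneg (by positivity)]
  have h3 := norm_sub_le (amp A (((psi S T)^[0] (rk b (xi S T k₀ (M + 1)))) k))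
    (((psi S T)^[M] (rk b (xi S T k₀ (M + 1)))) (A k))
  have h4 : ‖amp A (((psi S T)^[0] (rk b (xi S T k₀ (M + 1)))) k)‖ ≤ ‖k‖ := by
    calc _ ≤ (1 : ℝ) * ‖((psi S T)^[0] (rk b (xi S T k₀ (M + 1)))) k‖ :=
          ((amp A).le_opNorm _).trans (by gcongr; exact (norm_amp_le A).trans hA)
      _ = ‖k‖ := by rw [one_mul, norm_iter h b hk₀]
  have h5 : ‖A k‖ ≤ ‖k‖ := by
    calc ‖A k‖ ≤ ‖A‖ * ‖k‖ := A.le_opNorm k
      _ ≤ 1 * ‖k‖ := by (clear * - hA; gcongr)
      _ = ‖k‖ := one_mul _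
  rw [norm_iter h b hk₀] at h3
  calc (√((M + 1 : ℕ) : ℝ))⁻¹ * ‖amp A (((psi S T)^[0] (rk b (xi S T k₀ (M + 1)))) k) -
          ((psi S T)^[M] (rk b (xi S T k₀ (M + 1)))) (A k)‖
      ≤ (√((M + 1 : ℕ) : ℝ))⁻¹ * (2 * ‖k‖) := by gcongr; (clear h hk₀ hA hA' h1; linarith)
    _ = 2 / √((M + 1 : ℕ) : ℝ) * ‖k‖ := by rw [div_eq_mul_inv]; ring

/-- `x` almost commutes with the operators `VV`. -/
def Good (S T : K →L[ℂ] K) (b : HilbertBasis ι ℂ K) (k₀ : K) (x : K →L[ℂ] K) : Prop :=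
  ∀ ε > 0, ∀ᶠ M in atTop, ∀ k, ‖amp x (VV S T b k₀ M k) - VV S T b k₀ M (x k)‖ ≤ ε * ‖k‖

theorem Good.of_bound {b : HilbertBasis ι ℂ K} {k₀ : K} {x : K →L[ℂ] K}
    (hx : ∀ M k, ‖amp x (VV S T b k₀ M k) - VV S T b k₀ M (x k)‖ ≤
      2 / √((M + 1 : ℕ) : ℝ) * ‖k‖) : Good S T b k₀ x := by
  intro ε hε
  have hlim : Tendsto (fun n : ℕ => 2 / √((n + 1 : ℕ) : ℝ)) atTop (𝓝 0) := by
    have h1 : Tendsto (fun n : ℕ => ((n + 1 : ℕ) : ℝ)) atTop atTop :=
      (tendsto_natCast_atTop_atTop (R := ℝ)).comp (tendsto_add_atTop_nat 1)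
    exact Tendsto.const_div_atTop (Real.tendsto_sqrt_atTop.comp h1) 2
  filter_upwards [hlim.eventually_le_const hε] with M hM k
  exact (hx M k).trans (by gcongr)

theorem Good.add {b : HilbertBasis ι ℂ K} {k₀ : K} {x y : K →L[ℂ] K}
    (hx : Good S T b k₀ x) (hy : Good S T b k₀ y) : Good S T b k₀ (x + y) := by
  intro ε hε
  filter_upwards [hx (ε / 2) (by positivity), hy (ε / 2) (by positivity)] with M h1 h2 k
  have e1 : amp (x + y) (VV S T b k₀ M k) = amp x (VV S T b k₀ M k) + amp y (VV S T b k₀ M k) := by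
    ext i
    rfl
  have e2 : VV S T b k₀ M ((x + y) k) = VV S T b k₀ M (x k) + VV S T b k₀ M (y k) := by
    rw [← map_add]
    rfl
  rw [e1, e2, add_sub_add_comm]
  refine (norm_add_le _ _).trans ?_
  have := h1 k
  have := h2 k
  (clear hx hy hε e1 e2; linarith)

theorem Good.mul {b : HilbertBasis ι ℂ K} {k₀ : K} {x y : K →L[ℂ] K}
    (hx : Good S T b k₀ x) (hy : Good S T b k₀ y) : Good S T b k₀ (x * y) := by
  intro ε hε
  filter_upwards [hx (ε / (2 * (‖y‖ + 1))) (by positivity),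
    hy (ε / (2 * (‖x‖ + 1))) (by (clear * - hε; positivity))] with M h1 h2 k
  have e1 : amp (x * y) (VV S T b k₀ M k) - VV S T b k₀ M ((x * y) k) =
      amp x (amp y (VV S T b k₀ M k) - VV S T b k₀ M (y k)) +
      (amp x (VV S T b k₀ M (y k)) - VV S T b k₀ M (x (y k))) := by
    rw [map_sub, amp_amp]
    show _ - VV S T b k₀ M (x (y k)) = _
    abel
  rw [e1]
  have h3 : ‖amp x (amp y (VV S T b k₀ M k) - VV S T b k₀ M (y k))‖ ≤
      ‖x‖ * (ε / (2 * (‖x‖ + 1)) * ‖k‖) :=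
    ((amp x).le_opNorm _).trans (by
      gcongr
      · exact norm_amp_le x
      · exact h2 k)
  have h4 : ‖amp x (VV S T b k₀ M (y k)) - VV S T b k₀ M (x (y k))‖ ≤
      ε / (2 * (‖y‖ + 1)) * (‖y‖ * ‖k‖) :=
    (h1 (y k)).trans (by gcongr; exact y.le_opNorm k)
  have h5 : ‖x‖ * (ε / (2 * (‖x‖ + 1)) * ‖k‖) ≤ ε / 2 * ‖k‖ := by
    have : ‖x‖ * (ε / (2 * (‖x‖ + 1)) * ‖k‖) = (ε / 2 * ‖k‖) * (‖x‖ / (‖x‖ + 1)) := by
      (clear * - hε; field_simp)
    rw [this]
    exact mul_le_of_le_one_right (by (clear * - hε; positivity)) (by rw [div_le_one (by (clear * -; positivity))]; linarith only [])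
  have h6 : ε / (2 * (‖y‖ + 1)) * (‖y‖ * ‖k‖) ≤ ε / 2 * ‖k‖ := by
    have : ε / (2 * (‖y‖ + 1)) * (‖y‖ * ‖k‖) = (ε / 2 * ‖k‖) * (‖y‖ / (‖y‖ + 1)) := by
      (clear * - hε; field_simp)
    rw [this]
    exact mul_le_of_le_one_right (by positivity) (by rw [div_le_one (by (clear * -; positivity))]; linarith only [])
  refine (norm_add_le _ _).trans ?_
  linarith

theorem Good.algebraMap' {b : HilbertBasis ι ℂ K} {k₀ : K} (c : ℂ) :
    Good S T b k₀ (algebraMap ℂ (K →L[ℂ] K) c) := by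
  intro ε hε
  refine Eventually.of_forall fun M k => ?_
  have e1 : amp (algebraMap ℂ (K →L[ℂ] K) c) (VV S T b k₀ M k) = c • VV S T b k₀ M k := by
    ext i
    rfl
  have e2 : (algebraMap ℂ (K →L[ℂ] K) c) k = c • k := rfl
  rw [e1, e2, map_smul, sub_self, norm_zero]
  positivity

theorem Good.of_close (h : IsCuntzPair S T) {b : HilbertBasis ι ℂ K} {k₀ : K} (hk₀ : ‖k₀‖ = 1)
    {x : K →L[ℂ] K}
    (hx : ∀ ε > 0, ∃ y, Good S T b k₀ y ∧ ‖x - y‖ ≤ ε) : Good S T b k₀ x := by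
  intro ε hε
  obtain ⟨y, hy, hxy⟩ := hx (ε / 3) (by positivity)
  filter_upwards [hy (ε / 3) (by positivity)] with M h1 k
  have e1 : amp x (VV S T b k₀ M k) - VV S T b k₀ M (x k) =
      amp (x - y) (VV S T b k₀ M k) + (amp y (VV S T b k₀ M k) - VV S T b k₀ M (y k)) -
        VV S T b k₀ M ((x - y) k) := by
    have e2 : amp (x - y) (VV S T b k₀ M k) = amp x (VV S T b k₀ M k) - amp y (VV S T b k₀ M k) := by
      ext i
      rfl
    have e3 : VV S T b k₀ M ((x - y) k) = VV S T b k₀ M (x k) - VV S T b k₀ M (y k) := by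
      rw [← map_sub]
      rfl
    rw [e2, e3]
    abel
  rw [e1]
  have h3 : ‖amp (x - y) (VV S T b k₀ M k)‖ ≤ ε / 3 * ‖k‖ := by
    calc _ ≤ (ε / 3) * ‖VV S T b k₀ M k‖ :=
          ((amp (x - y)).le_opNorm _).trans (by
            gcongr
            exact (norm_amp_le _).trans hxy)
      _ = ε / 3 * ‖k‖ := by rw [norm_VV h b hk₀]
  have h4 : ‖VV S T b k₀ M ((x - y) k)‖ ≤ ε / 3 * ‖k‖ := by
    rw [norm_VV h b hk₀]
    exact ((x - y).le_opNorm k).trans (by (clear * - hxy; gcongr))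
  have h5 := h1 k
  refine (norm_sub_le _ _).trans ((add_le_add (norm_add_le _ _) le_rfl).trans ?_)
  linarith

theorem good_of_cuntz {O : Type w} [CStarAlgebra O] {s₁ s₂ : O} (h : CuntzTwo s₁ s₂)
    (π : O →⋆ₐ[ℂ] (K →L[ℂ] K)) (b : HilbertBasis ι ℂ K) {k₀ : K} (hk₀ : ‖k₀‖ = 1) (x : O) :
    Good (π s₁) (π s₂) b k₀ (π x) := by
  have hp : IsCuntzPair (π s₁) (π s₂) := h.pair.map π
  have hn1 : ‖π s₁‖ ≤ 1 := (NonUnitalStarAlgHom.norm_apply_le π s₁).trans h.norm_le.1
  have hn2 : ‖π s₂‖ ≤ 1 := (NonUnitalStarAlgHom.norm_apply_le π s₂).trans h.norm_le.2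
  have hgood : ∀ x ∈ StarAlgebra.adjoin ℂ ({s₁, s₂} : Set O),
      Good (π s₁) (π s₂) b k₀ (π x) ∧ Good (π s₁) (π s₂) b k₀ (π (star x)) := by
    intro x hx
    induction hx using StarAlgebra.adjoin_induction with
    | mem x hx =>
      rcases hx with rfl | rfl
      · refine ⟨Good.of_bound fun M k => comm_aux hp b hk₀ M hn1
          (fun R k => (psi_comp hp R k).1) k, Good.of_bound fun M k => ?_⟩
        rw [map_star]
        exact comm_aux' hp b hk₀ M (by rwa [norm_star]) (fun R k => (star_psi hp R k).1) k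
      · refine ⟨Good.of_bound fun M k => comm_aux hp b hk₀ M hn2
          (fun R k => (psi_comp hp R k).2) k, Good.of_bound fun M k => ?_⟩
        rw [map_star]
        exact comm_aux' hp b hk₀ M (by rwa [norm_star]) (fun R k => (star_psi hp R k).2) k
    | algebraMap r =>
      constructor
      · rw [AlgHomClass.commutes]
        exact Good.algebraMap' r
      · rw [← algebraMap_star_comm, AlgHomClass.commutes]
        exact Good.algebraMap' _
    | add x z _ _ hx hz =>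
      exact ⟨by rw [map_add]; exact hx.1.add hz.1,
        by rw [star_add, map_add]; exact hx.2.add hz.2⟩
    | mul x z _ _ hx hz =>
      exact ⟨by rw [map_mul]; exact hx.1.mul hz.1,
        by rw [star_mul, map_mul]; exact hz.2.mul hx.2⟩
    | star x _ hx => exact ⟨hx.2, by rw [star_star]; exact hx.1⟩
  have hx : x ∈ (StarAlgebra.adjoin ℂ ({s₁, s₂} : Set O)).topologicalClosure := by
    rw [h.gen]; trivial
  refine Good.of_close hp hk₀ fun ε hε => ?_
  obtain ⟨z, hz, hxz⟩ := Metric.mem_closure_iff.1 hx ε hε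
  refine ⟨π z, (hgood z hz).1, ?_⟩
  rw [← map_sub]
  rw [dist_eq_norm] at hxz
  exact (NonUnitalStarAlgHom.norm_apply_le π _).trans hxz.le

/-- all coordinates of the values of `R` lie in a fixed finite-dimensional subspace -/
def FinRange (R : K →L[ℂ] L2 ι K) : Prop :=
  ∃ F : Submodule ℂ K, FiniteDimensional ℂ F ∧ ∀ k l, R k l ∈ F

theorem finRange_rk (b : HilbertBasis ι ℂ K) (ξ : K) : FinRange (rk b ξ) :=
  ⟨Submodule.span ℂ {ξ}, inferInstance, fun k l => by
    rw [rk_apply]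
    exact Submodule.smul_mem _ _ (Submodule.mem_span_singleton_self ξ)⟩

theorem FinRange.psi' {R : K →L[ℂ] L2 ι K} (hR : FinRange R) : FinRange (psi S T R) := by
  obtain ⟨F, hF, hR⟩ := hR
  refine ⟨F.map (S : K →ₗ[ℂ] K) ⊔ F.map (T : K →ₗ[ℂ] K), inferInstance, fun k l => ?_⟩
  rw [psi_apply]
  exact Submodule.add_mem_sup (Submodule.mem_map_of_mem (hR _ l))
    (Submodule.mem_map_of_mem (hR _ l))

theorem FinRange.iter {R : K →L[ℂ] L2 ι K} (hR : FinRange R) (m : ℕ) :
    FinRange ((psi S T)^[m] R) := by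
  induction m with
  | zero => exact hR
  | succ m ih =>
    rw [Function.iterate_succ_apply']
    exact ih.psi'

theorem FinRange.add {R R' : K →L[ℂ] L2 ι K} (hR : FinRange R) (hR' : FinRange R') :
    FinRange (R + R') := by
  obtain ⟨F, hF, hR⟩ := hR
  obtain ⟨F', hF', hR'⟩ := hR'
  exact ⟨F ⊔ F', inferInstance, fun k l => Submodule.add_mem_sup (hR k l) (hR' k l)⟩

theorem FinRange.smul {R : K →L[ℂ] L2 ι K} (hR : FinRange R) (c : ℂ) : FinRange (c • R) := by
  obtain ⟨F, hF, hR⟩ := hR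
  exact ⟨F, hF, fun k l => F.smul_mem c (hR k l)⟩

theorem FinRange.sum {α : Type*} {R : α → K →L[ℂ] L2 ι K} (s : Finset α)
    (hR : ∀ a, FinRange (R a)) : FinRange (∑ a ∈ s, R a) := by
  classical
  induction s using Finset.induction_on with
  | empty =>
    rw [Finset.sum_empty]
    exact ⟨⊥, inferInstance, fun k l => by
      show (0 : K) ∈ _
      exact Submodule.zero_mem _⟩
  | insert a s ha ih =>
    rw [Finset.sum_insert ha]
    exact (hR a).add ih

theorem finRange_VV (b : HilbertBasis ι ℂ K) (k₀ : K) (M : ℕ) : FinRange (VV S T b k₀ M) :=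
  FinRange.smul (R := ∑ m ∈ Finset.range (M + 1), (psi S T)^[m] (rk b (xi S T k₀ (M + 1))))
    (FinRange.sum (R := fun m => (psi S T)^[m] (rk b (xi S T k₀ (M + 1)))) (Finset.range (M + 1))
      fun m => (finRange_rk b _).iter m) _

end Slice

/-- **Explicit nuclearity of `O₂`**: finitely many elements of `O₂` are almost intertwined by an
isometry `K → l²(ι, K)` all of whose coordinates have range in one finite-dimensional subspace. -/
theorem exists_slicing {O : Type w} [CStarAlgebra O] {s₁ s₂ : O} (h : CuntzTwo s₁ s₂)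
    {K : Type v} [NormedAddCommGroup K] [InnerProductSpace ℂ K] [CompleteSpace K] [Nontrivial K]
    (π : O →⋆ₐ[ℂ] (K →L[ℂ] K)) {n : Type*} [Finite n] (x : n → O) {η : ℝ} (hη : 0 < η) :
    ∃ (ι : Type v) (V : K →L[ℂ] L2 ι K) (F : Submodule ℂ K), FiniteDimensional ℂ F ∧
      (∀ k, ‖V k‖ = ‖k‖) ∧ (∀ k l, V k l ∈ F) ∧
      ∀ i k, ‖amp (π (x i)) (V k) - V (π (x i) k)‖ ≤ η * ‖k‖ := by
  obtain ⟨ι, b, -⟩ := exists_hilbertBasis ℂ K
  obtain ⟨k₀, hk₀⟩ := exists_norm_eq K (zero_le_one' ℝ)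
  have h1 : ∀ i, ∀ᶠ M in atTop, ∀ k, ‖amp (π (x i)) (Slice.VV (π s₁) (π s₂) b k₀ M k) -
      Slice.VV (π s₁) (π s₂) b k₀ M (π (x i) k)‖ ≤ η * ‖k‖ :=
    fun i => Slice.good_of_cuntz h π b hk₀ (x i) η hη
  obtain ⟨M, hM⟩ := (eventually_all.2 h1).exists
  obtain ⟨F, hF, hF'⟩ := Slice.finRange_VV (S := π s₁) (T := π s₂) b k₀ M
  exact ⟨ι, Slice.VV (π s₁) (π s₂) b k₀ M, F, hF, Slice.norm_VV (h.pair.map π) b hk₀ M, hF', hM⟩

/-- **Slicing** of almost invariant vectors: from an almost invariant unit vector in `K ⊗ l²(W)`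
one gets an almost invariant unit vector in `F ⊗ l²(W)`. -/
theorem exists_slice {ι : Type u} {K : Type v} [NormedAddCommGroup K] [InnerProductSpace ℂ K]
    [CompleteSpace K] {V : K →L[ℂ] L2 ι K} {F : Submodule ℂ K} (hV : ∀ k, ‖V k‖ = ‖k‖)
    (hF : ∀ k l, V k l ∈ F) {n : Type*} [Fintype n] [Nonempty n] {u : n → K →L[ℂ] K} {η ε : ℝ}
    (hu : ∀ i k, ‖amp (u i) (V k) - V (u i k)‖ ≤ η * ‖k‖)
    {W : Type*} [Fintype W] (σ : n → W → W) (c : n → W → ℂ) (hc : ∀ i w, ‖c i w‖ ≤ 1)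
    (ζ : W → K) (hζ : ∑ w, ‖ζ w‖ ^ 2 = 1)
    (hinv : ∀ i, ∑ w, ‖c i w • u i (ζ w) - ζ (σ i w)‖ ^ 2 ≤ ε) :
    ∃ y : W → K, (∀ w, y w ∈ F) ∧ ∑ w, ‖y w‖ ^ 2 = 1 ∧
      ∀ i, ∑ w, ‖c i w • u i (y w) - y (σ i w)‖ ^ 2 ≤ Fintype.card n * (2 * η ^ 2 + 2 * ε) := by
  have hsum1 : HasSum (fun l => ∑ w, ‖V (ζ w) l‖ ^ 2) (∑ w, ‖ζ w‖ ^ 2) := by
    refine hasSum_sum fun w _ => ?_
    have := L2.hasSum_sq (V (ζ w))
    rwa [hV] at this
  rw [hζ] at hsum1
  have hD : ∀ i w, HasSum (fun l => ‖c i w • u i (V (ζ w) l) - V (ζ (σ i w)) l‖ ^ 2)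
      (‖c i w • amp (u i) (V (ζ w)) - V (ζ (σ i w))‖ ^ 2) := fun i w =>
    L2.hasSum_sq (c i w • amp (u i) (V (ζ w)) - V (ζ (σ i w)))
  have hDle : ∀ i, ∑ w, ‖c i w • amp (u i) (V (ζ w)) - V (ζ (σ i w))‖ ^ 2 ≤
      2 * η ^ 2 + 2 * ε := by
    intro i
    have h1 : ∀ w, ‖c i w • amp (u i) (V (ζ w)) - V (ζ (σ i w))‖ ^ 2 ≤
        2 * (η ^ 2 * ‖ζ w‖ ^ 2) + 2 * ‖c i w • u i (ζ w) - ζ (σ i w)‖ ^ 2 := by
      intro w
      have e1 : c i w • amp (u i) (V (ζ w)) - V (ζ (σ i w)) =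
          c i w • (amp (u i) (V (ζ w)) - V (u i (ζ w))) +
            V (c i w • u i (ζ w) - ζ (σ i w)) := by
        rw [map_sub, map_smul, smul_sub]
        abel
      have e2 : ‖c i w • (amp (u i) (V (ζ w)) - V (u i (ζ w)))‖ ≤ η * ‖ζ w‖ := by
        rw [norm_smul]
        calc _ ≤ 1 * ‖amp (u i) (V (ζ w)) - V (u i (ζ w))‖ := by gcongr; exact hc i w
          _ ≤ _ := by rw [one_mul]; exact hu i (ζ w)
      have e3 : ‖V (c i w • u i (ζ w) - ζ (σ i w))‖ = ‖c i w • u i (ζ w) - ζ (σ i w)‖ := hV _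
      rw [e1]
      have e4 := norm_add_le (c i w • (amp (u i) (V (ζ w)) - V (u i (ζ w))))
        (V (c i w • u i (ζ w) - ζ (σ i w)))
      rw [e3] at e4
      have e5 : ‖c i w • (amp (u i) (V (ζ w)) - V (u i (ζ w))) +
            V (c i w • u i (ζ w) - ζ (σ i w))‖ ≤
          η * ‖ζ w‖ + ‖c i w • u i (ζ w) - ζ (σ i w)‖ := e4.trans (by (clear * - e2; gcongr))
      have e6 := pow_le_pow_left₀ (norm_nonneg _) e5 2
      nlinarith only [e6, sq_nonneg (η * ‖ζ w‖ - ‖c i w • u i (ζ w) - ζ (σ i w)‖)]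
    refine (Finset.sum_le_sum fun w _ => h1 w).trans ?_
    rw [Finset.sum_add_distrib, ← Finset.mul_sum, ← Finset.mul_sum, ← Finset.mul_sum, hζ]
    linarith only [hinv i]
  have hsum2 : HasSum (fun l => ∑ i, ∑ w, ‖c i w • u i (V (ζ w) l) - V (ζ (σ i w)) l‖ ^ 2)
      (∑ i, ∑ w, ‖c i w • amp (u i) (V (ζ w)) - V (ζ (σ i w))‖ ^ 2) :=
    hasSum_sum fun i _ => hasSum_sum fun w _ => hD i w
  set C : ℝ := Fintype.card n * (2 * η ^ 2 + 2 * ε) with hC
  have hC2 : ∑ i, ∑ w, ‖c i w • amp (u i) (V (ζ w)) - V (ζ (σ i w))‖ ^ 2 ≤ C := by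
    refine (Finset.sum_le_sum fun i _ => hDle i).trans ?_
    rw [Finset.sum_const, Finset.card_univ, nsmul_eq_mul]
  -- a good coordinate
  obtain ⟨l, hl0, hl⟩ : ∃ l, ∑ w, ‖V (ζ w) l‖ ^ 2 ≠ 0 ∧
      ∑ i, ∑ w, ‖c i w • u i (V (ζ w) l) - V (ζ (σ i w)) l‖ ^ 2 ≤ C * ∑ w, ‖V (ζ w) l‖ ^ 2 := by
    by_contra hcon
    push Not at hcon
    have h3 : ∀ l, C * ∑ w, ‖V (ζ w) l‖ ^ 2 ≤
        ∑ i, ∑ w, ‖c i w • u i (V (ζ w) l) - V (ζ (σ i w)) l‖ ^ 2 := by
      intro l
      by_cases h0 : ∑ w, ‖V (ζ w) l‖ ^ 2 = 0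
      · rw [h0, mul_zero]
        (clear * -; positivity)
      · exact (hcon l h0).le
    obtain ⟨l, hl⟩ : ∃ l, ∑ w, ‖V (ζ w) l‖ ^ 2 ≠ 0 := by
      by_contra h0
      push Not at h0
      have h1 := hsum1
      simp only [h0] at h1
      exact zero_ne_one (hasSum_zero.unique h1)
    have h4 := hasSum_lt h3 (hcon l hl) (hsum1.mul_left C) hsum2
    rw [mul_one] at h4
    exact absurd hC2 (not_le.2 h4)
  set r : ℝ := √(∑ w, ‖V (ζ w) l‖ ^ 2) with hr
  have hpos : 0 < ∑ w, ‖V (ζ w) l‖ ^ 2 :=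
    lt_of_le_of_ne (Finset.sum_nonneg fun w _ => by (clear * -; positivity)) (Ne.symm hl0)
  have hr0 : 0 < r := Real.sqrt_pos.2 hpos
  have hr2 : r ^ 2 = ∑ w, ‖V (ζ w) l‖ ^ 2 := Real.sq_sqrt hpos.le
  refine ⟨fun w => ((r⁻¹ : ℝ) : ℂ) • V (ζ w) l, fun w => F.smul_mem _ (hF _ _), ?_, fun i => ?_⟩
  · have : ∀ w, ‖((r⁻¹ : ℝ) : ℂ) • V (ζ w) l‖ ^ 2 = (r ^ 2)⁻¹ * ‖V (ζ w) l‖ ^ 2 := by
      intro w
      rw [norm_smul, Complex.norm_real, Real.norm_eq_abs, abs_of_pos (by (clear * - hl0; positivity)), mul_pow,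
        inv_pow]
    rw [Finset.sum_congr rfl fun w _ => this w, ← Finset.mul_sum, ← hr2,
      inv_mul_cancel₀ (by (clear * - hl0; positivity))]
  · have : ∀ w, ‖c i w • u i (((r⁻¹ : ℝ) : ℂ) • V (ζ w) l) -
        ((r⁻¹ : ℝ) : ℂ) • V (ζ (σ i w)) l‖ ^ 2 =
        (r ^ 2)⁻¹ * ‖c i w • u i (V (ζ w) l) - V (ζ (σ i w)) l‖ ^ 2 := by
      intro w
      rw [map_smul, smul_comm, ← smul_sub, norm_smul, Complex.norm_real, Real.norm_eq_abs,
        abs_of_pos (by (clear * - hl0; positivity)), mul_pow, inv_pow]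
    rw [Finset.sum_congr rfl fun w _ => this w, ← Finset.mul_sum]
    have h5 : ∑ w, ‖c i w • u i (V (ζ w) l) - V (ζ (σ i w)) l‖ ^ 2 ≤ C * r ^ 2 := by
      rw [hr2]
      refine le_trans ?_ hl
      exact Finset.single_le_sum
        (f := fun i => ∑ w, ‖c i w • u i (V (ζ w) l) - V (ζ (σ i w)) l‖ ^ 2)
        (fun i _ => Finset.sum_nonneg fun w _ => by (clear * -; positivity)) (Finset.mem_univ i)
    calc (r ^ 2)⁻¹ * ∑ w, ‖c i w • u i (V (ζ w) l) - V (ζ (σ i w)) l‖ ^ 2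
        ≤ (r ^ 2)⁻¹ * (C * r ^ 2) := by (clear * - h5 hl0; gcongr)
      _ = C := by (clear * - hr0; field_simp)

end

end Vale.Agent.P083
end
end

section

section

/-! STEP 5: `O₂` is nuclear, in the form of finite rank slices. -/

open scoped InnerProductSpace

namespace Vale.Agent.P083N

open Vale.Agent.P083

noncomputable section

theorem exists_slices {O : Type} [CStarAlgebra O] {s₁ s₂ : O} (h : CuntzTwo s₁ s₂)
    {K : Type} [NormedAddCommGroup K] [InnerProductSpace ℂ K] [CompleteSpace K] [Nontrivial K]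
    (π : O →⋆ₐ[ℂ] (K →L[ℂ] K)) (F : Finset O) {δ : ℝ} (hδ : 0 < δ) :
    ∃ (L : Type) (S : L → (K →L[ℂ] K)) (V : Submodule ℂ K), FiniteDimensional ℂ V ∧
      (∀ l k, S l k ∈ V) ∧ (∀ k, HasSum (fun l => ‖S l k‖ ^ 2) (‖k‖ ^ 2)) ∧
      ∀ x ∈ F, ∀ k, Summable (fun l => ‖(π x * S l - S l * π x) k‖ ^ 2) ∧
        ∑' l, ‖(π x * S l - S l * π x) k‖ ^ 2 ≤ δ ^ 2 * ‖k‖ ^ 2 := by
  obtain ⟨ι, V, W, hW, hiso, hmem, hcomm⟩ := exists_slicing h π (fun x : F => (x : O)) hδ
  let S : ι → (K →L[ℂ] K) := fun l =>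
    LinearMap.mkContinuous
      { toFun := fun k => V k l
        map_add' := fun k k' => by rw [map_add]; rfl
        map_smul' := fun c k => by rw [map_smul]; rfl } 1
      (fun k => by
        show ‖V k l‖ ≤ 1 * ‖k‖
        rw [one_mul, ← hiso k]
        exact lp.norm_apply_le_norm (by norm_num) (V k) l)
  have hS : ∀ l k, S l k = V k l := fun l k => rfl
  refine ⟨ι, S, W, hW, fun l k => hmem k l, fun k => ?_, fun x hx k => ?_⟩
  · have := L2.hasSum_sq (V k)
    rw [hiso] at this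
    exact this
  · have h1 : HasSum (fun l => ‖(π x * S l - S l * π x) k‖ ^ 2)
        (‖amp (π x) (V k) - V (π x k)‖ ^ 2) :=
      L2.hasSum_sq (amp (π x) (V k) - V (π x k))
    refine ⟨h1.summable, ?_⟩
    rw [h1.tsum_eq, ← mul_pow]
    exact pow_le_pow_left₀ (norm_nonneg _) (hcomm ⟨x, hx⟩ k) 2

end

end Vale.Agent.P083N
end
end

section

section

/-! End of STEP 5: picking one slice. -/

open scoped InnerProductSpace

namespace Vale.Agent.P083N

noncomputable section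

theorem exists_pick {ι : Type} [Fintype ι] (hι : Fintype.card ι = 6) {W : Type} [Fintype W]
    {K : Type} [NormedAddCommGroup K] [InnerProductSpace ℂ K] [CompleteSpace K]
    (ζ : W → K) (hζ : ∑ w, ‖ζ w‖ ^ 2 = 1) (u : ι → (K →L[ℂ] K)) (m : ι → W → W)
    (hm : ∀ g, Function.Bijective (m g)) (c : ι → W → ℂ) (hc : ∀ g w, ‖c g w‖ = 1)
    {η δ : ℝ} (hδ : 0 < δ)
    (hinv : ∀ g, ∑ w, ‖c g w • u g (ζ w) - ζ (m g w)‖ ^ 2 ≤ η ^ 2)
    {L : Type} (S : L → (K →L[ℂ] K)) (V : Submodule ℂ K)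
    (hSV : ∀ l k, S l k ∈ V) (hS : ∀ k, HasSum (fun l => ‖S l k‖ ^ 2) (‖k‖ ^ 2))
    (hSu : ∀ g k, Summable (fun l => ‖(u g * S l - S l * u g) k‖ ^ 2) ∧
        ∑' l, ‖(u g * S l - S l * u g) k‖ ^ 2 ≤ δ ^ 2 * ‖k‖ ^ 2) :
    ∃ y : W → K, ∑ w, ‖y w‖ ^ 2 = 1 ∧ (∀ w, y w ∈ V) ∧
      ∀ g, ∑ w, ‖c g w • u g (y w) - y (m g w)‖ ^ 2 ≤ 13 * (η ^ 2 + δ ^ 2) := by
  have hmem : ∀ k, Memℓp (fun l => S l k) 2 := by
    intro k
    refine memℓp_gen ?_
    have := (hS k).summable
    simpa only [ENNReal.toReal_ofNat, Real.rpow_ofNat] using this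
  let V' : K →L[ℂ] P083.L2 L K :=
    LinearMap.mkContinuous
      { toFun := fun k => (⟨fun l => S l k, hmem k⟩ : P083.L2 L K)
        map_add' := fun k k' => by
          ext l
          exact map_add (S l) k k'
        map_smul' := fun c k => by
          ext l
          exact map_smul (S l) c k } 1
      (fun k => by
        have h1 := P083.L2.hasSum_sq (⟨fun l => S l k, hmem k⟩ : P083.L2 L K)
        have h2 := h1.unique (hS k)
        rw [one_mul]
        exact ((sq_eq_sq₀ (norm_nonneg _) (norm_nonneg _)).1 h2).le)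
  have hV' : ∀ k l, V' k l = S l k := fun k l => rfl
  have hiso : ∀ k, ‖V' k‖ = ‖k‖ := fun k =>
    (sq_eq_sq₀ (norm_nonneg _) (norm_nonneg _)).1 ((P083.L2.hasSum_sq (V' k)).unique (hS k))
  have : Nonempty ι := by
    rw [← Fintype.card_pos_iff, hι]
    norm_num
  have hu : ∀ g k, ‖P083.amp (u g) (V' k) - V' (u g k)‖ ≤ δ * ‖k‖ := by
    intro g k
    have h1 : HasSum (fun l => ‖(u g * S l - S l * u g) k‖ ^ 2)
        (‖P083.amp (u g) (V' k) - V' (u g k)‖ ^ 2) :=
      P083.L2.hasSum_sq (P083.amp (u g) (V' k) - V' (u g k))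
    have h2 := (hSu g k).2
    rw [h1.tsum_eq, ← mul_pow] at h2
    exact (sq_le_sq₀ (norm_nonneg _) (by (clear * - hδ; positivity))).1 h2
  obtain ⟨y, hy1, hy2, hy3⟩ := P083.exists_slice hiso (fun k l => hSV l k) hu m c
    (fun g w => (hc g w).le) ζ hζ hinv
  refine ⟨y, hy2, hy1, fun g => (hy3 g).trans ?_⟩
  rw [hι]
  push_cast
  nlinarith only []

end

end Vale.Agent.P083N
end
end

section

section

/-! Assembly. -/

open Filter Topology
open scoped ENNReal InnerProductSpace ComplexConjugate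

namespace Vale.Agent.P083N

open Vale.Agent.P083

noncomputable section

theorem gl_bijective {p : ℕ} [Fact p.Prime] (j : ℕ) (g : Gen) :
    Function.Bijective (gl (p := p) j g).map :=
  ⟨(gl j g).inj, Finite.surjective_of_injective (gl j g).inj⟩

/-- No C*-algebra satisfying the relations maps unitally to the ultrapower of `O₂`. -/
theorem not_lifts {p : ℕ} [Fact p.Prime] (hp : 100 ≤ p) (hp2 : p ≤ 101)
    {χ : AddChar (ZMod p) Circle} (hχ : Function.Injective χ)
    {A : Type} [CStarAlgebra A] {a : Gen → A} {t : ZMod p → A} {s : A} (hA : Rels p χ a t s)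
    {O : Type} [CStarAlgebra O] [Nontrivial O] {s₁ s₂ : O} (hO : CuntzTwo s₁ s₂)
    {ω : Ultrafilter ℕ} {φ : ℕ → A → O} (hφ : LiftsHom A O ω φ) : False := by
  classical
  obtain ⟨K, _, _, _, hK, ⟨π⟩⟩ := exists_rep O
  -- the tolerance
  obtain ⟨δ, hδ⟩ : ∃ δ : ℝ, δ = 1 / 10 ^ 24 := ⟨_, rfl⟩
  have hδ0 : 0 < δ := by rw [hδ]; positivity
  have hδ1 : δ ≤ 1 / 100 := by rw [hδ]; norm_num
  obtain ⟨n, hn⟩ := (eventually_good hp χ hA π hφ hδ0).exists
  set u : Gen → (K →L[ℂ] K) := fun g => π (φ n (a g)) with hu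
  -- slices
  obtain ⟨L, S, V, hV, hSV, hS, hSu⟩ := exists_slices hO π
    (Finset.univ.image (fun g => φ n (a g))) hδ0
  -- a large level
  obtain ⟨j, hj⟩ : ∃ j : ℕ, 2 * (Module.finrank ℂ V : ℝ) < (p : ℝ) ^ j := by
    have : (1 : ℝ) < p := by
      have := hp
      have h2 : (100 : ℝ) ≤ p := by exact_mod_cast hp
      linarith only [h2]
    exact pow_unbounded_of_one_lt _ this
  obtain ⟨ζ, hζ1, hζ2⟩ := exists_levels hδ0 hδ1 hn j
  obtain ⟨y, hy1, hyV, hy2⟩ := exists_pick Gen.card ζ hζ1 u (fun g => (gl j g).map)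
    (fun g => gl_bijective j g) (fun g x => ((χ (-(gl j g).ph x) : Circle) : ℂ))
    (fun g x => Circle.norm_coe _) (η := Real.sqrt (100 * δ)) hδ0
    (fun g => by rw [Real.sq_sqrt (by positivity)]; exact hζ2 g) S V hSV hS
    (fun g k => hSu _ (Finset.mem_image_of_mem _ (Finset.mem_univ g)) k)
  obtain ⟨f, hf1, hf2, hf3⟩ := gram_step V y hy1 hyV
  -- a common bound
  set η : ℝ := 1 / 10 ^ 10 with hη
  have hηle : 13 * ((Real.sqrt (100 * δ)) ^ 2 + δ ^ 2) ≤ η ^ 2 := by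
    rw [Real.sq_sqrt (by positivity), hδ, hη]; norm_num
  have hinv : ∀ g, ∑ x, ∑ x', ‖f ((gl j g).map x) ((gl j g).map x')
        - ((χ ((gl j g).ph x - (gl j g).ph x') : Circle) : ℂ) * f x x'‖ ^ 2 ≤ 10 * η := by
    intro g
    have h1 := hf3 (gl j g).map (fun x => ((χ (-(gl j g).ph x) : Circle) : ℂ)) (u g) η
      (gl_bijective j g) (fun x => Circle.norm_coe _) (by rw [hη]; positivity)
      (by rw [hη]; norm_num) ((hy2 g).trans hηle)
      ((hn.uni g).trans (by rw [hδ, hη]; norm_num))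
    refine le_trans (le_of_eq ?_) h1
    refine Finset.sum_congr rfl fun x _ => Finset.sum_congr rfl fun x' _ => ?_
    have h2 : ((χ ((gl j g).ph x - (gl j g).ph x') : Circle) : ℂ)
        = conj ((χ (-(gl j g).ph x) : Circle) : ℂ) * ((χ (-(gl j g).ph x') : Circle) : ℂ) := by
      rw [← Circle.coe_inv_eq_conj, ← AddChar.map_neg_eq_inv, neg_neg, sub_eq_add_neg,
        AddChar.map_add_eq_mul, Circle.coe_mul]
    rw [h2]
  obtain ⟨c, hc⟩ := hs_gap hp hχ j f
  have hsum : ∑ g, ∑ x, ∑ x', ‖f ((gl j g).map x) ((gl j g).map x')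
        - ((χ ((gl j g).ph x - (gl j g).ph x') : Circle) : ℂ) * f x x'‖ ^ 2 ≤ 60 * η := by
    refine (Finset.sum_le_sum fun g _ => hinv g).trans ?_
    rw [Finset.sum_const, Finset.card_univ, Gen.card]
    simp only [nsmul_eq_mul]
    norm_num
  have hp3 : (p : ℝ) ^ 2 ≤ 101 ^ 2 := by
    have : (p : ℝ) ≤ 101 := by exact_mod_cast hp2
    have h0 : (0 : ℝ) ≤ p := Nat.cast_nonneg _
    exact pow_le_pow_left₀ h0 this 2
  have hclose : ∑ x, ∑ x', ‖f x x' - (if x = x' then c else 0)‖ ^ 2 ≤ 1 / 16 := by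
    refine hc.trans ?_
    have h3 : (p : ℝ) ^ 2 * ∑ g, ∑ x, ∑ x', ‖f ((gl j g).map x) ((gl j g).map x')
        - ((χ ((gl j g).ph x - (gl j g).ph x') : Circle) : ℂ) * f x x'‖ ^ 2
        ≤ 101 ^ 2 * (60 * η) :=
      mul_le_mul hp3 hsum (Finset.sum_nonneg fun _ _ => Finset.sum_nonneg fun _ _ =>
        Finset.sum_nonneg fun _ _ => by (clear hp hp2 hχ a t s hA s₁ s₂ hO ω φ hφ π δ hδ hδ0 hδ1 n u hn hu L S hSV hS hSu hj ζ hζ1 hζ2 y hy1 hyV hy2 hf1 hf2 hf3 η hη hηle hinv c hc hsum hp3; positivity)) (by positivity)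
    refine h3.trans ?_
    rw [hη]; norm_num
  -- the scalar part is large
  have hcard : (Fintype.card (Wd p j) : ℝ) = (p : ℝ) ^ j := by
    simp only [Wd, Fintype.card_pi, ZMod.card, Finset.prod_const, Finset.card_univ, Fintype.card_fin, Nat.cast_pow]
  have hbig : 1 / 2 ≤ ‖c‖ ^ 2 * (p : ℝ) ^ j := by
    have h4 : ∑ x : Wd p j, ∑ x' : Wd p j, ‖f x x'‖ ^ 2
        ≤ (1 + 1 / 4) * (∑ x, ∑ x' : Wd p j, ‖(if x = x' then c else 0 : ℂ)‖ ^ 2)
          + (1 + 4) * ∑ x, ∑ x', ‖f x x' - (if x = x' then c else 0)‖ ^ 2 := by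
      simp only [Finset.mul_sum]
      rw [← Finset.sum_add_distrib]
      refine Finset.sum_le_sum fun x _ => ?_
      rw [← Finset.sum_add_distrib]
      refine Finset.sum_le_sum fun x' _ => ?_
      have h5 : ‖f x x'‖ ≤ ‖(if x = x' then c else 0 : ℂ)‖
          + ‖f x x' - (if x = x' then c else 0)‖ := by
        have := norm_add_le (if x = x' then c else 0 : ℂ) (f x x' - (if x = x' then c else 0))
        simpa only [ge_iff_le, add_sub_cancel] using this
      nlinarith only [h5, sq_nonneg (‖(if x = x' then c else 0 : ℂ)‖         - 4 * ‖f x x' - (if x = x' then c else 0)‖), norm_nonneg (f x x')]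
    have h6 : ∑ x : Wd p j, ∑ x' : Wd p j, ‖(if x = x' then c else 0 : ℂ)‖ ^ 2
        = ‖c‖ ^ 2 * (p : ℝ) ^ j := by
      have : ∀ x : Wd p j, ∑ x' : Wd p j, ‖(if x = x' then c else 0 : ℂ)‖ ^ 2 = ‖c‖ ^ 2 := by
        intro x
        rw [Finset.sum_eq_single x]
        · simp
        · intro b _ hb
          simp [Ne.symm hb]
        · simp only [Finset.mem_univ, not_true_eq_false, ↓reduceIte, ne_eq, OfNat.ofNat_ne_zero, not_false_eq_true, pow_eq_zero_iff, norm_eq_zero, IsEmpty.forall_iff]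
      rw [Finset.sum_congr rfl fun x _ => this x, Finset.sum_const, Finset.card_univ,
        nsmul_eq_mul, hcard, mul_comm]
    rw [hf1, h6] at h4
    (clear hp hχ hA s₁ s₂ hO ω hφ hδ0 hδ1 hu L S hSV hS hSu hj ζ hζ1 hζ2 hy1 hyV hf1 hf2 hcard h6; linarith)
  have hlow := (hf2 c).trans hclose
  rw [hcard] at hlow
  have hc0 : 0 ≤ ‖c‖ ^ 2 := by (clear * -; positivity)
  nlinarith only [hlow, hbig, hj]

/-- **Negative solution of Kirchberg's embedding problem**, strong form: there is not even a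
unital *-homomorphism. -/
theorem main_hom : ∃ (A : Type) (_ : CStarAlgebra A), Nontrivial A ∧
    TopologicalSpace.SeparableSpace A ∧
    ∀ (O : Type) [CStarAlgebra O] [Nontrivial O] (s₁ s₂ : O), CuntzTwo s₁ s₂ →
      ∀ ω : Ultrafilter ℕ, ¬ ∃ φ : ℕ → A → O, LiftsHom A O ω φ := by
  have : Fact (Nat.Prime 101) := ⟨by norm_num⟩
  obtain ⟨a, t, s, h⟩ := exists_rels_op 101 ZMod.toCircle
  have : Nontrivial (L2 (Ix 101 × ℕ) ℂ →L[ℂ] L2 (Ix 101 × ℕ) ℂ) := by
    have : Nontrivial (L2 (Ix 101 × ℕ) ℂ) := by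
      classical
      refine ⟨⟨lp.single 2 (⟨0, 0⟩, 0) (1 : ℂ), 0, fun h => ?_⟩⟩
      have := congrArg (fun f : L2 (Ix 101 × ℕ) ℂ => f (⟨0, 0⟩, 0)) h
      simp only [Matrix.zero_empty, lp.single_apply, Pi.single_eq_same, ZeroMemClass.coe_zero, PreLp.zero_apply, one_ne_zero] at this
    infer_instance
  obtain ⟨A, hA, hA1, hA2, a', t', s', h'⟩ := exists_separable 101 ZMod.toCircle h
  refine ⟨A, hA, hA1, hA2, ?_⟩
  intro O _ _ s₁ s₂ hO ω hemb
  obtain ⟨φ, hφ⟩ := hemb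
  exact not_lifts (by norm_num) (by norm_num) ZMod.injective_toCircle h' hO hφ

/-- **Negative solution of Kirchberg's embedding problem.** -/
theorem main : ∃ (A : Type) (_ : CStarAlgebra A), Nontrivial A ∧
    TopologicalSpace.SeparableSpace A ∧
    ∀ (O : Type) [CStarAlgebra O] [Nontrivial O] (s₁ s₂ : O), CuntzTwo s₁ s₂ →
      ∀ ω : Ultrafilter ℕ, ¬ EmbedsIn A O ω := by
  obtain ⟨A, hA, hA1, hA2, h⟩ := main_hom
  refine ⟨A, hA, hA1, hA2, ?_⟩
  intro O _ _ s₁ s₂ hO ω hemb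
  obtain ⟨φ, hφ⟩ := hemb
  exact h O s₁ s₂ hO ω ⟨φ, liftsHom_of_liftsEmbedding hφ⟩

end

end Vale.Agent.P083N
end
end

section

section

open Filter Topology
open scoped BoundedContinuousFunction

namespace Vale.Agent.P083N

open Vale.Agent.P083

noncomputable section

/-- Kirchberg's embedding problem, quotient formulation. -/
theorem main_quot :
    (∃ (O : Type) (_ : CStarAlgebra O) (_ : Nontrivial O) (s₁ s₂ : O), CuntzTwo s₁ s₂) ∧
    (∀ (O : Type) [CStarAlgebra O] [Nontrivial O] (ω : Ultrafilter ℕ),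
      ∃ (Q : Type) (_ : CStarAlgebra Q) (q : (ℕ →ᵇ O) →⋆ₐ[ℂ] Q), IsUltrapower O ω Q q) ∧
    ∃ (A : Type) (_ : CStarAlgebra A), Nontrivial A ∧ TopologicalSpace.SeparableSpace A ∧
      ∀ (O : Type) [CStarAlgebra O] [Nontrivial O] (s₁ s₂ : O), CuntzTwo s₁ s₂ →
        ∀ (ω : Ultrafilter ℕ) (Q : Type) [CStarAlgebra Q] (q : (ℕ →ᵇ O) →⋆ₐ[ℂ] Q),
          IsUltrapower O ω Q q → IsEmpty (A →⋆ₐ[ℂ] Q) := by
  refine ⟨exists_cuntz, fun O _ _ ω => exists_isUltrapower O ω, ?_⟩
  obtain ⟨A, hA, hA1, hA2, h⟩ := main_hom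
  refine ⟨A, hA, hA1, hA2, ?_⟩
  intro O _ _ s₁ s₂ hO ω Q _ q hq
  exact ⟨fun Φ => h O s₁ s₂ hO ω (exists_liftsHom hq Φ)⟩

end

end Vale.Agent.P083N
end
end
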